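import Mathlib

/-!
P092 (helper333), project Q for all amplifications: `K ⊗ ℂ^Q`, the irreducible monomial group
`F = ℤˣ ≀ᵣ Q`, operators `T ⊗ 1`, and the tight vector made of a finite Parseval frame.
-/

set_option linter.all false

open scoped InnerProductSpace Topology
open Filter ContinuousLinearMap

namespace Vale.Agent.P092.H333.Amp

/-- `K ⊗ ℂ^Q` -/
abbrev KT (Q K : Type) [Fintype Q] : Type := PiLp 2 (fun _ : Q => K)

/-- the monomial group -/
abbrev FG (Q : Type) [Group Q] : Type := RegularWreathProduct ℤˣ Q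

section basic

variable {Q K E : Type} [Group Q] [Fintype Q] [NormedAddCommGroup K] [InnerProductSpace ℂ K]
  [NormedAddCommGroup E] [InnerProductSpace ℂ E]

/-- a continuous linear map with values in `K ⊗ ℂ^Q` -/
noncomputable def mk (f : Q → (E →L[ℂ] K)) : E →L[ℂ] KT Q K :=
  ((PiLp.continuousLinearEquiv 2 ℂ (fun _ : Q => K)).symm : (Q → K) →L[ℂ] KT Q K) ∘L
    ContinuousLinearMap.pi f

theorem mk_apply (f : Q → (E →L[ℂ] K)) (e : E) (j : Q) : mk f e j = f j e := rfl

/-- the coordinates -/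
noncomputable def co (j : Q) : KT Q K →L[ℂ] K := PiLp.proj 2 (fun _ : Q => K) j

theorem co_apply (j : Q) (v : KT Q K) : co j v = v j := rfl

theorem ext_co {u v : KT Q K} (h : ∀ j, u j = v j) : u = v := PiLp.ext h

open Classical in
/-- the embeddings -/
noncomputable def em (j : Q) : K →L[ℂ] KT Q K := mk fun i => if i = j then 1 else 0

theorem em_same (j : Q) (u : K) : em j u j = u := by
  rw [em, mk_apply, if_pos rfl]; rfl

theorem em_ne {i j : Q} (h : i ≠ j) (u : K) : em j u i = 0 := by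
  rw [em, mk_apply, if_neg h]; rfl

theorem sum_em (v : KT Q K) : ∑ j, em j (v j) = v := by
  classical
  apply ext_co
  intro i
  have h1 : (∑ j, em j (v j)) i = ∑ j, (em j (v j)) i := by
    rw [← co_apply, map_sum]; rfl
  rw [h1, Finset.sum_eq_single i]
  · exact em_same i _
  · intro j _ hj
    exact em_ne hj.symm _
  · intro h; exact absurd (Finset.mem_univ i) h

theorem inner_KT (u v : KT Q K) : ⟪u, v⟫_ℂ = ∑ j, ⟪u j, v j⟫_ℂ := PiLp.inner_apply u v

theorem norm_sq_KT (v : KT Q K) : ‖v‖ ^ 2 = ∑ j, ‖v j‖ ^ 2 := by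
  have h1 : ((‖v‖ ^ 2 : ℝ) : ℂ) = ((∑ j, ‖v j‖ ^ 2 : ℝ) : ℂ) := by
    have h2 := inner_KT v v
    rw [inner_self_eq_norm_sq_to_K] at h2
    push_cast
    rw [← Complex.coe_algebraMap] at *
    refine h2.trans (Finset.sum_congr rfl fun j _ => ?_)
    rw [inner_self_eq_norm_sq_to_K]
  exact_mod_cast h1

/-- `T ⊗ 1` -/
noncomputable def amp (T : K →L[ℂ] K) : KT Q K →L[ℂ] KT Q K := mk fun j => T ∘L co j

theorem amp_apply (T : K →L[ℂ] K) (v : KT Q K) (j : Q) : amp T v j = T (v j) := rfl

theorem amp_em (T : K →L[ℂ] K) (j : Q) (u : K) : amp T (em j u) = em j (T u) := by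
  apply ext_co
  intro i
  rw [amp_apply]
  by_cases h : i = j
  · subst h
    rw [em_same, em_same]
  · rw [em_ne h, em_ne h, map_zero]

theorem amp_one : amp (Q := Q) (1 : K →L[ℂ] K) = 1 := by
  ext1 v; exact ext_co fun j => rfl

theorem amp_mul (S T : K →L[ℂ] K) : amp (Q := Q) (S * T) = amp S * amp T := by
  ext1 v; exact ext_co fun j => rfl

theorem amp_add (S T : K →L[ℂ] K) : amp (Q := Q) (S + T) = amp S + amp T := by
  ext1 v; exact ext_co fun j => rfl

theorem amp_sub (S T : K →L[ℂ] K) : amp (Q := Q) (S - T) = amp S - amp T := by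
  ext1 v; exact ext_co fun j => rfl

theorem amp_smul (c : ℂ) (T : K →L[ℂ] K) : amp (Q := Q) (c • T) = c • amp T := by
  ext1 v; exact ext_co fun j => rfl

theorem amp_zero : amp (Q := Q) (0 : K →L[ℂ] K) = 0 := by
  ext1 v; exact ext_co fun j => rfl

theorem amp_inj {S T : K →L[ℂ] K} (h : amp (Q := Q) S = amp T) : S = T := by
  ext1 u
  have h1 := congrArg (fun L : KT Q K →L[ℂ] KT Q K => L (em 1 u) 1) h
  change amp S (em 1 u) 1 = amp T (em 1 u) 1 at h1
  rwa [amp_apply, amp_apply, em_same] at h1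

theorem norm_em (j : Q) (u : K) : ‖em j u‖ = ‖u‖ := by
  classical
  have h1 := norm_sq_KT (em j u)
  rw [Finset.sum_eq_single j] at h1
  · rw [em_same] at h1
    exact (pow_left_inj₀ (norm_nonneg _) (norm_nonneg _) two_ne_zero).mp h1
  · intro i _ hi
    rw [em_ne hi, norm_zero]; norm_num
  · intro h; exact absurd (Finset.mem_univ j) h

theorem norm_amp (T : K →L[ℂ] K) : ‖amp (Q := Q) T‖ = ‖T‖ := by
  apply le_antisymm
  · refine ContinuousLinearMap.opNorm_le_bound _ (norm_nonneg _) fun v => ?_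
    have h1 := norm_sq_KT (amp T v)
    have h2 : ∑ j, ‖amp T v j‖ ^ 2 ≤ ‖T‖ ^ 2 * ‖v‖ ^ 2 := by
      rw [norm_sq_KT v, Finset.mul_sum]
      refine Finset.sum_le_sum fun j _ => ?_
      rw [← mul_pow, amp_apply]
      exact pow_le_pow_left₀ (norm_nonneg _) (T.le_opNorm _) 2
    rw [← h1, ← mul_pow] at h2
    exact (pow_le_pow_iff_left₀ (norm_nonneg _) (by positivity) two_ne_zero).mp h2
  · refine ContinuousLinearMap.opNorm_le_bound _ (norm_nonneg (amp (Q := Q) T)) fun u => ?_
    rw [← norm_em (1 : Q) (T u), ← amp_em, ← norm_em (1 : Q) u]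
    exact ContinuousLinearMap.le_opNorm (amp (Q := Q) T) (em 1 u)

/-- the monomial unitaries -/
noncomputable def sg (f : FG Q) : KT Q K →L[ℂ] KT Q K :=
  mk fun j => (((f.left j : ℤ) : ℂ)) • co (f.right⁻¹ * j)

theorem sg_apply (f : FG Q) (v : KT Q K) (j : Q) :
    sg f v j = (((f.left j : ℤ) : ℂ)) • v (f.right⁻¹ * j) := rfl

theorem sg_one : sg (1 : FG Q) = (1 : KT Q K →L[ℂ] KT Q K) := by
  ext1 v
  apply ext_co
  intro j
  rw [sg_apply]
  simp

theorem sg_mul (f g : FG Q) : sg (f * g) = sg f * (sg g : KT Q K →L[ℂ] KT Q K) := by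
  ext1 v
  apply ext_co
  intro j
  change _ = sg f (sg g v) j
  rw [sg_apply, sg_apply, sg_apply, smul_smul]
  simp only [RegularWreathProduct.mul_left, RegularWreathProduct.mul_right, Pi.mul_apply,
    Units.val_mul, Int.cast_mul, mul_inv_rev, mul_assoc]

theorem amp_sg (T : K →L[ℂ] K) (f : FG Q) : amp T * sg f = sg f * amp T := by
  ext1 v
  apply ext_co
  intro j
  change amp T (sg f v) j = sg f (amp T v) j
  rw [amp_apply, sg_apply, sg_apply, map_smul, amp_apply]

end basic

section adj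

variable {Q K : Type} [Group Q] [Fintype Q] [NormedAddCommGroup K] [InnerProductSpace ℂ K]
  [CompleteSpace K]

theorem adjoint_amp (T : K →L[ℂ] K) : adjoint (amp (Q := Q) T) = amp (adjoint T) := by
  symm
  rw [eq_adjoint_iff]
  intro u v
  rw [inner_KT, inner_KT]
  refine Finset.sum_congr rfl fun j _ => ?_
  rw [amp_apply, amp_apply, adjoint_inner_left]

theorem adjoint_sg (f : FG Q) : adjoint (sg f : KT Q K →L[ℂ] KT Q K) = sg f⁻¹ := by
  symm
  rw [eq_adjoint_iff]
  intro u v
  rw [inner_KT, inner_KT]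
  rw [← Equiv.sum_comp (Equiv.mulLeft f.right⁻¹) fun j => ⟪(sg f⁻¹ u : KT Q K) j, v j⟫_ℂ]
  refine Finset.sum_congr rfl fun j _ => ?_
  rw [sg_apply, sg_apply, inner_smul_left, inner_smul_right]
  have e1 : (f⁻¹.left ((Equiv.mulLeft f.right⁻¹) j) : ℤˣ) = (f.left j)⁻¹ := by
    change (f.left⁻¹ (f.right * (f.right⁻¹ * j))) = _
    rw [mul_inv_cancel_left]; rfl
  have e2 : f⁻¹.right⁻¹ * (Equiv.mulLeft f.right⁻¹) j = j := by
    change (f.right⁻¹)⁻¹ * (f.right⁻¹ * j) = j
    rw [inv_inv, mul_inv_cancel_left]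
  rw [e1, e2]
  have e3 : ((Equiv.mulLeft f.right⁻¹) j : Q) = f.right⁻¹ * j := rfl
  rw [e3]
  congr 1
  rw [Int.units_inv_eq_self]
  simp

/-- the operators commuting with the monomial group -/
theorem comm_sg {T : KT Q K →L[ℂ] KT Q K} (h : ∀ f : FG Q, T * sg f = sg f * T) :
    ∃ T' : K →L[ℂ] K, T = amp T' := by
  classical
  have hT : ∀ f v, T (sg f v) = sg f (T v) := fun f v =>
    congrArg (fun L : KT Q K →L[ℂ] KT Q K => L v) (h f)
  -- the off-diagonal entries vanish
  have h1 : ∀ i j, i ≠ j → ∀ u : K, T (em j u) i = 0 := by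
    intro i j hij u
    let f : FG Q := ⟨Function.update 1 i (-1), 1⟩
    have e1 : sg f (em j u) = em j u := by
      apply ext_co
      intro k
      rw [sg_apply]
      by_cases hk : k = i
      · subst hk
        have : f.right⁻¹ * k = k := by simp [f]
        rw [this, em_ne hij, smul_zero]
      · have e2 : f.left k = 1 := by simp [f, Function.update_of_ne hk]
        have e3 : f.right⁻¹ * k = k := by simp [f]
        rw [e2, e3]; simp
    have e4 := hT f (em j u)
    rw [e1] at e4
    have e5 := congrArg (fun w : KT Q K => w i) e4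
    change T (em j u) i = sg f (T (em j u)) i at e5
    rw [sg_apply] at e5
    have e2 : f.left i = -1 := by simp [f]
    have e3 : f.right⁻¹ * i = i := by simp [f]
    rw [e2, e3] at e5
    have e6 : T (em j u) i = - T (em j u) i := by
      refine e5.trans ?_
      simp
    have e7 : (2 : ℂ) • T (em j u) i = 0 := by
      rw [two_smul]
      nth_rewrite 2 [e6]
      exact add_neg_cancel _
    exact (smul_eq_zero.mp e7).resolve_left two_ne_zero
  -- the diagonal entries agree
  have h2 : ∀ (q : Q) (u : K), T (em q u) q = T (em 1 u) 1 := by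
    intro q u
    let f : FG Q := ⟨1, q⟩
    have e1 : sg f (em 1 u) = em q u := by
      apply ext_co
      intro k
      rw [sg_apply]
      have e0 : (((f.left k : ℤˣ) : ℤ) : ℂ) = 1 := by simp [f]
      rw [e0, one_smul]
      by_cases hk : k = q
      · subst hk
        have : f.right⁻¹ * k = 1 := by simp [f]
        rw [this, em_same, em_same]
      · have : f.right⁻¹ * k ≠ 1 := by
          intro h0
          apply hk
          have h3 : q⁻¹ * k = 1 := h0
          exact (inv_mul_eq_one.mp h3).symm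
        rw [em_ne this, em_ne hk]
    have e4 := hT f (em 1 u)
    rw [e1] at e4
    have e5 := congrArg (fun w : KT Q K => w q) e4
    change T (em q u) q = sg f (T (em 1 u)) q at e5
    rw [sg_apply] at e5
    have e0 : (((f.left q : ℤˣ) : ℤ) : ℂ) = 1 := by simp [f]
    have e6 : f.right⁻¹ * q = 1 := by simp [f]
    rw [e0, one_smul, e6] at e5
    exact e5
  refine ⟨co 1 ∘L T ∘L em 1, ?_⟩
  ext1 v
  apply ext_co
  intro i
  rw [amp_apply]
  change T v i = T (em 1 (v i)) 1
  have e1 : T v i = ∑ j, T (em j (v j)) i := by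
    conv_lhs => rw [← sum_em v, map_sum]
    rw [← co_apply, map_sum]; rfl
  rw [e1, Finset.sum_eq_single i]
  · exact h2 i _
  · intro j _ hj
    exact h1 i j hj.symm _
  · intro h; exact absurd (Finset.mem_univ i) h

end adj

end Vale.Agent.P092.H333.Amp
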