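import Vale.Agent.P092.H333.ErgT
import Vale.Agent.P092.H962.MT1
import Vale.Agent.P092.H58.Frame

/-!
P092 (helper333), ERG-T: stripping the matrix indices of the two legs, and the ergodicity of the
amplified comultiplication from the ergodicity of the stripped one.
-/

set_option linter.all false

open scoped InnerProductSpace
open Filter Topology ContinuousLinearMap
open Vale.Agent.P092.H160 Vale.Agent.P092.H103 Vale.Agent.P092.H962

namespace Vale.Agent.P092.H333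

section strip

variable {I J K Λ : Type} [Group Λ]

/-- `dl () ↦ dl j` -/
noncomputable def ei (j : J) : Ell2 Unit →L[ℂ] Ell2 J :=
  (innerSL ℂ (dl () : Ell2 Unit)).smulRight (dl j)

theorem ei_dl (j : J) (u : Unit) : ei j (dl u) = dl j := by
  change ⟪(dl () : Ell2 Unit), dl u⟫_ℂ • dl j = dl j
  rw [inner_dl, dl_self, one_smul]

theorem ei_iso (j : J) : adjoint (ei j) ∘L ei j = 1 := by
  apply op_ext
  intro u
  apply ext_inner_dl
  intro u'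
  rw [← inner_dl, comp_apply, adjoint_inner_right, ei_dl, inner_dl, dl_self]
  exact (dl_self ()).symm

/-- the embedding with matrix indices `j`, `k` -/
noncomputable def Fe (I Λ : Type) [Group Λ] (j : J) (k : K) :
    Ell2 (I × ((Unit × Λ) × (Unit × Λ))) →L[ℂ] Ell2 (I × ((J × Λ) × (K × Λ))) :=
  tens 1 (tens (tens (ei j) 1) (tens (ei k) 1))

theorem Fe_dl (i : I) (j : J) (k : K) (u u' : Unit) (a b : Λ) :
    Fe I Λ j k (dl (i, ((u, a), (u', b)))) = dl (i, ((j, a), (k, b))) := by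
  rw [Fe, tens_dl, tens_dl, tens_dl, tens_dl, ei_dl, ei_dl]
  simp only [ContinuousLinearMap.one_apply]
  rw [← dl_prod, ← dl_prod, ← dl_prod, ← dl_prod]

theorem one_comp_one {X : Type} :
    (1 : Ell2 X →L[ℂ] Ell2 X) ∘L (1 : Ell2 X →L[ℂ] Ell2 X) = 1 := rfl

theorem adjoint_Fe (j : J) (k : K) : adjoint (Fe I Λ j k) =
    tens 1 (tens (tens (adjoint (ei j)) 1) (tens (adjoint (ei k)) 1)) := by
  rw [Fe, adjoint_tens, adjoint_tens, adjoint_tens, adjoint_tens, adjoint_one', adjoint_one']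

theorem Fe_iso (j : J) (k : K) : adjoint (Fe I Λ j k) ∘L Fe I Λ j k = 1 := by
  rw [adjoint_Fe, Fe, tens_comp, tens_comp, tens_comp, tens_comp, ei_iso, ei_iso]
  simp only [one_comp_one, tens_one]

theorem Fe_Fe (j j' : J) (k k' : K) : Fe I Λ j k ∘L adjoint (Fe I Λ j' k') =
    tens 1 (tens (tens (ei j ∘L adjoint (ei j')) 1) 1) *
      tens 1 (tens 1 (tens (ei k ∘L adjoint (ei k')) 1)) := by
  rw [adjoint_Fe, Fe, tens_comp, tens_comp, tens_comp, tens_comp, ← tens_mul, ← tens_mul]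
  simp only [one_comp_one, one_mul, mul_one]

theorem tens_mem_MR (m : Ell2 J →L[ℂ] Ell2 J) :
    tens m (1 : Ell2 Λ →L[ℂ] Ell2 Λ) ∈ MR J Λ := fun s => by
  rw [← tens_mul, ← tens_mul, one_mul, one_mul, mul_one, mul_one]

theorem rho_mem_MR (t : Λ) : tens (1 : Ell2 J →L[ℂ] Ell2 J) (rho t) ∈ MR J Λ := fun s => by
  rw [← tens_mul, ← tens_mul]
  congr 1
  exact rho_lam t s

/-- coordinates of the vectors `VT x (dl p)` -/
theorem rei_eV_tv (u : Ell2 (I × Λ)) (j : J) (k : K) (m : Λ) :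
    rei (eV I J K Λ).symm (tv u (dl (j, (k, m)))) =
      Fe I Λ j k (rei (eV I Unit Unit Λ).symm (tv u (dl ((), ((), m))))) := by
  have h1 : rei (eV I J K Λ).symm ∘L tvl (dl (j, (k, m))) =
      Fe I Λ j k ∘L (rei (eV I Unit Unit Λ).symm ∘L tvl (dl ((), ((), m)))) := by
    apply op_ext
    rintro ⟨i, a⟩
    change rei (eV I J K Λ).symm (tv (dl (i, a)) (dl (j, (k, m)))) =
      Fe I Λ j k (rei (eV I Unit Unit Λ).symm (tv (dl (i, a)) (dl ((), ((), m)))))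
    rw [← dl_prod, ← dl_prod, rei_dl, rei_dl]
    exact (Fe_dl i j k () () a (a * m)).symm
  exact congrArg (fun L : Ell2 (I × Λ) →L[ℂ] Ell2 (I × ((J × Λ) × (K × Λ))) => L u) h1

theorem VT_dl (x : Ell2 (I × Λ) →L[ℂ] Ell2 (I × Λ)) (i : I) (j : J) (k : K) (a b : Λ) :
    VT J K x (dl (i, ((j, a), (k, b)))) =
      rei (eV I J K Λ).symm (tv (x (dl (i, a))) (dl (j, (k, a⁻¹ * b)))) := by
  change rei (eV I J K Λ).symm (tens x 1 (rei (eV I J K Λ) (dl (i, ((j, a), (k, b)))))) = _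
  rw [rei_dl]
  change rei (eV I J K Λ).symm (tens x 1 (dl ((i, a), (j, (k, a⁻¹ * b))))) = _
  rw [tens_dl]
  rfl

theorem VT_Fe (x : Ell2 (I × Λ) →L[ℂ] Ell2 (I × Λ)) (j : J) (k : K) :
    VT J K x ∘L Fe I Λ j k = Fe I Λ j k ∘L VT Unit Unit x := by
  apply op_ext
  rintro ⟨i, ⟨u, a⟩, ⟨u', b⟩⟩
  rw [comp_apply, comp_apply, Fe_dl, VT_dl, VT_dl]
  exact rei_eV_tv _ _ _ _

theorem ext_Fe {F : Type} [NormedAddCommGroup F] [NormedSpace ℂ F]
    {S T : Ell2 (I × ((J × Λ) × (K × Λ))) →L[ℂ] Ell2 (I × ((J × Λ) × (K × Λ)))}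
    (h : ∀ j k, S ∘L Fe I Λ j k = T ∘L Fe I Λ j k) : S = T := by
  apply op_ext
  rintro ⟨i, ⟨j, a⟩, ⟨k, b⟩⟩
  have h1 := congrArg (fun L : Ell2 (I × ((Unit × Λ) × (Unit × Λ))) →L[ℂ]
    Ell2 (I × ((J × Λ) × (K × Λ))) => L (dl (i, (((), a), ((), b))))) (h j k)
  change S (Fe I Λ j k (dl (i, (((), a), ((), b))))) = T (Fe I Λ j k (dl (i, (((), a), ((), b)))))
    at h1
  rwa [Fe_dl] at h1

theorem one_comp' {X Y : Type} (f : Ell2 X →L[ℂ] Ell2 Y) : (1 : Ell2 Y →L[ℂ] Ell2 Y) ∘L f = f := rfl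

theorem comp_one' {X Y : Type} (f : Ell2 X →L[ℂ] Ell2 Y) : f ∘L (1 : Ell2 X →L[ℂ] Ell2 X) = f := rfl

/-- the target operators of both legs -/
noncomputable def RR (I J K : Type) (y z : Ell2 Λ →L[ℂ] Ell2 Λ) :
    Ell2 (I × ((J × Λ) × (K × Λ))) →L[ℂ] Ell2 (I × ((J × Λ) × (K × Λ))) :=
  tens 1 (tens (tens 1 y) (tens 1 z))

theorem RR_Fe (j : J) (k : K) (y z : Ell2 Λ →L[ℂ] Ell2 Λ) :
    RR I J K y z ∘L Fe I Λ j k = Fe I Λ j k ∘L RR I Unit Unit y z := by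
  rw [RR, RR, Fe, tens_comp, tens_comp, tens_comp, tens_comp, tens_comp, tens_comp, tens_comp,
    tens_comp]
  simp only [one_comp', comp_one']

theorem Fe_RR (j : J) (k : K) (y z : Ell2 Λ →L[ℂ] Ell2 Λ) :
    adjoint (Fe I Λ j k) ∘L RR I J K y z = RR I Unit Unit y z ∘L adjoint (Fe I Λ j k) := by
  rw [RR, RR, adjoint_Fe, tens_comp, tens_comp, tens_comp, tens_comp, tens_comp, tens_comp,
    tens_comp, tens_comp]
  simp only [one_comp', comp_one']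

theorem RR_eq (y z : Ell2 Λ →L[ℂ] Ell2 Λ) :
    RR I J K y z = tens 1 (tens (tens 1 y) 1) * tens 1 (tens 1 (tens 1 z)) := by
  rw [RR, ← tens_mul, ← tens_mul, one_mul, one_mul, mul_one]

theorem Fe_VT (x : Ell2 (I × Λ) →L[ℂ] Ell2 (I × Λ)) (j : J) (k : K) :
    adjoint (Fe I Λ j k) ∘L VT J K x = VT Unit Unit x ∘L adjoint (Fe I Λ j k) := by
  have e1 := congrArg adjoint (VT_Fe (J := J) (K := K) (adjoint x) j k)
  rw [adjoint_comp, adjoint_comp, VT_adj, VT_adj, adjoint_adjoint] at e1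
  exact e1

end strip

section abs

variable {B U W : Type} [NormedAddCommGroup U] [InnerProductSpace ℂ U] [CompleteSpace U]
  [NormedAddCommGroup W] [InnerProductSpace ℂ W] [CompleteSpace W]
  {F : B → (U →L[ℂ] W)} {b0 : B} {X : W →L[ℂ] W}

theorem strip_all (hF : adjoint (F b0) ∘L F b0 = 1)
    (hX : ∀ b, X * (F b ∘L adjoint (F b0)) = (F b ∘L adjoint (F b0)) * X) (b : B) :
    X ∘L F b = F b ∘L (adjoint (F b0) ∘L X ∘L F b0) := by
  ext1 u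
  have h1 := congrArg (fun L : W →L[ℂ] W => L (F b0 u)) (hX b)
  change X (F b (adjoint (F b0) (F b0 u))) = F b (adjoint (F b0) (X (F b0 u))) at h1
  have h2 : adjoint (F b0) (F b0 u) = u := congrArg (fun L : U →L[ℂ] U => L u) hF
  rw [h2] at h1
  exact h1

theorem strip_comm {a : W →L[ℂ] W} {a' : U →L[ℂ] U} (h1 : a ∘L F b0 = F b0 ∘L a')
    (h2 : adjoint (F b0) ∘L a = a' ∘L adjoint (F b0)) (h : X * a = a * X) :
    (adjoint (F b0) ∘L X ∘L F b0) * a' = a' * (adjoint (F b0) ∘L X ∘L F b0) := by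
  ext1 u
  have e1 : a (F b0 u) = F b0 (a' u) := congrArg (fun L : U →L[ℂ] W => L u) h1
  have e2 : X (a (F b0 u)) = a (X (F b0 u)) := congrArg (fun L : W →L[ℂ] W => L (F b0 u)) h
  have e3 : adjoint (F b0) (a (X (F b0 u))) = a' (adjoint (F b0) (X (F b0 u))) :=
    congrArg (fun L : W →L[ℂ] U => L (X (F b0 u))) h2
  change adjoint (F b0) (X (F b0 (a' u))) = a' (adjoint (F b0) (X (F b0 u)))
  rw [← e1, e2, e3]

theorem strip_left {a : W →L[ℂ] W} {a' : U →L[ℂ] U}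
    (h2 : adjoint (F b0) ∘L a = a' ∘L adjoint (F b0)) (h : a * X = X) :
    a' * (adjoint (F b0) ∘L X ∘L F b0) = adjoint (F b0) ∘L X ∘L F b0 := by
  ext1 u
  have e2 : a (X (F b0 u)) = X (F b0 u) := congrArg (fun L : W →L[ℂ] W => L (F b0 u)) h
  have e3 : adjoint (F b0) (a (X (F b0 u))) = a' (adjoint (F b0) (X (F b0 u))) :=
    congrArg (fun L : W →L[ℂ] U => L (X (F b0 u))) h2
  change a' (adjoint (F b0) (X (F b0 u))) = adjoint (F b0) (X (F b0 u))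
  rw [← e3, e2]

end abs


section final

variable {I J K Λ Γ : Type} [Group Λ] [Group Γ] [Fintype I] [Fintype J] [Fintype K]
  {α : Γ → (Ell2 (I × Λ) →L[ℂ] Ell2 (I × Λ))}
  {β : Γ → (Ell2 (J × Λ) →L[ℂ] Ell2 (J × Λ))} {γ : Γ → (Ell2 (K × Λ) →L[ℂ] Ell2 (K × Λ))}

theorem AF.nonempty (hβ : AF β) : Nonempty J := by
  by_contra h
  rw [not_nonempty_iff] at h
  refine hβ.ne ?_
  apply op_ext
  rintro ⟨j, s⟩
  exact (h.false j).elim

theorem fsum_of_icc (hΛ : ∀ s : Λ, s ≠ 1 → Set.Infinite {y : Λ | ∃ h, y = h * s * h⁻¹})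
    (hβ : AF β) : FSum β := by
  obtain ⟨m, v, h1, -, -, h2⟩ := H58.exists_rows_JT hβ hΛ
  exact ⟨Fin m, inferInstance, v, h1, h2⟩

/-- The ergodicity of the stripped comultiplication. -/
def ErgU (α : Γ → (Ell2 (I × Λ) →L[ℂ] Ell2 (I × Λ))) (Θ : Set Γ) : Prop :=
  ∀ X : Ell2 (I × ((Unit × Λ) × (Unit × Λ))) →L[ℂ] Ell2 (I × ((Unit × Λ) × (Unit × Λ))),
    VT Unit Unit (α 1) * X = X → X * VT Unit Unit (α 1) = X →
    (∀ s t : Λ, X * tens 1 (tens (tens 1 (rho s)) (tens 1 (rho t))) =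
      tens 1 (tens (tens 1 (rho s)) (tens 1 (rho t))) * X) →
    (∀ g ∈ Θ, X * VT Unit Unit (α g) = VT Unit Unit (α g) * X) →
    ∃ c : ℂ, X = c • VT Unit Unit (α 1)

/-- The case of an operator commuting with `M_J(R(Λ))` and `M_K(R(Λ))`. -/
theorem erg_lift (j0 : J) (k0 : K) {Θ : Set Γ} (hU : ErgU α Θ)
    {X : Ell2 (I × ((J × Λ) × (K × Λ))) →L[ℂ] Ell2 (I × ((J × Λ) × (K × Λ)))}
    (h1 : ∀ y ∈ MR J Λ, X * tens 1 (tens y 1) = tens 1 (tens y 1) * X)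
    (h2 : ∀ z ∈ MR K Λ, X * tens 1 (tens 1 z) = tens 1 (tens 1 z) * X)
    (hP : VT J K (α 1) * X = X) (hP' : X * VT J K (α 1) = X)
    (hXg : ∀ g ∈ Θ, X * VT J K (α g) = VT J K (α g) * X) :
    ∃ c : ℂ, X = c • VT J K (α 1) := by
  have hc : ∀ p : J × K, X * (Fe I Λ p.1 p.2 ∘L adjoint (Fe I Λ j0 k0)) =
      (Fe I Λ p.1 p.2 ∘L adjoint (Fe I Λ j0 k0)) * X := by
    intro p
    rw [Fe_Fe, ← mul_assoc, h1 _ (tens_mem_MR _), mul_assoc, h2 _ (tens_mem_MR _), mul_assoc]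
  have hall := strip_all (F := fun p : J × K => Fe I Λ p.1 p.2) (b0 := (j0, k0)) (X := X)
    (Fe_iso j0 k0) hc
  have hcm : ∀ {a : Ell2 (I × ((J × Λ) × (K × Λ))) →L[ℂ] Ell2 (I × ((J × Λ) × (K × Λ)))}
      {a' : Ell2 (I × ((Unit × Λ) × (Unit × Λ))) →L[ℂ] Ell2 (I × ((Unit × Λ) × (Unit × Λ)))},
      a ∘L Fe I Λ j0 k0 = Fe I Λ j0 k0 ∘L a' →
      adjoint (Fe I Λ j0 k0) ∘L a = a' ∘L adjoint (Fe I Λ j0 k0) → X * a = a * X →
      (adjoint (Fe I Λ j0 k0) ∘L X ∘L Fe I Λ j0 k0) * a' =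
        a' * (adjoint (Fe I Λ j0 k0) ∘L X ∘L Fe I Λ j0 k0) := fun e1 e2 h =>
    strip_comm (F := fun p : J × K => Fe I Λ p.1 p.2) (b0 := (j0, k0)) e1 e2 h
  have hl : VT Unit Unit (α 1) * (adjoint (Fe I Λ j0 k0) ∘L X ∘L Fe I Λ j0 k0) =
      adjoint (Fe I Λ j0 k0) ∘L X ∘L Fe I Λ j0 k0 :=
    strip_left (F := fun p : J × K => Fe I Λ p.1 p.2) (b0 := (j0, k0)) (Fe_VT _ _ _) hP
  have hr := hcm (VT_Fe (α 1) j0 k0) (Fe_VT (α 1) j0 k0) (hP'.trans hP.symm)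
  rw [hl] at hr
  obtain ⟨c, hc'⟩ := hU (adjoint (Fe I Λ j0 k0) ∘L X ∘L Fe I Λ j0 k0) hl hr (fun s t =>
      hcm (RR_Fe j0 k0 (rho s) (rho t)) (Fe_RR j0 k0 (rho s) (rho t)) (by
        rw [RR_eq, ← mul_assoc, h1 _ (rho_mem_MR s), mul_assoc, h2 _ (rho_mem_MR t), mul_assoc]))
    (fun g hg => hcm (VT_Fe (α g) j0 k0) (Fe_VT (α g) j0 k0) (hXg g hg))
  refine ⟨c, ext_Fe (F := ℂ) fun j k => ?_⟩
  have h3 := hall (j, k)
  change X ∘L Fe I Λ j k = Fe I Λ j k ∘L (adjoint (Fe I Λ j0 k0) ∘L X ∘L Fe I Λ j0 k0) at h3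
  rw [h3, hc', comp_smul, smul_comp, VT_Fe]

/-- **Ergodicity of the amplified comultiplication.** -/
theorem erg_t (hΛ : ∀ s : Λ, s ≠ 1 → Set.Infinite {y : Λ | ∃ h, y = h * s * h⁻¹})
    (hα : AF α) (hβ : AF β) (hγ : AF γ) {Θ : Set Γ} (hU : ErgU α Θ)
    {X : Ell2 (I × ((J × Λ) × (K × Λ))) →L[ℂ] Ell2 (I × ((J × Λ) × (K × Λ)))}
    (hV : VT J K (α 1) * X = X) (hV' : X * VT J K (α 1) = X)
    (h1 : R1T I K (β 1) * X = X) (h1' : X * R1T I K (β 1) = X)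
    (h2 : R2T I J (γ 1) * X = X) (h2' : X * R2T I J (γ 1) = X)
    (hX1 : ∀ g, X * R1T I K (β g) = R1T I K (β g) * X)
    (hX2 : ∀ g, X * R2T I J (γ g) = R2T I J (γ g) * X)
    (hXV : ∀ g ∈ Θ, X * VT J K (α g) = VT J K (α g) * X) :
    ∃ c : ℂ, X = c • (VT J K (α 1) * R1T I K (β 1) * R2T I J (γ 1)) := by
  obtain ⟨X', hX'1, hX'2, hX'3, hX'4, hX'5, hX'6⟩ := exists_lift hβ hγ (fsum_of_icc hΛ hβ)
    (fsum_of_icc hΛ hγ) h1 h1' h2 h2' hX1 hX2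
  have hc1 : ∀ g, ∀ y ∈ MR J Λ, tens 1 (tens y 1) * VT J K (α g) =
      VT J K (α g) * tens 1 (tens y 1) := by
    intro g y hy
    have := comm_VR1 (I := I) (K := K) (hα.comm g) (eqv_of_MR hy)
    rw [R1T, JT_JT] at this
    exact this.symm
  have hc2 : ∀ g, ∀ z ∈ MR K Λ, tens 1 (tens 1 z) * VT J K (α g) =
      VT J K (α g) * tens 1 (tens 1 z) := by
    intro g y hy
    have := comm_VR2 (I := I) (J := J) (hα.comm g) (eqv_of_MR hy)
    rw [R2T, JT_JT] at this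
    exact this.symm
  obtain ⟨j0⟩ := AF.nonempty hβ
  obtain ⟨k0⟩ := AF.nonempty hγ
  obtain ⟨c, hX'c⟩ := erg_lift j0 k0 hU hX'1 hX'2 (hX'5 _ hV (hc1 1) (hc2 1))
    (hX'6 _ hV' (hc1 1) (hc2 1)) (fun g hg => hX'4 _ (hXV g hg) (hc1 g) (hc2 g))
  refine ⟨c, ?_⟩
  rw [← hX'3, hX'c]
  have e1 : R2T I J (γ 1) * VT J K (α 1) = VT J K (α 1) * R2T I J (γ 1) :=
    (comm_VR2 (hα.comm 1) (hγ.comm 1)).symm
  have e2 : R1T I K (β 1) * VT J K (α 1) = VT J K (α 1) * R1T I K (β 1) :=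
    (comm_VR1 (hα.comm 1) (hβ.comm 1)).symm
  rw [mul_smul_comm, mul_smul_comm, e1, ← mul_assoc, e2]

end final

end Vale.Agent.P092.H333
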