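import Vale.Agent.P092.H333.TopT
import Vale.Agent.P092.Q.Final
import Vale.Agent.P092.H58.EndC

/-!
P092 (helper333), project Q for all amplifications: the final statement from the blocks.
-/

set_option linter.all false

open scoped InnerProductSpace Topology ENNReal
open Filter ContinuousLinearMap MeasureTheory

namespace Vale.Agent.P092.H333.Amp

open Vale.Agent.P092.H160 (Ell2)
open Vale.Agent.P092.H103 (AF)
open Vale.Agent.P092.H515.St (IsLattice LocK)
open Vale.Agent.P092.SR.St (ICC SuperAll)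
open Vale.Agent.P092.H962
open Vale.Agent.P092.H971 (pj pjq)
open Vale.Agent.P092.SR (PSLk)

/-- Ergodicity at all places, for all amplified frames. -/
def ErgAllT {Γ P : Type} [Group Γ] {G : P → Type} [∀ i, Group (G i)]
    [∀ i, TopologicalSpace (G i)] (p : ∀ i, Γ →* G i) : Prop :=
  ∀ (Λ : Type) [Group Λ] [Countable Λ] (I : Type) [Fintype I]
    (α : Γ → (Ell2 (I × Λ) →L[ℂ] Ell2 (I × Λ))) (hα : AF α), ICC Λ → ∀ i,
    ∀ (β : Γ → (Ell2 (I × Λ) →L[ℂ] Ell2 (I × Λ))) (hβ : AF β),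
      ErgC (p i) (V3 hα hα hβ) (A3R hα hα hβ) (B3R hα hα hβ)

/-- Nonvanishing for every source place, for all amplified frames. -/
def NeAllT {Γ P : Type} [Group Γ] {G : P → Type} [∀ i, Group (G i)]
    [∀ i, TopologicalSpace (G i)] [∀ i, MeasurableSpace (G i)] (p : ∀ i, Γ →* G i)
    (μ : ∀ i, Measure (G i)) : Prop :=
  ∀ (Λ : Type) [Group Λ] [Countable Λ] (I : Type) [Fintype I]
    (α : Γ → (Ell2 (I × Λ) →L[ℂ] Ell2 (I × Λ))) (hα : AF α), ICC Λ → ∀ i,
    ∀ (β : Γ → (Ell2 (I × Λ) →L[ℂ] Ell2 (I × Λ))) (hβ : AF β), ∃ j,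
      NeC (p j) (p i) (V3 hα hα hβ) (A3R hα hα hβ) (B3R hα hα hβ) (μ j)

section canon

variable {Γ P : Type} [Group Γ] [Fintype P] {G : P → Type}
  [∀ i, Group (G i)] [∀ i, TopologicalSpace (G i)] [∀ i, IsTopologicalGroup (G i)]
  [∀ i, LocallyCompactSpace (G i)] [∀ i, SecondCountableTopology (G i)] [∀ i, T2Space (G i)]
  [∀ i, MeasurableSpace (G i)] [∀ i, BorelSpace (G i)]

/-- **The conclusion of project Q for all amplifications, for a group with the data `Grp`.** -/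
theorem superAll_q (B : QT.Q.Blk) (hicc : ICC Γ) {p : ∀ i, Γ →* G i}
    (μ : ∀ i, Measure (G i)) [∀ i, (μ i).IsHaarMeasure] [∀ i, (μ i).IsMulRightInvariant]
    {m : Measure (∀ i, G i)} (h : Q.Grp p m) (erg : ErgAllT p) (ne : NeAllT p μ) :
    SuperAll Γ := by
  intro Λ _ _ hΛ n q hq θ
  haveI := h.countable
  have hα := H103.af_of hicc hq θ
  obtain ⟨s, η, c, hc, hov⟩ := top_t B hicc hΛ hα p μ m h.lat h.fac h.dense h.esc
    (fun i β hβ => erg Λ (Fin n) _ hα hΛ i β hβ) (fun i β hβ => ne Λ (Fin n) _ hα hΛ i β hβ)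
  exact H58.canonM_of_overlap hicc hΛ hq θ rfl hα η hc hov

end canon

/-- [QT-ERG] ergodicity at all places. -/
def ErgStmtT : Prop :=
  ∀ (I : Type) [Fintype I] (n : I → ℕ) (k : I → Type) [∀ i, NontriviallyNormedField (k i)]
    [∀ i, ProperSpace (k i)], (∀ i, LocK (k i)) → (∀ i, 2 ≤ n i) →
    ∀ Γ : Subgroup (∀ i, Matrix.SpecialLinearGroup (Fin (n i)) (k i)), IsLattice Γ →
    (∀ i, DenseRange (pj Γ i)) → SR.St.ICC Γ → ErgAllT (pjq Γ)

/-- [QT-NE] nonvanishing. -/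
def NeStmtT : Prop :=
  ∀ (I : Type) [Fintype I] (n : I → ℕ) (k : I → Type) [∀ i, NontriviallyNormedField (k i)]
    [∀ i, ProperSpace (k i)] [∀ i, MeasurableSpace (PSLk (n i) (k i))]
    [∀ i, BorelSpace (PSLk (n i) (k i))] (μ : ∀ i, Measure (PSLk (n i) (k i)))
    [∀ i, (μ i).IsHaarMeasure] [∀ i, (μ i).IsMulRightInvariant], (∀ i, LocK (k i)) →
    (∀ i, 2 ≤ n i) →
    ∀ Γ : Subgroup (∀ i, Matrix.SpecialLinearGroup (Fin (n i)) (k i)), IsLattice Γ →
    (∀ i, DenseRange (pj Γ i)) → SR.St.ICC Γ → NeAllT (pjq Γ) μ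

/-- **The final statement, subgroup form.** -/
theorem superAll_sub (B : QT.Q.Blk) (hG : Q.GrpStmt) (hE : ErgStmtT) (hN : NeStmtT) {I : Type}
    [Fintype I] (n : I → ℕ) (k : I → Type) [∀ i, NontriviallyNormedField (k i)]
    [∀ i, ProperSpace (k i)] (hk : ∀ i, LocK (k i)) (hn : ∀ i, 2 ≤ n i)
    (Γ : Subgroup (∀ i, Matrix.SpecialLinearGroup (Fin (n i)) (k i))) (hΓ : IsLattice Γ)
    (hd : ∀ i, DenseRange (pj Γ i)) (hicc : SR.St.ICC Γ) : SuperAll Γ := by
  letI : ∀ i, MeasurableSpace (PSLk (n i) (k i)) := fun i => borel _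
  haveI : ∀ i, BorelSpace (PSLk (n i) (k i)) := fun i => ⟨rfl⟩
  obtain ⟨m, h⟩ := hG I n k hk hn Γ hΓ hd hicc
  haveI := fun i => (h.fac i).top
  haveI := fun i => (h.fac i).lc
  haveI := fun i => (h.fac i).sc
  haveI := fun i => (h.fac i).t2
  haveI : ∀ i, (Measure.haar : Measure (PSLk (n i) (k i))).IsMulRightInvariant := fun i =>
    (h.fac i).isMulRightInvariant _
  exact superAll_q B hicc (fun i => Measure.haar) h (hE I n k hk hn Γ hΓ hd hicc)
    (hN I n k (fun i => Measure.haar) hk hn Γ hΓ hd hicc)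

/-- **The final statement**, all local fields, all amplifications. -/
theorem superAll_final (B : QT.Q.Blk) (hG : Q.GrpStmt) (hE : ErgStmtT) (hN : NeStmtT) (Γ : Type)
    [Group Γ] (h : Q.St.ProductLattice Γ) : SuperAll Γ := by
  obtain ⟨hicc, I, _, k, _, n, i, hp, hk, hn, hi, hlat, hd⟩ := h
  haveI := hp
  have e : Γ ≃* i.range := MonoidHom.ofInjective hi
  have h1 : SuperAll i.range := superAll_sub B hG hE hN n k hk hn i.range hlat (fun j => by
    refine (hd j).mono ?_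
    rintro _ ⟨g, rfl⟩
    exact ⟨⟨i g, g, rfl⟩, rfl⟩) fun g hg => H133.icc_equiv e hicc g hg
  intro Λ _ _ hΛ N q hq θ
  exact ⟨(h1 Λ hΛ N q hq (H133.transC e θ)).1,
    H133.canonicalM_transC e θ (h1 Λ hΛ N q hq _).2⟩

end Vale.Agent.P092.H333.Amp
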