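import Vale.Agent.P092.QT.Q.Mat
import Vale.Agent.P092.QT.Q.Alg
import Vale.Agent.P092.QT.Q.End
import Vale.Agent.P092.QT.H448.Gal2
import Vale.Agent.P092.QT.H720.C1
import Vale.Agent.P092.QT.H978.C2c
import Vale.Agent.P092.QT.H565.C3
import Vale.Agent.P092.H971.QGrp
import Vale.Agent.P092.H333.FinQT

/-!
P092 (helper333), project Q for all amplifications: all blocks plugged in.
-/

namespace Vale.Agent.P092.H333.Amp

theorem blkT : QT.Q.Blk where
  mat := QT.Q.matStmt
  two := QT.Q.twoStmt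
  alg := QT.Q.algStmt
  gal := Vale.Agent.P092.QT.H448.Gal.galStmt
  c1 := QT.H720.c1Stmt
  c2 := QT.H978.c2Stmt
  c3 := QT.H565.c3Stmt
  fin := QT.Q.endStmt

/-- The final statement of Q-T modulo ergodicity and nonvanishing. -/
theorem superAll_mod (hE : ErgStmtT) (hN : NeStmtT) (Γ : Type) [Group Γ]
    (h : Q.St.ProductLattice Γ) : SR.St.SuperAll Γ :=
  superAll_final blkT H971.grpStmt hE hN Γ h

end Vale.Agent.P092.H333.Amp
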