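import Vale.Agent.P092.H333.DblT
import Vale.Agent.P092.QT.H465.ErgCont
import Vale.Agent.P092.H962.MT5

/-!
P092 (helper333), project Q for all amplifications: ergodicity for operators which are continuous
under the conjugation (`ErgC`), its transport, and the ergodicity (`QT.H805.Erg`) of the frames of
`ℋ ⊗ ℂ^Q`.
-/

set_option linter.all false

open scoped InnerProductSpace Topology
open Filter ContinuousLinearMap

namespace Vale.Agent.P092.H333.Amp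

open Vale.Agent.P092.H160 (Cmm)
open Vale.Agent.P092.SR (Tri ErgAt)
open Vale.Agent.P092.QT (TRep)
open Vale.Agent.P092.QT.H156.Sm (Frm)
open Vale.Agent.P092.QT.H715.Q (Dbl)
open Vale.Agent.P092.H962 (AU)

section abs

variable {Γ H ℋ : Type} [Group Γ] [Group H] [TopologicalSpace H] [NormedAddCommGroup ℋ]
  [InnerProductSpace ℂ ℋ] [CompleteSpace ℋ]

/-- Ergodicity for operators which are continuous under the conjugation by `V`, place `κ`. -/
def ErgC (κ : Γ →* H) (V A B : Γ →* (ℋ →L[ℂ] ℋ)) : Prop :=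
  ∀ x : ℋ →L[ℂ] ℋ, (∀ g, x * A g = A g * x) → (∀ g, x * B g = B g * x) →
    (∀ ζ : ℋ, ∀ ε : ℝ, 0 < ε → ∃ W ∈ 𝓝 (1 : H), ∀ v, κ v ∈ W →
      ‖(V v * x * V v⁻¹ - x) ζ‖ ≤ ε) → ∃ c : ℂ, x = c • (1 : ℋ →L[ℂ] ℋ)

variable {X : Type} [Group X] {ρ : X →* (ℋ →L[ℂ] ℋ)} {ω : ℋ} {κ : Γ →* H}

/-- Continuity at the tight vector implies continuity at all vectors. -/
theorem cont_all (h : TRep ρ ω) {y : Γ → (ℋ →L[ℂ] ℋ)} (hy : ∀ v, Cmm ρ (y v)) {C : ℝ}
    (hC : ∀ v, ‖y v‖ ≤ C)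
    (hc : ∀ ε : ℝ, 0 < ε → ∃ W ∈ 𝓝 (1 : H), ∀ v, κ v ∈ W → ‖y v ω‖ ≤ ε) (ζ : ℋ) :
    ∀ ε : ℝ, 0 < ε → ∃ W ∈ 𝓝 (1 : H), ∀ v, κ v ∈ W → ‖y v ζ‖ ≤ ε := by
  classical
  obtain ⟨S, hS⟩ : ∃ S : Submodule ℂ ℋ, ∀ w, w ∈ S ↔ ∀ ε : ℝ, 0 < ε → ∃ W ∈ 𝓝 (1 : H),
      ∀ v, κ v ∈ W → ‖y v w‖ ≤ ε := by
    refine ⟨{ carrier := {w | ∀ ε : ℝ, 0 < ε → ∃ W ∈ 𝓝 (1 : H), ∀ v, κ v ∈ W → ‖y v w‖ ≤ ε}
              add_mem' := ?_, zero_mem' := ?_, smul_mem' := ?_ }, fun w => Iff.rfl⟩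
    · intro a b ha hb ε hε
      obtain ⟨W, hW, h1⟩ := ha (ε / 2) (by positivity)
      obtain ⟨W', hW', h1'⟩ := hb (ε / 2) (by positivity)
      refine ⟨W ∩ W', inter_mem hW hW', fun v hv => ?_⟩
      rw [map_add]
      calc _ ≤ ‖y v a‖ + ‖y v b‖ := norm_add_le _ _
        _ ≤ ε / 2 + ε / 2 := add_le_add (h1 v hv.1) (h1' v hv.2)
        _ = ε := by ring
    · intro ε hε
      exact ⟨Set.univ, univ_mem, fun v _ => by rw [map_zero, norm_zero]; exact hε.le⟩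
    · intro c a ha ε hε
      obtain ⟨W, hW, h1⟩ := ha (ε / (‖c‖ + 1)) (by positivity)
      refine ⟨W, hW, fun v hv => ?_⟩
      rw [map_smul, norm_smul]
      calc ‖c‖ * ‖y v a‖ ≤ (‖c‖ + 1) * (ε / (‖c‖ + 1)) := by
            gcongr
            · linarith
            · exact h1 v hv
        _ = ε := by field_simp
  have hC0 : 0 ≤ C := (norm_nonneg _).trans (hC 1)
  have hcl : IsClosed (S : Set ℋ) := by
    refine isClosed_of_closure_subset fun w hw => ?_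
    refine (hS w).2 fun ε hε => ?_
    obtain ⟨w', hw', hd⟩ := Metric.mem_closure_iff.mp hw (ε / (2 * (C + 1))) (by positivity)
    obtain ⟨W, hW, h1⟩ := (hS w').1 hw' (ε / 2) (by positivity)
    refine ⟨W, hW, fun v hv => ?_⟩
    have e1 : y v w = y v w' + y v (w - w') := by rw [map_sub]; abel
    rw [e1]
    have h2 : ‖y v (w - w')‖ ≤ ε / 2 := by
      refine ((y v).le_opNorm _).trans ?_
      rw [dist_eq_norm] at hd
      calc ‖y v‖ * ‖w - w'‖ ≤ (C + 1) * (ε / (2 * (C + 1))) := by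
            gcongr
            exact (hC v).trans (by linarith)
        _ = ε / 2 := by field_simp
    calc _ ≤ ‖y v w'‖ + ‖y v (w - w')‖ := norm_add_le _ _
      _ ≤ ε / 2 + ε / 2 := add_le_add (h1 v hv) h2
      _ = ε := by ring
  have htop : S = ⊤ := by
    have h1 : Sᗮ = ⊥ := by
      rw [Submodule.eq_bot_iff]
      intro u hu
      refine h.total u fun x => ?_
      refine Submodule.inner_right_of_mem_orthogonal ?_ hu
      refine (hS _).mpr fun ε hε => ?_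
      obtain ⟨W, hW, h1⟩ := hc ε hε
      refine ⟨W, hW, fun v hv => ?_⟩
      rw [(hy v).apply x ω, h.norm_map]
      exact h1 v hv
    have h2 : S.topologicalClosure = S := IsClosed.submodule_topologicalClosure_eq hcl
    rw [← h2]
    exact (Submodule.topologicalClosure_eq_top_iff).mpr h1
  exact (hS ζ).1 (by rw [htop]; trivial)

variable {Q : Type} [Group Q] [Fintype Q] {V A B : Γ →* (ℋ →L[ℂ] ℋ)}

theorem norm_V (hV : ∀ g, adjoint (V g) = V g⁻¹) (g : Γ) (u : ℋ) : ‖V g u‖ = ‖u‖ := by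
  have h1 : ⟪V g u, V g u⟫_ℂ = ⟪u, u⟫_ℂ := by
    rw [← adjoint_inner_right, hV]
    have h2 : V g⁻¹ * V g = 1 := by rw [← map_mul, inv_mul_cancel, map_one]
    exact congrArg (fun w => ⟪u, w⟫_ℂ) (congrArg (fun L : ℋ →L[ℂ] ℋ => L u) h2)
  rw [inner_self_eq_norm_sq_to_K, inner_self_eq_norm_sq_to_K] at h1
  have h2 : ‖V g u‖ ^ 2 = ‖u‖ ^ 2 := by exact_mod_cast h1
  exact (pow_left_inj₀ (norm_nonneg _) (norm_nonneg _) two_ne_zero).mp h2

theorem norm_cjV (hV : ∀ g, adjoint (V g) = V g⁻¹) (x : ℋ →L[ℂ] ℋ) (g : Γ) :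
    ‖V g * x * V g⁻¹ - x‖ ≤ 2 * ‖x‖ := by
  have hVo : ∀ g, ‖V g‖ ≤ 1 := fun g =>
    ContinuousLinearMap.opNorm_le_bound _ zero_le_one fun u => by rw [norm_V hV, one_mul]
  calc ‖V g * x * V g⁻¹ - x‖ ≤ ‖V g * x * V g⁻¹‖ + ‖x‖ := norm_sub_le _ _
    _ ≤ ‖V g‖ * ‖x‖ * ‖V g⁻¹‖ + ‖x‖ := by
        gcongr
        exact (norm_mul_le _ _).trans (by gcongr; exact norm_mul_le _ _)
    _ ≤ 1 * ‖x‖ * 1 + ‖x‖ := by
        gcongr
        · exact hVo g
        · exact hVo g⁻¹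
    _ = 2 * ‖x‖ := by ring

/-- operators commuting with `rt (pr A B)` -/
theorem cmm_rt {h : ∀ g k, A g * B k = B k * A g} {T : KT Q ℋ →L[ℂ] KT Q ℋ}
    (hT : Cmm (rt Q (pr A B h)) T) :
    ∃ x : ℋ →L[ℂ] ℋ, T = amp x ∧ (∀ g, x * A g = A g * x) ∧ ∀ g, x * B g = B g * x := by
  have h1 : ∀ f : FG Q, T * sg f = sg f * T := by
    intro f
    have h2 := hT (1, f)
    rw [rt_apply, map_one, amp_one, one_mul] at h2
    exact h2
  obtain ⟨x, rfl⟩ := comm_sg h1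
  refine ⟨x, rfl, fun g => ?_, fun g => ?_⟩
  · apply amp_inj (Q := Q)
    have h2 := hT ((g, 1), 1)
    rw [rt_apply, pr_apply, sg_one, mul_one, map_one, mul_one] at h2
    rw [amp_mul, amp_mul]
    exact h2
  · apply amp_inj (Q := Q)
    have h2 := hT ((1, g), 1)
    rw [rt_apply, pr_apply, sg_one, mul_one, map_one, one_mul] at h2
    rw [amp_mul, amp_mul]
    exact h2

/-- **Ergodicity of the frame of `ℋ ⊗ ℂ^Q`.** -/
theorem erg_amp {h : ∀ g k, A g * B k = B k * A g} {w : KT Q ℋ}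
    (hF : Frm (rt Q (pr A B h)) (av Q V) w) (hE : ErgC κ V A B) :
    QT.H805.Erg κ (rt Q (pr A B h)) (av Q V) w := by
  intro T hT hcont
  obtain ⟨x, rfl, hA, hB⟩ := cmm_rt hT
  have e1 : ∀ v, av Q V v * amp x * av Q V v⁻¹ - amp x = amp (V v * x * V v⁻¹ - x) := by
    intro v
    rw [av_apply, av_apply, ← amp_mul, ← amp_mul, ← amp_sub]
  have hy : ∀ v, Cmm (rt Q (pr A B h)) (av Q V v * amp x * av Q V v⁻¹ - amp x) := fun v =>
    (((hF.comm v).mul hT).mul (hF.comm v⁻¹)).sub hT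
  have hC : ∀ v, ‖av Q V v * amp x * av Q V v⁻¹ - amp x‖ ≤ 2 * ‖amp (Q := Q) x‖ := fun v =>
    norm_cjV hF.adj _ v
  obtain ⟨c, hc⟩ := hE x hA hB (fun ζ ε hε => by
    obtain ⟨W, hW, h1⟩ := cont_all hF.reg hy hC hcont (em 1 ζ) ε hε
    refine ⟨W, hW, fun v hv => ?_⟩
    have h2 := h1 v hv
    rw [e1, amp_em, norm_em] at h2
    exact h2)
  refine ⟨c, ?_⟩
  rw [hc, amp_smul, amp_one]

/-- **From exact ergodicity to `ErgC`**, places with a basis of open subgroups. -/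
theorem ergC_td {ι : Type} [Fintype ι] {ξ : ι → ℋ} (hT : Tri V A B ξ)
    (htr : ∀ g, g ≠ 1 → ∑ k, ⟪ξ k, V g (ξ k)⟫_ℂ = 0)
    (hb : ∀ W ∈ 𝓝 (1 : H), ∃ U : Subgroup H, IsOpen (U : Set H) ∧ (U : Set H) ⊆ W)
    (he : ErgAt V A B κ) : ErgC κ V A B := by
  intro x hA hB hcont
  have hcard : Fintype.card ι ≤ Fintype.card (Multiplicative (ZMod (Fintype.card ι + 1))) := by
    rw [Fintype.card_multiplicative, ZMod.card]
    exact Nat.le_succ _
  obtain ⟨w, hF, -⟩ := exists_frm (Q := Multiplicative (ZMod (Fintype.card ι + 1))) hT htr hcard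
  have hamp : Cmm (rt (Multiplicative (ZMod (Fintype.card ι + 1))) (pr A B hT.comm₁₂))
      (amp (Q := Multiplicative (ZMod (Fintype.card ι + 1))) x) := by
    rintro ⟨⟨a, b⟩, f⟩
    rw [rt_apply, pr_apply, ← mul_assoc, ← amp_mul]
    have e1 : x * (A a * B b) = (A a * B b) * x := by
      rw [← mul_assoc, hA, mul_assoc, hB, mul_assoc]
    rw [e1, amp_mul, mul_assoc, amp_sg, mul_assoc]
  have e1 : ∀ v, av (Multiplicative (ZMod (Fintype.card ι + 1))) V v * amp x *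
      av (Multiplicative (ZMod (Fintype.card ι + 1))) V v⁻¹ - amp x =
        amp (V v * x * V v⁻¹ - x) := by
    intro v
    rw [av_apply, av_apply, ← amp_mul, ← amp_mul, ← amp_sub]
  obtain ⟨c, hc⟩ := QT.H465.erg_cont hF.reg hF.adj hF.comm hamp (fun ε hε => by
    -- continuity at the tight vector
    have h1 : ∃ W ∈ 𝓝 (1 : H), ∀ v, κ v ∈ W →
        ‖(amp (Q := Multiplicative (ZMod (Fintype.card ι + 1))) (V v * x * V v⁻¹ - x)) w‖ ≤ ε := by
      set n : ℕ := Fintype.card (Multiplicative (ZMod (Fintype.card ι + 1))) with hn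
      have hn0 : 0 < n := Fintype.card_pos
      choose W hW h2 using fun j => hcont (w j) (ε / n) (by positivity)
      refine ⟨⋂ j, W j, Filter.iInter_mem.mpr hW, fun v hv => ?_⟩
      have h3 : ∀ j, ‖(V v * x * V v⁻¹ - x) (w j)‖ ≤ ε / n := fun j =>
        h2 j v (Set.mem_iInter.1 hv j)
      have h4 : amp (V v * x * V v⁻¹ - x) w =
          ∑ j, em j ((V v * x * V v⁻¹ - x) (w j)) := by
        rw [← sum_em (amp (V v * x * V v⁻¹ - x) w)]
        rfl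
      rw [h4]
      refine (norm_sum_le _ _).trans ?_
      calc ∑ j, ‖em j ((V v * x * V v⁻¹ - x) (w j))‖ ≤ ∑ j : Multiplicative
            (ZMod (Fintype.card ι + 1)), ε / n := by
            refine Finset.sum_le_sum fun j _ => ?_
            rw [norm_em]
            exact h3 j
        _ = ε := by
            rw [Finset.sum_const, Finset.card_univ, ← hn, nsmul_eq_mul]
            field_simp
    obtain ⟨W, hW, h2⟩ := h1
    obtain ⟨U, hU, hUW⟩ := hb W hW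
    refine ⟨U.comap κ, fun y hy hyV => ?_, fun θ hθ => ?_⟩
    · obtain ⟨x', rfl, hA', hB'⟩ := cmm_rt hy
      obtain ⟨c, hc⟩ := he U hU x' (fun g hg => by
        apply amp_inj (Q := Multiplicative (ZMod (Fintype.card ι + 1)))
        rw [amp_mul, amp_mul]
        exact hyV g hg) hA' hB'
      exact ⟨c, by rw [hc, amp_smul, amp_one]⟩
    · have h3 := h2 θ (hUW hθ)
      rw [← e1] at h3
      exact h3)
  refine ⟨c, amp_inj (Q := Multiplicative (ZMod (Fintype.card ι + 1))) ?_⟩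
  rw [hc, amp_smul, amp_one]

end abs

section au

variable {Γ H ℋ ℋ' : Type} [Group Γ] [Group H] [TopologicalSpace H] [NormedAddCommGroup ℋ]
  [InnerProductSpace ℂ ℋ] [CompleteSpace ℋ] [NormedAddCommGroup ℋ'] [InnerProductSpace ℂ ℋ']
  [CompleteSpace ℋ'] {σ : ℂ → ℂ} {U : ℋ → ℋ'} {U' : ℋ' → ℋ} (h : AU σ U U') {κ : Γ →* H}
  {S T R : Γ →* (ℋ →L[ℂ] ℋ)} {S' T' R' : Γ →* (ℋ' →L[ℂ] ℋ')}

include h in
theorem ergC_au (hS : ∀ g v, U (S g v) = S' g (U v)) (hT : ∀ g v, U (T g v) = T' g (U v))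
    (hR : ∀ g v, U (R g v) = R' g (U v)) (he : ErgC κ S T R) : ErgC κ S' T' R' := by
  intro x h2 h3 h4
  have hs := h.symm
  obtain ⟨c, hc⟩ := he (hs.cj x)
    (fun g => hs.cj_comm (h.inter_symm hT g) (h2 g))
    (fun g => hs.cj_comm (h.inter_symm hR g) (h3 g))
    (fun ζ ε hε => by
      obtain ⟨W, hW, h5⟩ := h4 (U ζ) ε hε
      refine ⟨W, hW, fun v hv => ?_⟩
      have h6 := h5 v hv
      have e1 : ∀ u, U' (S' v u) = S v (U' u) := fun u => h.inter_symm hS v u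
      have hsub : ∀ a b, U' (a - b) = U' a - U' b := by
        intro a b
        have h7 := hs.add (a - b) b
        rw [sub_add_cancel] at h7
        rw [h7, add_sub_cancel_right]
      have e2 : (S v * hs.cj x * S v⁻¹ - hs.cj x) ζ = U' ((S' v * x * S' v⁻¹ - x) (U ζ)) := by
        change S v (U' (x (U (S v⁻¹ ζ)))) - U' (x (U ζ)) =
          U' (S' v (x (S' v⁻¹ (U ζ))) - x (U ζ))
        rw [hsub, h.inter_symm hS v, hS]
      rw [e2, h.norm']
      exact h6)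
  refine ⟨σ c, ?_⟩
  have e := hs.cj_cj x
  rw [hc] at e
  rw [← e]
  exact h.cj_scalar c

end au

end Vale.Agent.P092.H333.Amp
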