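import Vale.Agent.P092.H333.Rep

/-!
P092 (helper333): `Bd`, helper448's hypothesis `hU` for `U = cj`, and the coefficient formula.
-/

set_option linter.all false

open scoped InnerProductSpace Topology ENNReal Pointwise
open Filter ContinuousLinearMap MeasureTheory
open Vale.Agent.P092.H160 Vale.Agent.P092.H156.Sm

namespace Vale.Agent.P092.H333

section bd

variable {Γ Λ G K : Type} [Group Γ] [Group Λ] [Countable Γ] [Group G] [TopologicalSpace G]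
  [IsTopologicalGroup G] [MeasurableSpace G] [BorelSpace G]
  [NormedAddCommGroup K] [InnerProductSpace ℂ K] [CompleteSpace K]
  {ρ : Γ →* (K →L[ℂ] K)} {V : Λ →* (K →L[ℂ] K)} {ω : K} {ι : Γ →* G} {μ : Measure G}
  [μ.IsMulLeftInvariant]
  {C C' : ℝ} {b b' : G → K →L[ℂ] K} {ξ ξ' : Lp K 2 μ}

theorem rho_inv_ap (ρ : Γ →* (K →L[ℂ] K)) (g : Γ) (u : K) : ρ g⁻¹ (ρ g u) = u := by
  rw [← mul_ap, ← map_mul, inv_mul_cancel, map_one]; rfl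

/-- the operators with the columns of `ξ` at `x` are the values of the field -/
theorem IsFld.val (h : RegRep ρ ω) (hb : IsFld ρ ω ι μ C b ξ) :
    ∀ᵐ x ∂μ, (∀ γ, b x (ρ γ⁻¹ ω) = ρ γ⁻¹ (ξ (ι γ * x))) ∧
      ∀ T : K →L[ℂ] K, (∀ γ, T (ρ γ⁻¹ ω) = ρ γ⁻¹ (ξ (ι γ * x))) → T = b x := by
  filter_upwards [hb.equiv, ae_all_trans (Γ := Γ) (ι := ι) hb.eq] with x h1 h2
  have h3 : ∀ γ, b x (ρ γ⁻¹ ω) = ρ γ⁻¹ (ξ (ι γ * x)) := by
    intro γ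
    rw [h2, h1, mul_ap, mul_ap, rho_inv_ap]
  refine ⟨h3, fun T hT => h.ext_op fun g => ?_⟩
  have h4 := hT g⁻¹
  have h5 := h3 g⁻¹
  rw [inv_inv] at h4 h5
  rw [h4, h5]

/-- **`Bd`** is membership in `CC`. -/
theorem bd_iff (h : RegRep ρ ω) (hC : 0 ≤ C) :
    (∀ᵐ x ∂μ, ∃ T : K →L[ℂ] K, ‖T‖ ≤ C ∧ ∀ γ, T (ρ γ⁻¹ ω) = ρ γ⁻¹ (ξ (ι γ * x))) ↔
      ξ ∈ CC ρ ω ι μ C := by
  refine ⟨fun h1 => (mem_CC_iff h hC).2 ?_, ?_⟩
  · filter_upwards [h1] with x ⟨T, hT, hx⟩ c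
    have h3 : col ρ ι ξ x = (T : K →ₗ[ℂ] K) ∘ₗ em ρ ω := by
      refine Finsupp.lhom_ext' fun g => LinearMap.ext_ring ?_
      change col ρ ι ξ x (Finsupp.single g 1) = T (em ρ ω (Finsupp.single g 1))
      have h4 := hx g⁻¹
      rw [inv_inv] at h4
      rw [col_single, em_single, h4]
    rw [h3]
    exact T.le_of_opNorm_le hT _
  · rintro ⟨b, hb⟩
    filter_upwards [hb.val h] with x hx
    exact ⟨b x, hb.bdd x, hx.1⟩

/-- **helper448's hypothesis** for `U = cj`. -/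
theorem cj_hU [SigmaFinite μ] (h : Frm ρ V ω) (v : Λ) (ξ : Lp K 2 μ) (C : ℝ)
    (hξ : ∀ᵐ x ∂μ, ∃ T : K →L[ℂ] K, ‖T‖ ≤ C ∧ ∀ γ, T (ρ γ⁻¹ ω) = ρ γ⁻¹ (ξ (ι γ * x))) :
    ∀ᵐ x ∂μ, ∀ T : K →L[ℂ] K, (∀ γ, T (ρ γ⁻¹ ω) = ρ γ⁻¹ (ξ (ι γ * x))) →
      ∀ γ, (V v * T * V v⁻¹) (ρ γ⁻¹ ω) = ρ γ⁻¹ ((cj h ι μ v ξ) (ι γ * x)) := by
  have h0 : ∀ᵐ x ∂μ, ∃ T : K →L[ℂ] K, ‖T‖ ≤ max C 0 ∧ ∀ γ, T (ρ γ⁻¹ ω) = ρ γ⁻¹ (ξ (ι γ * x)) := by
    filter_upwards [hξ] with x ⟨T, h1, h2⟩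
    exact ⟨T, h1.trans (le_max_left _ _), h2⟩
  rw [bd_iff h.reg (le_max_right _ _)] at h0
  obtain ⟨b, hb⟩ := h0
  filter_upwards [hb.val h.reg, (hb.cj h v).val h.reg] with x h1 h2 T hT γ
  rw [h1.2 T hT, ← h2.1]

end bd

section coef

variable {Γ Λ G K : Type} [Group Γ] [Group Λ] [Countable Γ] [Group G] [TopologicalSpace G]
  [IsTopologicalGroup G] [MeasurableSpace G] [BorelSpace G]
  [NormedAddCommGroup K] [InnerProductSpace ℂ K] [CompleteSpace K]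
  {ρ : Γ →* (K →L[ℂ] K)} {V : Λ →* (K →L[ℂ] K)} {ω : K} {ι : Γ →* G} {μ : Measure G}
  [μ.IsMulLeftInvariant] [SigmaFinite μ]

theorem hasSum_cg {ι' : Type} {f g : ι' → ℂ} {a : ℂ} (hg : HasSum g a)
    (hfg : ∀ i, f i = g i) : HasSum f a := by
  rw [funext hfg]; exact hg

theorem coef_ae (h : Frm ρ V ω) {S : Set G} (hS : MeasurableSet S) (hμ : μ S ≠ ∞) (v : Λ) :
    ∀ᵐ x ∂μ, HasSum (fun g => (S.indicator (fun _ => (1 : ℂ)) (ι g⁻¹ * x)) *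
      ((‖⟪ρ g ω, V v⁻¹ ω⟫_ℂ‖ ^ 2 : ℝ) : ℂ))
      ⟪ω, cj h ι μ v (indicatorConstLp 2 hS hμ ω) x⟫_ℂ := by
  obtain ⟨b, hb⟩ : indicatorConstLp 2 hS hμ ω ∈ CC ρ ω ι μ 1 := by
    have := indicator_mem (ι := ι) h.reg hS hμ 1
    rwa [map_one] at this
  have h1 : indicatorConstLp 2 hS hμ ω =ᵐ[μ] S.indicator fun _ => ω := indicatorConstLp_coeFn
  filter_upwards [hb.val h.reg, (hb.cj h v).eq, ae_all_trans (Γ := Γ) (ι := ι) h1] with x h2 h3 h4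
  rw [h3]
  have h5 : ⟪ω, (V v * b x * V v⁻¹) ω⟫_ℂ = ⟪V v⁻¹ ω, b x (V v⁻¹ ω)⟫_ℂ := by
    have h6 := h.inner_left v⁻¹ ω (b x (V v⁻¹ ω))
    rw [inv_inv] at h6
    exact h6.symm
  rw [h5]
  have h7 := (h.reg.basis.hasSum_repr (V v⁻¹ ω)).mapL ((innerSL ℂ (V v⁻¹ ω)).comp (b x))
  refine hasSum_cg h7 ?_
  intro g
  rw [map_smul, HilbertBasis.repr_apply_apply, h.reg.basis_apply, comp_apply]
  have h8 := h2.1 g⁻¹
  rw [inv_inv, h4] at h8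
  rw [h8]
  by_cases hx : ι g⁻¹ * x ∈ S
  · rw [Set.indicator_of_mem hx, Set.indicator_of_mem hx, one_mul]
    change _ = ⟪ρ g ω, V v⁻¹ ω⟫_ℂ * ⟪V v⁻¹ ω, ρ g ω⟫_ℂ
    rw [← inner_conj_symm (V v⁻¹ ω), Complex.mul_conj, Complex.normSq_eq_norm_sq]
  · rw [Set.indicator_of_notMem hx, Set.indicator_of_notMem hx, zero_mul, map_zero, map_zero,
      smul_zero]

theorem indicator_trans (S : Set G) (g : Γ) (x : G) :
    S.indicator (fun _ => (1 : ℂ)) (ι g⁻¹ * x) = (ι g • S).indicator (fun _ => (1 : ℂ)) x := by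
  by_cases hx : ι g⁻¹ * x ∈ S
  · rw [Set.indicator_of_mem hx, Set.indicator_of_mem]
    rw [Set.mem_smul_set_iff_inv_smul_mem, smul_eq_mul, ← map_inv]; exact hx
  · rw [Set.indicator_of_notMem hx, Set.indicator_of_notMem]
    rw [Set.mem_smul_set_iff_inv_smul_mem, smul_eq_mul, ← map_inv]; exact hx

theorem integral_trans {S : Set G} (hS : MeasurableSet S) (g : Γ) (c : ℂ) :
    ∫ x in S, S.indicator (fun _ => (1 : ℂ)) (ι g⁻¹ * x) * c ∂μ =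
      ((μ.real (S ∩ ι g • S) : ℝ) : ℂ) * c := by
  simp_rw [indicator_trans]
  rw [integral_mul_const, setIntegral_indicator (hS.const_smul _), integral_const,
    measureReal_restrict_apply_univ, Complex.real_smul, mul_one]

theorem norm_inv_coef (h : Frm ρ V ω) (g : Γ) (v : Λ) :
    ‖⟪ρ g⁻¹ ω, V v⁻¹ ω⟫_ℂ‖ = ‖⟪ρ g ω, V v ω⟫_ℂ‖ := by
  have h1 : ⟪ρ g⁻¹ ω, V v⁻¹ ω⟫_ℂ = ⟪V v ω, ρ g ω⟫_ℂ := by
    rw [h.reg.inner_left, inv_inv, h.inner_left v, (h.comm v⁻¹).apply]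
  rw [h1, norm_inner_symm]

theorem measure_inter_inv (S : Set G) (g : Γ) :
    μ.real (S ∩ ι g⁻¹ • S) = μ.real (S ∩ ι g • S) := by
  rw [measureReal_def, measureReal_def, ← measure_smul μ (ι g) (S ∩ ι g⁻¹ • S),
    Set.smul_set_inter, smul_smul, map_inv, mul_inv_cancel, one_smul, Set.inter_comm]

theorem hasSum_coef (h : Frm ρ V ω) {S : Set G} (hS : MeasurableSet S) (hμ : μ S ≠ ∞) (v : Λ) :
    HasSum (fun g => ((μ.real (S ∩ ι g • S) * ‖⟪ρ g ω, V v ω⟫_ℂ‖ ^ 2 : ℝ) : ℂ))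
      ⟪indicatorConstLp 2 hS hμ ω, cj h ι μ v (indicatorConstLp 2 hS hμ ω)⟫_ℂ := by
  haveI : IsFiniteMeasure (μ.restrict S) := ⟨by
    rw [Measure.restrict_apply_univ]; exact lt_top_iff_ne_top.2 hμ⟩
  have hm : ∀ g, Measurable fun x => S.indicator (fun _ => (1 : ℂ)) (ι g⁻¹ * x) := fun g =>
    (measurable_const.indicator hS).comp (measurable_const_mul _)
  have hle : ∀ g x, ‖S.indicator (fun _ => (1 : ℂ)) (ι g⁻¹ * x)‖ ≤ 1 := by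
    intro g x
    refine (norm_indicator_le_norm_self _ _).trans ?_
    rw [norm_one]
  have h1 : HasSum (fun g => ∫ x in S, S.indicator (fun _ => (1 : ℂ)) (ι g⁻¹ * x) *
      ((‖⟪ρ g ω, V v⁻¹ ω⟫_ℂ‖ ^ 2 : ℝ) : ℂ) ∂μ)
      (∫ x in S, (∑' g, S.indicator (fun _ => (1 : ℂ)) (ι g⁻¹ * x) *
      ((‖⟪ρ g ω, V v⁻¹ ω⟫_ℂ‖ ^ 2 : ℝ) : ℂ)) ∂μ) := by
    refine hasSum_integral_of_summable_integral_norm (fun g => ?_) ?_
    · exact (Integrable.of_bound ((hm g).aestronglyMeasurable) 1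
        (Eventually.of_forall fun x => hle g x)).mul_const _
    · refine Summable.of_nonneg_of_le (fun g => integral_nonneg fun x => norm_nonneg _)
        (fun g => ?_) ((hasSum_norm_sq h.reg (V v⁻¹ ω)).summable.mul_left (μ.real S))
      refine (integral_mono_of_nonneg (Eventually.of_forall fun x => norm_nonneg _)
        (integrable_const (‖⟪ρ g ω, V v⁻¹ ω⟫_ℂ‖ ^ 2)) (Eventually.of_forall fun x => ?_)).trans_eq ?_
      · change ‖_ * _‖ ≤ _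
        rw [norm_mul, Complex.norm_real, Real.norm_of_nonneg (by positivity)]
        exact mul_le_of_le_one_left (by positivity) (hle g x)
      · rw [integral_const, measureReal_restrict_apply_univ, smul_eq_mul]
  have h2 : ⟪indicatorConstLp 2 hS hμ ω, cj h ι μ v (indicatorConstLp 2 hS hμ ω)⟫_ℂ =
      ∫ x in S, (∑' g, S.indicator (fun _ => (1 : ℂ)) (ι g⁻¹ * x) *
      ((‖⟪ρ g ω, V v⁻¹ ω⟫_ℂ‖ ^ 2 : ℝ) : ℂ)) ∂μ := by
    rw [L2.inner_indicatorConstLp_eq_setIntegral_inner ℂ _ hS ω hμ]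
    refine integral_congr_ae (ae_restrict_of_ae ?_)
    filter_upwards [coef_ae (ι := ι) h hS hμ v] with x hx
    exact hx.tsum_eq.symm
  rw [h2]
  refine hasSum_cg ((Equiv.inv Γ).hasSum_iff.2 h1) fun g => ?_
  simp only [Function.comp, Equiv.inv_apply]
  rw [integral_trans hS, measure_inter_inv, norm_inv_coef h]
  push_cast
  rfl

theorem hasSum_coef_re (h : Frm ρ V ω) {S : Set G} (hS : MeasurableSet S) (hμ : μ S ≠ ∞) (v : Λ) :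
    HasSum (fun g => μ.real (S ∩ ι g • S) * ‖⟪ρ g ω, V v ω⟫_ℂ‖ ^ 2)
      (⟪indicatorConstLp 2 hS hμ ω, cj h ι μ v (indicatorConstLp 2 hS hμ ω)⟫_ℂ).re := by
  have h1 := (hasSum_coef (ι := ι) h hS hμ v).mapL Complex.reCLM
  exact h1

/-- lower bound of the coefficient -/
theorem coef_lower (h : Frm ρ V ω) {S : Set G} (hS : MeasurableSet S) (hμ : μ S ≠ ∞) {c B : ℝ}
    {F : Γ → ℝ} (hB : ∀ g, |F g| ≤ B) (hF : ∀ g, c * F g ≤ μ.real (S ∩ ι g • S)) (v : Λ) :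
    c * ∑' g, F g * ‖⟪ρ g ω, V v ω⟫_ℂ‖ ^ 2 ≤
      (⟪indicatorConstLp 2 hS hμ ω, cj h ι μ v (indicatorConstLp 2 hS hμ ω)⟫_ℂ).re := by
  have h1 := hasSum_coef_re (ι := ι) h hS hμ v
  have h2 : Summable fun g => F g * ‖⟪ρ g ω, V v ω⟫_ℂ‖ ^ 2 := by
    refine Summable.of_norm_bounded ((hasSum_norm_sq h.reg (V v ω)).summable.mul_left B)
      fun g => ?_
    rw [norm_mul, Real.norm_eq_abs, Real.norm_of_nonneg (by positivity : 0 ≤ ‖⟪ρ g ω, V v ω⟫_ℂ‖ ^ 2)]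
    exact mul_le_mul_of_nonneg_right (hB g) (by positivity)
  rw [← tsum_mul_left, ← h1.tsum_eq]
  refine (h2.mul_left c).tsum_le_tsum (fun g => ?_) h1.summable
  rw [← mul_assoc]
  exact mul_le_mul_of_nonneg_right (hF g) (by positivity)

end coef

section cpt

variable {G : Type} [Group G] [TopologicalSpace G] [IsTopologicalGroup G] [MeasurableSpace G]
  [BorelSpace G] [LocallyCompactSpace G] [T2Space G] {μ : Measure G}
  [IsFiniteMeasureOnCompacts μ] [μ.IsOpenPosMeasure]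

theorem exists_set {Q : Set G} (hQ : IsCompact Q) :
    ∃ S : Set G, IsCompact S ∧ MeasurableSet S ∧ μ S ≠ ∞ ∧
      ∃ c, 0 < c ∧ ∀ g ∈ Q, c ≤ μ.real (S ∩ g • S) := by
  obtain ⟨W, hW, hW1⟩ := exists_compact_mem_nhds (1 : G)
  have hS : IsCompact (W ∪ Q⁻¹ * W) := hW.union (hQ.inv.mul hW)
  have hSm : μ (W ∪ Q⁻¹ * W) ≠ ∞ := hS.measure_lt_top.ne
  have hWm : μ W ≠ ∞ := hW.measure_lt_top.ne
  refine ⟨W ∪ Q⁻¹ * W, hS, hS.measurableSet, hSm, μ.real W, ?_, fun g hg => ?_⟩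
  · rw [measureReal_def]
    exact ENNReal.toReal_pos (Measure.measure_pos_of_mem_nhds μ hW1).ne' hWm
  · refine measureReal_mono ?_ (ne_top_of_le_ne_top hSm (measure_mono Set.inter_subset_left))
    intro w hw
    refine ⟨Or.inl hw, ?_⟩
    rw [Set.mem_smul_set_iff_inv_smul_mem]
    exact Or.inr (Set.mul_mem_mul (Set.inv_mem_inv.2 hg) hw)

end cpt

end Vale.Agent.P092.H333
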