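import Vale.Agent.P092.H333.FinQT
import Vale.Agent.P092.H632.T.TorR
import Vale.Agent.P092.PA.FacInst

/-!
P092 (helper333), project Q for all amplifications: ergodicity at the totally disconnected places
of a lattice in a product of groups `SL_n(k)` over local fields.
-/

set_option linter.all false

open scoped InnerProductSpace Topology
open Filter ContinuousLinearMap Matrix MeasureTheory

namespace Vale.Agent.P092.H333.Amp

open Vale.Agent.P092.H160 (Ell2)
open Vale.Agent.P092.H103 (AF)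
open Vale.Agent.P092.H515.St (IsLattice)
open Vale.Agent.P092.SR.St (ICC)
open Vale.Agent.P092.H962
open Vale.Agent.P092.H971 (pj pjq)
open Vale.Agent.P092.SR (PSLk)

/-- the two copies of the definition of a local field -/
theorem locK_of {k : Type} [NontriviallyNormedField k] (h : H515.St.LocK k) : H933.LocK k := by
  rcases h with ⟨φ, h⟩ | ⟨φ, h⟩ | h
  · exact H933.LocK.real φ h
  · exact H933.LocK.cplx φ h
  · exact H933.LocK.ultra h

variable {J : Type} [Finite J] {n : J → ℕ} {k : J → Type} [∀ i, NontriviallyNormedField (k i)]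
  [∀ i, ProperSpace (k i)]

/-- Relative ICC at the place `i`, all local fields. -/
theorem ricc_pl (hk : ∀ i, H933.LocK (k i)) (hn : ∀ i, 2 ≤ n i)
    (Γ : Subgroup (∀ i, SpecialLinearGroup (Fin (n i)) (k i)))
    (hlat : IsLattice Γ) (i : J) (hd : DenseRange (pj Γ i)) (hicc : ICC Γ) {h : Γ} (hh : h ≠ 1)
    (U : Subgroup (SpecialLinearGroup (Fin (n i)) (k i)))
    (hU : IsOpen (U : Set (SpecialLinearGroup (Fin (n i)) (k i)))) :
    {x : Γ | ∃ g ∈ U.comap (pj Γ i), x = g * h * g⁻¹}.Infinite := by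
  have := fun i => H971.lc_sl (n i) (k i)
  have := fun i => H971.sc_sl (n i) (k i)
  refine H971.infinite_lift (pj Γ i)
    (QuotientGroup.mk' (Subgroup.center (SpecialLinearGroup (Fin (n i)) (k i))))
    (QuotientGroup.isOpenMap_coe) ?_ (H971.ricc_quot (pj Γ) (H971.pj_inj Γ)
      (by rw [H971.pi_pj]; exact hlat) hicc
      (fun i => H793.finite_center.isCompact) (fun i => (PA.facS_psl (hk i) (hn i)).recu) i hd
      (PA.facS_psl (hk i) (hn i)).cent hh) U hU
  rw [QuotientGroup.ker_mk']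
  exact H793.finite_center

/-- **Ergodicity at a totally disconnected place.** -/
theorem ergC_ultra (hk : ∀ i, H933.LocK (k i)) (hn : ∀ i, 2 ≤ n i)
    (Γ : Subgroup (∀ i, SpecialLinearGroup (Fin (n i)) (k i)))
    (hlat : IsLattice Γ) (i : J) (hd : DenseRange (pj Γ i)) (hicc : ICC Γ)
    (hu : IsUltrametricDist (k i)) {Λ : Type} [Group Λ] {I : Type} [Fintype I]
    {α β : Γ → (Ell2 (I × Λ) →L[ℂ] Ell2 (I × Λ))} (hα : AF α) (hβ : AF β) (hΛ : ICC Λ) :
    ErgC (pjq Γ i) (V3 hα hα hβ) (A3R hα hα hβ) (B3R hα hα hβ) := by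
  obtain ⟨m, m', ξ, hT⟩ := exists_tri hα hα hβ hΛ
  obtain ⟨n₁, n₁', ξ', hT'⟩ := exists_tri' hα hα hβ hΛ
  refine ergC_td hT (fun g hg => tr0 hicc hT hT' g hg) (fun W hW => ?_)
    (ergAt_HH hΛ hα hα hβ fun U hU => ?_)
  · obtain ⟨O, hO, hOo, h1⟩ := mem_nhds_iff.1 hW
    obtain ⟨K, hK, hKO⟩ := (H971.gfStmt (n i) (k i) (hn i)).basis O hOo h1
    exact ⟨K, hK.2, hKO.trans hO⟩
  · have hU' : IsOpen ((U.comap (QuotientGroup.mk' (Subgroup.center
        (SpecialLinearGroup (Fin (n i)) (k i)))) : Subgroup _) :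
        Set (SpecialLinearGroup (Fin (n i)) (k i))) := hU.preimage continuous_quotient_mk'
    refine ergU_of (Θ := (U.comap (QuotientGroup.mk' (Subgroup.center
        (SpecialLinearGroup (Fin (n i)) (k i))))).comap (pj Γ i)) hα
      (fun h hh => ricc_pl hk hn Γ hlat i hd hicc hh _ hU') ?_
    refine H632.T.noClsT hα hΛ (𝒰 := H632.flt (pj Γ i)) (fun U hU S hS => H632.flt_up hU hS)
      (fun U hU U' hU' => H632.flt_inf hU hU') (fun U hU g => H632.flt_conj hU g) ?_
      (H632.volBd (hn i) hd) (H632.T.open_mem_flt _ hU')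
    rintro S ⟨K, hK, -, hKS⟩ h hh
    refine (ricc_pl hk hn Γ hlat i hd hicc hh K hK).mono ?_
    rintro x ⟨g, hg, rfl⟩
    exact ⟨g, hKS hg, rfl⟩

end Vale.Agent.P092.H333.Amp
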