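import Vale.Agent.P092.H333.BlkT
import Vale.Agent.P092.H333.ErgPl
import Vale.Agent.P092.QT.NE.NeSL
import Vale.Agent.P092.H866.T.Erg
import Vale.Agent.P092.H866.ErgL

/-!
P092 (helper333), project Q for all amplifications: the final theorem, without hypotheses.
-/

set_option linter.all false

open scoped InnerProductSpace Topology
open Filter ContinuousLinearMap Matrix MeasureTheory

namespace Vale.Agent.P092.H333.Amp

open Vale.Agent.P092.H971 (pj pjq)

/-- **[QT-ERG]** ergodicity at all places, for all amplified frames and all ICC groups `Λ`. -/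
theorem ergStmtT : ErgStmtT := by
  intro I _ n k _ _ hk' hn Γ hlat hd hicc Λ _ _ J _ α hα hΛ i β hβ
  have hk : ∀ i, H933.LocK (k i) := fun i => locK_of (hk' i)
  rcases H866.conn_or_ultra (hk i) with h | h
  · haveI := h
    haveI : Nontrivial (Fin (n i)) := Fin.nontrivial_iff_two_le.2 (hn i)
    haveI := H866.preconnected_psl (n := Fin (n i)) (k := k i)
    exact H866.T.ergC_conn (PA.facS_psl (hk i) (hn i)) hicc hΛ hα hα hβ
      ((QuotientGroup.mk'_surjective _).denseRange.comp (hd i) continuous_quotient_mk')
  · exact ergC_ultra hk hn Γ hlat i (hd i) hicc h hα hβ hΛ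

/-- **W*-superrigidity of the lattices with dense projections in products of groups `SL_n(k)` over
local fields, for all amplifications.** -/
theorem superAll_qt (Γ : Type) [Group Γ] (h : Q.St.ProductLattice Γ) : SR.St.SuperAll Γ :=
  superAll_final blkT H971.grpStmt ergStmtT (QT.NE.neStmtT_of ergStmtT) Γ h

end Vale.Agent.P092.H333.Amp
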