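import Vale.Agent.P092.H333.Col

/-!
P092 (helper333): the conjugation representation.
-/

set_option linter.all false

open scoped InnerProductSpace Topology ENNReal
open Filter ContinuousLinearMap MeasureTheory
open Vale.Agent.P092.H160

namespace Vale.Agent.P092.H333

section fld

variable {Γ G K : Type} [Group Γ] [Countable Γ] [Group G] [TopologicalSpace G]
  [IsTopologicalGroup G] [MeasurableSpace G] [BorelSpace G]
  [NormedAddCommGroup K] [InnerProductSpace ℂ K] [CompleteSpace K]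
  {ρ : Γ →* (K →L[ℂ] K)} {ω : K} {ι : Γ →* G} {μ : Measure G} [μ.IsMulLeftInvariant]
  {C C' : ℝ} {b b' : G → K →L[ℂ] K} {ξ ξ' : Lp K 2 μ}

theorem IsFld.mono (hb : IsFld ρ ω ι μ C b ξ) (hC : C ≤ C') : IsFld ρ ω ι μ C' b ξ :=
  ⟨fun x => (hb.bdd x).trans hC, hb.equiv, hb.eq⟩

theorem IsFld.add (hb : IsFld ρ ω ι μ C b ξ) (hb' : IsFld ρ ω ι μ C' b' ξ') :
    IsFld ρ ω ι μ (C + C') (fun x => b x + b' x) (ξ + ξ') := by
  refine ⟨fun x => (norm_add_le _ _).trans (add_le_add (hb.bdd x) (hb'.bdd x)), ?_, ?_⟩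
  · filter_upwards [hb.equiv, hb'.equiv] with x h1 h2 γ
    rw [h1, h2, mul_add, add_mul]
  · filter_upwards [Lp.coeFn_add ξ ξ', hb.eq, hb'.eq] with x h1 h2 h3
    rw [h1, Pi.add_apply, h2, h3]; rfl

theorem IsFld.smul (c : ℂ) (hb : IsFld ρ ω ι μ C b ξ) :
    IsFld ρ ω ι μ (‖c‖ * C) (fun x => c • b x) (c • ξ) := by
  refine ⟨fun x => by rw [norm_smul]; exact mul_le_mul_of_nonneg_left (hb.bdd x) (norm_nonneg _),
    ?_, ?_⟩
  · filter_upwards [hb.equiv] with x h1 γ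
    rw [h1, mul_smul_comm, smul_mul_assoc]
  · filter_upwards [Lp.coeFn_smul c ξ, hb.eq] with x h1 h2
    rw [h1, Pi.smul_apply, h2]; rfl

theorem IsFld.zero : IsFld ρ ω ι μ 0 (fun _ => 0) (0 : Lp K 2 μ) := by
  refine ⟨fun x => by rw [norm_zero], Eventually.of_forall fun x γ => by simp, ?_⟩
  filter_upwards [Lp.coeFn_zero K 2 μ] with x h1
  rw [h1]; simp

/-- pointwise application of an operator -/
noncomputable abbrev pw (μ : Measure G) (A : K →L[ℂ] K) : Lp K 2 μ →L[ℂ] Lp K 2 μ :=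
  A.compLpL 2 μ

theorem pw_ae (A : K →L[ℂ] K) (ξ : Lp K 2 μ) : pw μ A ξ =ᵐ[μ] fun x => A (ξ x) :=
  A.coeFn_compLpL ξ

theorem IsFld.pw {A : K →L[ℂ] K} (hA : Cmm ρ A) (hA1 : ‖A‖ ≤ 1) (hb : IsFld ρ ω ι μ C b ξ) :
    IsFld ρ ω ι μ C (fun x => A * b x) (H333.pw μ A ξ) := by
  refine ⟨fun x => ?_, ?_, ?_⟩
  · refine (norm_mul_le _ _).trans ?_
    refine (mul_le_mul_of_nonneg_right hA1 (norm_nonneg _)).trans ?_
    rw [one_mul]; exact hb.bdd x
  · filter_upwards [hb.equiv] with x h1 γ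
    rw [h1, ← mul_assoc, ← mul_assoc, hA γ, ← mul_assoc]
  · filter_upwards [pw_ae A ξ, hb.eq] with x h1 h2
    rw [h1, h2]; rfl

theorem norm_pw {A : K →L[ℂ] K} (hA : ∀ u, ‖A u‖ = ‖u‖) (ξ : Lp K 2 μ) :
    ‖H333.pw μ A ξ‖ = ‖ξ‖ := by
  have h1 : ∀ᵐ x ∂μ, ‖(H333.pw μ A ξ) x‖ = ‖ξ x‖ := by
    filter_upwards [pw_ae A ξ] with x h1
    rw [h1, hA]
  exact le_antisymm (Lp.norm_le_norm_of_ae_le (h1.mono fun x h => h.le))
    (Lp.norm_le_norm_of_ae_le (h1.mono fun x h => h.ge))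

/-- two vectors with the same field are equal -/
theorem IsFld.unique (hb : IsFld ρ ω ι μ C b ξ) (hb' : IsFld ρ ω ι μ C' b ξ') : ξ = ξ' :=
  Lp.ext (hb.eq.trans hb'.eq.symm)

/-- the submodule of the vectors of bounded fields -/
def bddSub (ρ : Γ →* (K →L[ℂ] K)) (ω : K) (ι : Γ →* G) (μ : Measure G) [μ.IsMulLeftInvariant] :
    Submodule ℂ (Lp K 2 μ) where
  carrier := {ξ | ∃ C b, IsFld ρ ω ι μ C b ξ}
  zero_mem' := ⟨_, _, IsFld.zero⟩
  add_mem' := fun ⟨_, _, h1⟩ ⟨_, _, h2⟩ => ⟨_, _, h1.add h2⟩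
  smul_mem' := fun c _ ⟨_, _, h1⟩ => ⟨_, _, h1.smul c⟩

theorem colB_indicator (h : RegRep ρ ω) {S : Set G} (g₀ : Γ) (x : G) :
    ColB ρ ω ι 1 (S.indicator fun _ => ρ g₀ ω) x := by
  classical
  intro c
  obtain ⟨d, hd⟩ : ∃ d : Γ →₀ ℂ, d = (Finsupp.mapDomain (fun g => g * g₀)
    (c.filter fun g => ι g⁻¹ * x ∈ S)) := ⟨_, rfl⟩
  have h1 : col ρ ι (S.indicator fun _ => ρ g₀ ω) x c = em ρ ω d := by
    rw [hd, em, Finsupp.linearCombination_mapDomain, col, Finsupp.linearCombination_apply,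
      Finsupp.linearCombination_apply, Finsupp.sum, Finsupp.sum, Finsupp.support_filter,
      Finset.sum_filter]
    refine Finset.sum_congr rfl fun g _ => ?_
    by_cases hg : ι g⁻¹ * x ∈ S
    · rw [if_pos hg, Set.indicator_of_mem hg, Finsupp.filter_apply_pos (fun g => ι g⁻¹ * x ∈ S) c hg, Function.comp,
        ← mul_ap, ← map_mul]
    · rw [if_neg hg, Set.indicator_of_notMem hg, map_zero, smul_zero]
  have h2 : ‖em ρ ω d‖ ^ 2 ≤ ‖em ρ ω c‖ ^ 2 := by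
    have h3 : em ρ ω d = em (ρ := ρ) (ω := ρ g₀ ω) (c.filter fun g => ι g⁻¹ * x ∈ S) := by
      rw [hd, em, em, Finsupp.linearCombination_mapDomain]
      congr 1
      refine congrArg _ (funext fun g => ?_)
      rw [Function.comp, map_mul]; rfl
    have h4 : RegRep ρ (ρ g₀ ω) := by
      refine ⟨h.adj, by rw [h.norm_map, h.norm_one], fun g hg => ?_, fun v hv => ?_⟩
      · rw [h.inner_left, ← mul_ap, ← mul_ap, ← map_mul, ← map_mul]
        refine h.inner_zero _ fun h5 => hg ?_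
        have h6 : g₀⁻¹ * g * g₀ = 1 := h5
        have h7 : g = g₀ * (g₀⁻¹ * g * g₀) * g₀⁻¹ := by group
        rw [h7, h6, mul_one, mul_inv_cancel]
      · refine h.total v fun g => ?_
        have h5 := hv (g * g₀⁻¹)
        rwa [← mul_ap, ← map_mul, inv_mul_cancel_right] at h5
    rw [h3, norm_em_sq h4, norm_em_sq h, Finsupp.support_filter, Finset.sum_filter]
    refine Finset.sum_le_sum fun g _ => ?_
    by_cases hg : ι g⁻¹ * x ∈ S
    · rw [if_pos hg, Finsupp.filter_apply_pos (fun g => ι g⁻¹ * x ∈ S) c hg]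
    · rw [if_neg hg]; positivity
  rw [h1, one_mul]
  exact (pow_le_pow_iff_left₀ (norm_nonneg _) (norm_nonneg _) two_ne_zero).mp h2

theorem indicator_mem (h : RegRep ρ ω) {S : Set G} (hS : MeasurableSet S) (hμ : μ S ≠ ∞) (g₀ : Γ) :
    indicatorConstLp 2 hS hμ (ρ g₀ ω) ∈ CC ρ ω ι μ 1 := by
  rw [mem_CC_iff h zero_le_one]
  have h1 : indicatorConstLp 2 hS hμ (ρ g₀ ω) =ᵐ[μ] S.indicator fun _ => ρ g₀ ω :=
    indicatorConstLp_coeFn
  filter_upwards [ae_all_trans (Γ := Γ) (ι := ι) h1] with x hx c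
  have h2 : col ρ ι (indicatorConstLp 2 hS hμ (ρ g₀ ω)) x c =
      col ρ ι (S.indicator fun _ => ρ g₀ ω) x c := by
    simp only [col, Finsupp.linearCombination_apply]
    refine Finsupp.sum_congr fun g _ => ?_
    rw [hx]
  rw [h2]
  exact colB_indicator h g₀ x c

theorem bddSub_dense (h : RegRep ρ ω) [SigmaFinite μ] :
    (bddSub ρ ω ι μ).topologicalClosure = ⊤ := by
  rw [Submodule.topologicalClosure_eq_top_iff, Submodule.eq_bot_iff]
  intro η hη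
  rw [Submodule.mem_orthogonal] at hη
  have h1 : ∀ g₀ : Γ, ∀ᵐ x ∂μ, ⟪ρ g₀ ω, η x⟫_ℂ = 0 := by
    intro g₀
    have h2 : MemLp (fun x => ⟪ρ g₀ ω, η x⟫_ℂ) 2 μ := (Lp.memLp η).const_inner (𝕜 := ℂ) (ρ g₀ ω)
    have h3 : ∀ s, MeasurableSet s → μ s < ∞ → IntegrableOn (fun x => ⟪ρ g₀ ω, η x⟫_ℂ) s μ := by
      intro s hs hμ
      haveI : IsFiniteMeasure (μ.restrict s) := ⟨by rwa [Measure.restrict_apply_univ]⟩
      exact (h2.restrict s).integrable (by norm_num)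
    refine ae_eq_zero_of_forall_setIntegral_eq_of_sigmaFinite h3 fun s hs hμ => ?_
    rw [← L2.inner_indicatorConstLp_eq_setIntegral_inner ℂ η hs (ρ g₀ ω) hμ.ne]
    exact hη _ ⟨1, indicator_mem h hs hμ.ne g₀⟩
  have h2 : ∀ᵐ x ∂μ, ∀ g₀ : Γ, ⟪ρ g₀ ω, η x⟫_ℂ = 0 := ae_all_iff.2 h1
  refine Lp.ext ?_
  filter_upwards [h2, Lp.coeFn_zero K 2 μ] with x h3 h4
  rw [h4]
  exact h.total _ h3

end fld

end Vale.Agent.P092.H333
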