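import Vale.Agent.P092.H333.Conj

/-!
P092 (helper333): equivariant fields and their columns; closedness and density.
-/

set_option linter.all false

open scoped InnerProductSpace Topology ENNReal
open Filter ContinuousLinearMap MeasureTheory
open Vale.Agent.P092.H160

namespace Vale.Agent.P092.H333

section em

variable {Γ K : Type} [Group Γ] [NormedAddCommGroup K] [InnerProductSpace ℂ K] [CompleteSpace K]
  {ρ : Γ →* (K →L[ℂ] K)} {ω : K}

/-- finite combinations of the basis vectors -/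
noncomputable def em (ρ : Γ →* (K →L[ℂ] K)) (ω : K) : (Γ →₀ ℂ) →ₗ[ℂ] K :=
  Finsupp.linearCombination ℂ (fun g => ρ g ω)

theorem em_single (g : Γ) : em ρ ω (Finsupp.single g 1) = ρ g ω := by
  rw [em, Finsupp.linearCombination_single, one_smul]

theorem em_dense (h : RegRep ρ ω) : DenseRange (em ρ ω) := by
  have h1 : LinearMap.range (em ρ ω) = Submodule.span ℂ (Set.range fun g => ρ g ω) :=
    Finsupp.range_linearCombination ℂ
  have h2 : (Submodule.span ℂ (Set.range fun g => ρ g ω)).topologicalClosure = ⊤ := by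
    rw [Submodule.topologicalClosure_eq_top_iff, Submodule.eq_bot_iff]
    intro v hv
    refine h.total v fun g => ?_
    rw [Submodule.mem_orthogonal] at hv
    exact hv _ (Submodule.subset_span ⟨g, rfl⟩)
  have h3 : Dense ((Submodule.span ℂ (Set.range fun g => ρ g ω) : Submodule ℂ K) : Set K) := by
    rw [dense_iff_closure_eq, ← Submodule.topologicalClosure_coe, h2]; rfl
  rw [← h1] at h3
  exact h3

theorem norm_em_sq (h : RegRep ρ ω) (c : Γ →₀ ℂ) : ‖em ρ ω c‖ ^ 2 = ∑ g ∈ c.support, ‖c g‖ ^ 2 := by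
  have h1 := h.orthonormal.inner_finsupp_eq_sum_left c c
  have h2 : em ρ ω c = Finsupp.linearCombination ℂ (fun g => ρ g ω) c := rfl
  rw [← h2, inner_self_eq_norm_sq_to_K] at h1
  have h3 : ((‖em ρ ω c‖ ^ 2 : ℝ) : ℂ) = ((∑ g ∈ c.support, ‖c g‖ ^ 2 : ℝ) : ℂ) := by
    push_cast
    rw [show ((‖em ρ ω c‖ : ℂ)) ^ 2 = _ from h1, Finsupp.sum]
    refine Finset.sum_congr rfl fun g _ => ?_
    rw [← Complex.normSq_eq_conj_mul_self, Complex.normSq_eq_norm_sq]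
    push_cast
    rfl
  exact_mod_cast h3

end em

section col

variable {Γ G K : Type} [Group Γ] [Group G]
  [NormedAddCommGroup K] [InnerProductSpace ℂ K] [CompleteSpace K]
  {ρ : Γ →* (K →L[ℂ] K)} {ω : K} {ι : Γ →* G}

/-- the columns of the field of `ξ` at `x` -/
noncomputable def col (ρ : Γ →* (K →L[ℂ] K)) (ι : Γ →* G) (ξ : G → K) (x : G) : (Γ →₀ ℂ) →ₗ[ℂ] K :=
  Finsupp.linearCombination ℂ (fun g => ρ g (ξ (ι g⁻¹ * x)))

theorem col_single (ξ : G → K) (x : G) (g : Γ) :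
    col ρ ι ξ x (Finsupp.single g 1) = ρ g (ξ (ι g⁻¹ * x)) := by
  rw [col, Finsupp.linearCombination_single, one_smul]

/-- the columns are bounded by `C` -/
def ColB (ρ : Γ →* (K →L[ℂ] K)) (ω : K) (ι : Γ →* G) (C : ℝ) (ξ : G → K) (x : G) : Prop :=
  ∀ c : Γ →₀ ℂ, ‖col ρ ι ξ x c‖ ≤ C * ‖em ρ ω c‖

open Classical in
/-- the field of `ξ` -/
noncomputable def fd (ρ : Γ →* (K →L[ℂ] K)) (ω : K) (ι : Γ →* G) (C : ℝ) (ξ : G → K) (x : G) :
    K →L[ℂ] K :=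
  if ColB ρ ω ι C ξ x then (col ρ ι ξ x).extendOfNorm (em ρ ω) else 0

theorem fd_apply (h : RegRep ρ ω) {C : ℝ} {ξ : G → K} {x : G} (hx : ColB ρ ω ι C ξ x) (g : Γ) :
    fd ρ ω ι C ξ x (ρ g ω) = ρ g (ξ (ι g⁻¹ * x)) := by
  rw [fd, if_pos hx, ← em_single (ρ := ρ) (ω := ω) g,
    LinearMap.extendOfNorm_eq (em_dense h) ⟨C, hx⟩, col_single]

theorem norm_fd_le (h : RegRep ρ ω) {C : ℝ} (hC : 0 ≤ C) (ξ : G → K) (x : G) :
    ‖fd ρ ω ι C ξ x‖ ≤ C := by
  rw [fd]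
  split_ifs with hx
  · exact LinearMap.opNorm_extendOfNorm_le (em_dense h) hC hx
  · rw [norm_zero]; exact hC

variable [TopologicalSpace G] [IsTopologicalGroup G] [MeasurableSpace G] [BorelSpace G]
  {μ : Measure G} [μ.IsMulLeftInvariant] [Countable Γ]

theorem isFld_of_col (h : RegRep ρ ω) {C : ℝ} (hC : 0 ≤ C) {ξ : Lp K 2 μ}
    (hx : ∀ᵐ x ∂μ, ColB ρ ω ι C ξ x) : IsFld ρ ω ι μ C (fd ρ ω ι C ξ) ξ := by
  refine ⟨norm_fd_le h hC _, ?_, ?_⟩
  · filter_upwards [hx, ae_all_trans (Γ := Γ) (ι := ι) hx] with x h1 h2 γ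
    refine h.ext_op fun g => ?_
    rw [fd_apply h (h2 γ), mul_ap, mul_ap, ← mul_ap (ρ γ⁻¹), ← map_mul, fd_apply h h1,
      ← mul_ap (ρ γ), ← map_mul, mul_inv_cancel_left]
    congr 2
    rw [mul_inv_rev, inv_inv, map_mul, mul_assoc]
  · filter_upwards [hx] with x h1
    have h2 := fd_apply h h1 1
    rw [map_one, inv_one, map_one, one_mul] at h2
    exact h2.symm

theorem IsFld.col {C : ℝ} {b : G → K →L[ℂ] K} {ξ : Lp K 2 μ} (hb : IsFld ρ ω ι μ C b ξ) :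
    ∀ᵐ x ∂μ, ∀ c, H333.col ρ ι ξ x c = b x (em ρ ω c) := by
  filter_upwards [hb.equiv, ae_all_trans (Γ := Γ) (ι := ι) hb.eq] with x h1 h2 c
  have h3 : H333.col ρ ι ξ x = (b x : K →ₗ[ℂ] K) ∘ₗ em ρ ω := by
    refine Finsupp.lhom_ext' fun g => LinearMap.ext_ring ?_
    change H333.col ρ ι ξ x (Finsupp.single g 1) = b x (em ρ ω (Finsupp.single g 1))
    rw [col_single, em_single, h2, h1, mul_ap, mul_ap, inv_inv, ← mul_ap (ρ g), ← map_mul,
      mul_inv_cancel, map_one]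
    rfl
  rw [h3]; rfl

theorem IsFld.colB {C : ℝ} {b : G → K →L[ℂ] K} {ξ : Lp K 2 μ} (hb : IsFld ρ ω ι μ C b ξ) :
    ∀ᵐ x ∂μ, ColB ρ ω ι C ξ x := by
  filter_upwards [hb.col] with x hx c
  rw [hx]
  exact (b x).le_of_opNorm_le (hb.bdd x) _

theorem mem_CC_iff (h : RegRep ρ ω) {C : ℝ} (hC : 0 ≤ C) {ξ : Lp K 2 μ} :
    ξ ∈ CC ρ ω ι μ C ↔ ∀ᵐ x ∂μ, ColB ρ ω ι C ξ x :=
  ⟨fun ⟨b, hb⟩ => hb.colB, fun hx => ⟨_, isFld_of_col h hC hx⟩⟩

theorem isClosed_CC (h : RegRep ρ ω) {C : ℝ} (hC : 0 ≤ C) : IsClosed (CC ρ ω ι μ C) := by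
  refine IsSeqClosed.isClosed fun f ξ hf hlim => ?_
  obtain ⟨n, hn, hae⟩ := (tendstoInMeasure_of_tendsto_Lp hlim).exists_seq_tendsto_ae
  rw [mem_CC_iff h hC]
  have h1 : ∀ᵐ x ∂μ, ∀ k, ColB ρ ω ι C (f k) x := by
    rw [ae_all_iff]
    exact fun k => (mem_CC_iff h hC).1 (hf k)
  filter_upwards [h1, ae_all_trans (Γ := Γ) (ι := ι) hae] with x h2 h3 c
  have h4 : Tendsto (fun k => H333.col ρ ι (f (n k)) x c) atTop (𝓝 (H333.col ρ ι ξ x c)) := by
    simp only [H333.col, Finsupp.linearCombination_apply, Finsupp.sum]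
    refine tendsto_finsetSum _ fun g _ => Tendsto.const_smul ?_ _
    exact ((ρ g).continuous.tendsto _).comp (h3 g⁻¹)
  exact le_of_tendsto h4.norm (Eventually.of_forall fun k => h2 _ c)

end col

end Vale.Agent.P092.H333
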