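import Vale.Agent.P092.H156.Sm

/-!
P092 (helper333): the conjugation representation of `Λ` on the Hilbert space `L²(G; K)` of the
square integrable equivariant fields.
-/

set_option linter.all false

open scoped InnerProductSpace Topology ENNReal
open Filter ContinuousLinearMap MeasureTheory
open Vale.Agent.P092.H160

namespace Vale.Agent.P092.H333

section syn

variable {Γ K : Type} [Group Γ] [NormedAddCommGroup K] [InnerProductSpace ℂ K] [CompleteSpace K]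
  {ρ : Γ →* (K →L[ℂ] K)} {ω : K}

theorem hasSum_norm_sq (h : RegRep ρ ω) (u : K) :
    HasSum (fun g => ‖⟪ρ g ω, u⟫_ℂ‖ ^ 2) (‖u‖ ^ 2) := by
  have h1 := (h.hasSum_inner u u).mapL Complex.reCLM
  have h2 : Complex.reCLM ⟪u, u⟫_ℂ = ‖u‖ ^ 2 := by
    rw [inner_self_eq_norm_sq_to_K]
    norm_cast
  rw [h2] at h1
  convert h1 using 1
  funext g
  rw [← inner_conj_symm u, ← Complex.normSq_eq_conj_mul_self]
  rw [Complex.normSq_eq_norm_sq]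
  rfl

theorem tsum_enorm_sq (h : RegRep ρ ω) (u : K) :
    ∑' g, ‖⟪ρ g ω, u⟫_ℂ‖ₑ ^ 2 = ‖u‖ₑ ^ 2 := by
  have h1 := hasSum_norm_sq h u
  have e1 : ∀ z : ℂ, ‖z‖ₑ ^ 2 = ENNReal.ofReal (‖z‖ ^ 2) := fun z => by
    rw [← ofReal_norm_eq_enorm, ENNReal.ofReal_pow (norm_nonneg _)]
  have e2 : ‖u‖ₑ ^ 2 = ENNReal.ofReal (‖u‖ ^ 2) := by
    rw [← ofReal_norm_eq_enorm, ENNReal.ofReal_pow (norm_nonneg _)]
  simp_rw [e1]
  rw [e2, ← ENNReal.ofReal_tsum_of_nonneg (fun g => by positivity) h1.summable, h1.tsum_eq]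

/-- Synthesis of a square summable family of coordinates. -/
theorem hasSum_syn (h : RegRep ρ ω) {c : Γ → ℂ} (hc : Summable fun g => ‖c g‖ ^ 2) :
    HasSum (fun g => c g • ρ g ω) (∑' g, c g • ρ g ω) ∧
      ∀ g, ⟪ρ g ω, ∑' g, c g • ρ g ω⟫_ℂ = c g := by
  have hm : Memℓp c 2 := by
    rw [memℓp_gen_iff (by norm_num)]
    simpa using hc
  have h1 := h.basis.hasSum_repr_symm ⟨c, hm⟩
  simp only [h.basis_apply] at h1
  have h2 : HasSum (fun g => c g • ρ g ω) (h.basis.repr.symm ⟨c, hm⟩) := h1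
  refine ⟨by rw [h2.tsum_eq]; exact h2, fun g => ?_⟩
  rw [h2.tsum_eq, ← h.basis_apply, ← HilbertBasis.repr_apply_apply,
    LinearIsometryEquiv.apply_symm_apply]

theorem enorm_syn (h : RegRep ρ ω) {c : Γ → ℂ} (hc : Summable fun g => ‖c g‖ ^ 2) :
    ‖∑' g, c g • ρ g ω‖ₑ ^ 2 = ∑' g, ‖c g‖ₑ ^ 2 := by
  rw [← tsum_enorm_sq h]
  exact tsum_congr fun g => by rw [(hasSum_syn h hc).2]

theorem summable_of_enorm {c : Γ → ℂ} (hc : ∑' g, ‖c g‖ₑ ^ 2 ≠ ∞) : Summable fun g => ‖c g‖ ^ 2 := by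
  have h1 := ENNReal.summable_toReal hc
  refine h1.congr fun g => ?_
  rw [ENNReal.toReal_pow, toReal_enorm]

end syn

section jmap

variable {Γ G K : Type} [Group Γ] [Countable Γ] [Group G] [TopologicalSpace G]
  [IsTopologicalGroup G] [MeasurableSpace G] [BorelSpace G]
  [NormedAddCommGroup K] [InnerProductSpace ℂ K] [CompleteSpace K]
  {ρ : Γ →* (K →L[ℂ] K)} {ω : K} {ι : Γ →* G} {μ : Measure G} [μ.IsMulLeftInvariant]

/-- The coordinates of `J ξ`. -/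
noncomputable def jc (ρ : Γ →* (K →L[ℂ] K)) (ω : K) (ι : Γ →* G) (ξ : G → K) (x : G) (g : Γ) : ℂ :=
  ⟪ξ (ι g⁻¹ * x), ρ g⁻¹ ω⟫_ℂ

/-- The adjoint, on the level of functions. -/
noncomputable def jf (ρ : Γ →* (K →L[ℂ] K)) (ω : K) (ι : Γ →* G) (ξ : G → K) (x : G) : K :=
  ∑' g, jc ρ ω ι ξ x g • ρ g ω

theorem aesm_trans {ξ : G → K} (hξ : AEStronglyMeasurable ξ μ) (g : G) :
    AEStronglyMeasurable (fun x => ξ (g * x)) μ :=
  hξ.comp_measurePreserving (measurePreserving_mul_left μ g)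

theorem aesm_jc {ξ : G → K} (hξ : AEStronglyMeasurable ξ μ) (g : Γ) :
    AEStronglyMeasurable (fun x => jc ρ ω ι ξ x g) μ :=
  (aesm_trans hξ _).inner aestronglyMeasurable_const

theorem lintegral_jc (h : RegRep ρ ω) {ξ : G → K} (hξ : AEStronglyMeasurable ξ μ) :
    ∫⁻ x, ∑' g, ‖jc ρ ω ι ξ x g‖ₑ ^ 2 ∂μ = ∫⁻ x, ‖ξ x‖ₑ ^ 2 ∂μ := by
  rw [lintegral_tsum fun g => ((aesm_jc hξ g).enorm.pow_const 2)]
  have h1 : ∀ g : Γ, ∫⁻ x, ‖jc ρ ω ι ξ x g‖ₑ ^ 2 ∂μ = ∫⁻ x, ‖⟪ρ g⁻¹ ω, ξ x⟫_ℂ‖ₑ ^ 2 ∂μ := by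
    intro g
    rw [← lintegral_mul_left_eq_self (μ := μ) (fun x => ‖⟪ρ g⁻¹ ω, ξ x⟫_ℂ‖ₑ ^ 2) (ι g⁻¹)]
    refine lintegral_congr fun x => ?_
    rw [jc, ← inner_conj_symm, RCLike.enorm_conj]
  simp_rw [h1]
  rw [← lintegral_tsum fun g => ((aestronglyMeasurable_const.inner hξ).enorm.pow_const 2)]
  refine lintegral_congr fun x => ?_
  rw [← tsum_enorm_sq h (ξ x)]
  exact (Equiv.inv Γ).tsum_eq fun g => ‖⟪ρ g ω, ξ x⟫_ℂ‖ₑ ^ 2

theorem ae_summable_jc (h : RegRep ρ ω) {ξ : G → K} (hξ : MemLp ξ 2 μ) :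
    ∀ᵐ x ∂μ, Summable fun g => ‖jc ρ ω ι ξ x g‖ ^ 2 := by
  have h1 : ∫⁻ x, ∑' g, ‖jc ρ ω ι ξ x g‖ₑ ^ 2 ∂μ ≠ ∞ := by
    rw [lintegral_jc h hξ.1]
    have h2 := hξ.2
    rw [eLpNorm_lt_top_iff_lintegral_rpow_enorm_lt_top (by norm_num) (by norm_num)] at h2
    simpa using h2.ne
  have h2 := ae_lt_top' (AEMeasurable.ennreal_tsum fun g => ((aesm_jc hξ.1 g).enorm.pow_const 2)) h1
  filter_upwards [h2] with x hx
  exact summable_of_enorm hx.ne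

theorem aesm_jf (h : RegRep ρ ω) {ξ : G → K} (hξ : MemLp ξ 2 μ) :
    AEStronglyMeasurable (jf ρ ω ι ξ) μ := by
  refine aestronglyMeasurable_of_tendsto_ae (atTop : Filter (Finset Γ))
    (f := fun s x => ∑ g ∈ s, jc ρ ω ι ξ x g • ρ g ω) (fun s => ?_) ?_
  · exact Finset.aestronglyMeasurable_fun_sum s fun g _ => (aesm_jc hξ.1 g).smul_const _
  · filter_upwards [ae_summable_jc h hξ] with x hx
    exact (hasSum_syn h hx).1

theorem lintegral_jf (h : RegRep ρ ω) {ξ : G → K} (hξ : MemLp ξ 2 μ) :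
    ∫⁻ x, ‖jf ρ ω ι ξ x‖ₑ ^ 2 ∂μ = ∫⁻ x, ‖ξ x‖ₑ ^ 2 ∂μ := by
  rw [← lintegral_jc h hξ.1]
  refine lintegral_congr_ae ?_
  filter_upwards [ae_summable_jc h hξ] with x hx
  exact enorm_syn h hx

theorem eLpNorm_jf (h : RegRep ρ ω) {ξ : G → K} (hξ : MemLp ξ 2 μ) :
    eLpNorm (jf ρ ω ι ξ) 2 μ = eLpNorm ξ 2 μ := by
  rw [eLpNorm_eq_lintegral_rpow_enorm_toReal (by norm_num) (by norm_num),
    eLpNorm_eq_lintegral_rpow_enorm_toReal (by norm_num) (by norm_num)]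
  have h1 := lintegral_jf (ι := ι) h hξ
  simp only [ENNReal.toReal_ofNat, ENNReal.rpow_ofNat]
  rw [h1]

theorem memLp_jf (h : RegRep ρ ω) {ξ : G → K} (hξ : MemLp ξ 2 μ) : MemLp (jf ρ ω ι ξ) 2 μ :=
  ⟨aesm_jf h hξ, by rw [eLpNorm_jf h hξ]; exact hξ.2⟩

theorem ae_all_trans {P : G → Prop} (hP : ∀ᵐ x ∂μ, P x) : ∀ᵐ x ∂μ, ∀ g : Γ, P (ι g * x) := by
  rw [ae_all_iff]
  intro g
  exact (measurePreserving_mul_left μ (ι g)).quasiMeasurePreserving.ae hP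

theorem jf_congr {ξ η : G → K} (hx : ξ =ᵐ[μ] η) : jf ρ ω ι ξ =ᵐ[μ] jf ρ ω ι η := by
  filter_upwards [ae_all_trans (Γ := Γ) (ι := ι) hx] with x h1
  refine tsum_congr fun g => ?_
  rw [jc, jc, h1]

theorem jf_add (h : RegRep ρ ω) {ξ η : G → K} (hξ : MemLp ξ 2 μ) (hη : MemLp η 2 μ) :
    jf ρ ω ι (ξ + η) =ᵐ[μ] jf ρ ω ι ξ + jf ρ ω ι η := by
  filter_upwards [ae_summable_jc (ι := ι) h hξ, ae_summable_jc (ι := ι) h hη] with x h1 h2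
  rw [Pi.add_apply, jf, jf, jf, ← ((hasSum_syn h h1).1.summable).tsum_add
    (hasSum_syn h h2).1.summable]
  refine tsum_congr fun g => ?_
  rw [← add_smul, jc, jc, jc, Pi.add_apply, inner_add_left]

theorem jf_smul (c : ℂ) (ξ : G → K) (x : G) :
    jf ρ ω ι (c • ξ) x = (starRingEnd ℂ) c • jf ρ ω ι ξ x := by
  rw [jf, jf, ← tsum_const_smul'']
  refine tsum_congr fun g => ?_
  rw [smul_smul, jc, jc, Pi.smul_apply, inner_smul_left]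

/-- The conjugate linear isometry `b ↦ b*` of `L²(G; K)`. -/
noncomputable def J (h : RegRep ρ ω) (ι : Γ →* G) (μ : Measure G) [μ.IsMulLeftInvariant] :
    Lp K 2 μ →SL[starRingEnd ℂ] Lp K 2 μ :=
  LinearMap.mkContinuous
    { toFun := fun ξ => (memLp_jf (ι := ι) h (Lp.memLp ξ)).toLp _
      map_add' := fun ξ η => by
        refine Lp.ext ?_
        have h1 : jf ρ ω ι ⇑(ξ + η) =ᵐ[μ] jf ρ ω ι (⇑ξ + ⇑η) := jf_congr (Lp.coeFn_add ξ η)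
        filter_upwards [MemLp.coeFn_toLp (memLp_jf (ι := ι) h (Lp.memLp (ξ + η))), h1,
          jf_add (ι := ι) h (Lp.memLp ξ) (Lp.memLp η),
          Lp.coeFn_add ((memLp_jf (ι := ι) h (Lp.memLp ξ)).toLp _)
            ((memLp_jf (ι := ι) h (Lp.memLp η)).toLp _),
          MemLp.coeFn_toLp (memLp_jf (ι := ι) h (Lp.memLp ξ)),
          MemLp.coeFn_toLp (memLp_jf (ι := ι) h (Lp.memLp η))] with x e1 e2 e3 e4 e5 e6
        rw [e1, e2, e3, e4, Pi.add_apply, Pi.add_apply, e5, e6]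
      map_smul' := fun c ξ => by
        refine Lp.ext ?_
        have h1 : jf ρ ω ι ⇑(c • ξ) =ᵐ[μ] jf ρ ω ι (c • ⇑ξ) := jf_congr (Lp.coeFn_smul c ξ)
        filter_upwards [MemLp.coeFn_toLp (memLp_jf (ι := ι) h (Lp.memLp (c • ξ))), h1,
          Lp.coeFn_smul ((starRingEnd ℂ) c) ((memLp_jf (ι := ι) h (Lp.memLp ξ)).toLp _),
          MemLp.coeFn_toLp (memLp_jf (ι := ι) h (Lp.memLp ξ))] with x e1 e2 e3 e4
        rw [e1, e2, e3, Pi.smul_apply, e4, jf_smul] }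
    1 (fun ξ => by
      rw [one_mul]
      change ‖(memLp_jf (ι := ι) h (Lp.memLp ξ)).toLp _‖ ≤ ‖ξ‖
      rw [Lp.norm_toLp, eLpNorm_jf h (Lp.memLp ξ), Lp.norm_def])

theorem J_ae (h : RegRep ρ ω) (ξ : Lp K 2 μ) : J h ι μ ξ =ᵐ[μ] jf ρ ω ι ξ :=
  MemLp.coeFn_toLp (memLp_jf (ι := ι) h (Lp.memLp ξ))

theorem norm_J (h : RegRep ρ ω) (ξ : Lp K 2 μ) : ‖J h ι μ ξ‖ = ‖ξ‖ := by
  change ‖(memLp_jf (ι := ι) h (Lp.memLp ξ)).toLp _‖ = ‖ξ‖
  rw [Lp.norm_toLp, eLpNorm_jf h (Lp.memLp ξ), Lp.norm_def]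

end jmap

section fields

variable {Γ G K : Type} [Group Γ] [Countable Γ] [Group G] [TopologicalSpace G]
  [IsTopologicalGroup G] [MeasurableSpace G] [BorelSpace G]
  [NormedAddCommGroup K] [InnerProductSpace ℂ K] [CompleteSpace K]
  {ρ : Γ →* (K →L[ℂ] K)} {ω : K} {ι : Γ →* G} {μ : Measure G} [μ.IsMulLeftInvariant]

/-- `b` is an almost everywhere equivariant field bounded by `C`, with vector `ξ`. -/
structure IsFld (ρ : Γ →* (K →L[ℂ] K)) (ω : K) (ι : Γ →* G) (μ : Measure G) (C : ℝ)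
    (b : G → K →L[ℂ] K) (ξ : Lp K 2 μ) : Prop where
  bdd : ∀ x, ‖b x‖ ≤ C
  equiv : ∀ᵐ x ∂μ, ∀ γ, b (ι γ * x) = ρ γ * b x * ρ γ⁻¹
  eq : ξ =ᵐ[μ] fun x => b x ω

/-- The vectors of the equivariant fields bounded by `C`. -/
def CC (ρ : Γ →* (K →L[ℂ] K)) (ω : K) (ι : Γ →* G) (μ : Measure G) (C : ℝ) : Set (Lp K 2 μ) :=
  {ξ | ∃ b, IsFld ρ ω ι μ C b ξ}

theorem IsFld.J {C : ℝ} {b : G → K →L[ℂ] K} {ξ : Lp K 2 μ} (h : RegRep ρ ω)
    (hb : IsFld ρ ω ι μ C b ξ) :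
    IsFld ρ ω ι μ C (fun x => adjoint (b x)) (J h ι μ ξ) := by
  have hadj : ∀ S T : K →L[ℂ] K, adjoint (S * T) = adjoint T * adjoint S := fun S T => by
    rw [← star_eq_adjoint, star_mul]; rfl
  refine ⟨fun x => ?_, ?_, ?_⟩
  · rw [LinearIsometryEquiv.norm_map]; exact hb.bdd x
  · filter_upwards [hb.equiv] with x hx γ
    rw [hx, hadj, hadj, h.adj, h.adj, inv_inv, mul_assoc]
  · filter_upwards [J_ae (ι := ι) h ξ, ae_all_trans (Γ := Γ) (ι := ι) hb.eq, hb.equiv] with x h1 h2 h3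
    rw [h1]
    have h4 : ∀ g, jc ρ ω ι ξ x g = ⟪ρ g ω, adjoint (b x) ω⟫_ℂ := by
      intro g
      rw [jc, h2, h3, mul_ap, mul_ap, inv_inv, h.inner_left, inv_inv, adjoint_inner_right]
      congr 1
      rw [← mul_ap (ρ g), ← map_mul, mul_inv_cancel, map_one]; rfl
    rw [jf]
    have h5 : Summable fun g => ‖⟪ρ g ω, adjoint (b x) ω⟫_ℂ‖ ^ 2 :=
      (hasSum_norm_sq h _).summable
    refine h.ext_vec fun g => ?_
    simp_rw [h4]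
    rw [(hasSum_syn h h5).2]

end fields

end Vale.Agent.P092.H333
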