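import Mathlib

/-!
P092 (helper333): the range of a projection as a Hilbert space; lifting an operator which commutes
with a corner.
-/

set_option linter.all false

open scoped InnerProductSpace Topology
open Filter ContinuousLinearMap

namespace Vale.Agent.P092.H333

section corner

variable {H : Type} [NormedAddCommGroup H] [InnerProductSpace ℂ H] [CompleteSpace H]

/-- The range of the projection `p`. -/
def Ep (p : H →L[ℂ] H) : Submodule ℂ H := LinearMap.ker ((1 - p : H →L[ℂ] H) : H →ₗ[ℂ] H)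

instance (p : H →L[ℂ] H) : CompleteSpace (Ep p) :=
  (ContinuousLinearMap.isClosed_ker (1 - p)).completeSpace_coe

theorem mem_Ep {p : H →L[ℂ] H} {v : H} : v ∈ Ep p ↔ p v = v := by
  change v - p v = 0 ↔ _
  rw [sub_eq_zero, eq_comm]

/-- the inclusion -/
noncomputable def inc (p : H →L[ℂ] H) : Ep p →L[ℂ] H := (Ep p).subtypeL

theorem inc_apply (p : H →L[ℂ] H) (e : Ep p) : inc p e = e := rfl

theorem p_inc (p : H →L[ℂ] H) (e : Ep p) : p (inc p e) = inc p e := mem_Ep.1 e.2

/-- A projection: idempotent and selfadjoint. -/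
structure Prj (p : H →L[ℂ] H) : Prop where
  idem : p * p = p
  adj : adjoint p = p

variable {p : H →L[ℂ] H}

/-- the projection onto the range -/
noncomputable def prj (hp : Prj p) : H →L[ℂ] Ep p :=
  p.codRestrict (Ep p) fun v => mem_Ep.2 (congrArg (fun T : H →L[ℂ] H => T v) hp.idem)

theorem inc_prj (hp : Prj p) (v : H) : inc p (prj hp v) = p v := rfl

theorem prj_inc (hp : Prj p) (e : Ep p) : prj hp (inc p e) = e := Subtype.ext (p_inc p e)

theorem inner_inc (e e' : Ep p) : ⟪inc p e, inc p e'⟫_ℂ = ⟪e, e'⟫_ℂ := rfl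

theorem norm_inc (e : Ep p) : ‖inc p e‖ = ‖e‖ := rfl

theorem adjoint_inc (hp : Prj p) : adjoint (inc p) = prj hp := by
  symm
  rw [eq_adjoint_iff]
  intro v e
  have h1 : ⟪p v, inc p e⟫_ℂ = ⟪v, p (inc p e)⟫_ℂ := by
    have h2 := adjoint_inner_left p (inc p e) v
    rw [hp.adj] at h2
    exact h2
  rw [← inner_inc, inc_prj, h1, p_inc]

theorem adjoint_prj (hp : Prj p) : adjoint (prj hp) = inc p := by
  rw [← adjoint_inc hp, adjoint_adjoint]

/-- compression to the corner -/
noncomputable def cmp (hp : Prj p) (T : H →L[ℂ] H) : Ep p →L[ℂ] Ep p := prj hp ∘L T ∘L inc p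

theorem cmp_apply (hp : Prj p) (T : H →L[ℂ] H) (e : Ep p) : cmp hp T e = prj hp (T (inc p e)) := rfl

theorem inc_cmp (hp : Prj p) (T : H →L[ℂ] H) (hT : p * T = T * p) (e : Ep p) :
    inc p (cmp hp T e) = T (inc p e) := by
  rw [cmp_apply, inc_prj]
  have := congrArg (fun S : H →L[ℂ] H => S (inc p e)) hT
  change p (T (inc p e)) = T (p (inc p e)) at this
  rw [this, p_inc]

theorem cmp_one (hp : Prj p) : cmp hp 1 = 1 := by
  ext1 e
  exact prj_inc hp e

theorem cmp_mul (hp : Prj p) {S T : H →L[ℂ] H} (hT : p * T = T * p) :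
    cmp hp (S * T) = cmp hp S * cmp hp T := by
  ext1 e
  change prj hp (S (T (inc p e))) = prj hp (S (inc p (cmp hp T e)))
  rw [inc_cmp hp T hT]

theorem adjoint_cmp (hp : Prj p) (T : H →L[ℂ] H) : adjoint (cmp hp T) = cmp hp (adjoint T) := by
  rw [cmp, cmp, adjoint_comp, adjoint_comp, adjoint_prj, adjoint_inc hp]
  rfl

/-- the operator of the full space with a given compression -/
noncomputable def ext (hp : Prj p) (S : Ep p →L[ℂ] Ep p) : H →L[ℂ] H := inc p ∘L S ∘L prj hp

theorem cmp_ext (hp : Prj p) (S : Ep p →L[ℂ] Ep p) : cmp hp (ext hp S) = S := by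
  ext1 e
  change prj hp (inc p (S (prj hp (inc p e)))) = S e
  rw [prj_inc, prj_inc]

theorem p_ext (hp : Prj p) (S : Ep p →L[ℂ] Ep p) : p * ext hp S = ext hp S := by
  ext1 v
  exact p_inc p _

theorem ext_p (hp : Prj p) (S : Ep p →L[ℂ] Ep p) : ext hp S * p = ext hp S := by
  ext1 v
  change inc p (S (prj hp (p v))) = inc p (S (prj hp v))
  congr 2
  exact Subtype.ext (congrArg (fun T : H →L[ℂ] H => T v) hp.idem)

theorem ext_comm (hp : Prj p) {S : Ep p →L[ℂ] Ep p} {T : H →L[ℂ] H} (hT : p * T = T * p)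
    (h : S * cmp hp T = cmp hp T * S) : ext hp S * T = T * ext hp S := by
  ext1 v
  change inc p (S (prj hp (T v))) = T (inc p (S (prj hp v)))
  have h1 : prj hp (T v) = cmp hp T (prj hp v) := by
    apply Subtype.ext
    change inc p (prj hp (T v)) = inc p (cmp hp T (prj hp v))
    rw [inc_cmp hp T hT, inc_prj, inc_prj]
    exact congrArg (fun S : H →L[ℂ] H => S v) hT
  have h2 : S (cmp hp T (prj hp v)) = cmp hp T (S (prj hp v)) :=
    congrArg (fun L : Ep p →L[ℂ] Ep p => L (prj hp v)) h
  rw [h1, h2, inc_cmp hp T hT]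

theorem ext_eq_smul (hp : Prj p) {S : Ep p →L[ℂ] Ep p} {c : ℂ} (h : ext hp S = c • p) :
    S = c • (1 : Ep p →L[ℂ] Ep p) := by
  rw [← cmp_ext hp S, h]
  ext1 e
  change prj hp (c • p (inc p e)) = c • e
  rw [p_inc, map_smul, prj_inc]

end corner

section lift

variable {W : Type} [NormedAddCommGroup W] [InnerProductSpace ℂ W] [CompleteSpace W]

/-- **Lifting** an operator from the corner `q` to an operator which commutes with the algebra
`𝒩`. -/
theorem lift_op {κ : Type} [Fintype κ] (𝒩 : Set (W →L[ℂ] W)) (q : W →L[ℂ] W)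
    (v v' : κ → (W →L[ℂ] W)) (hv : ∑ k, v k * q * v' k = 1)
    (hcl : ∀ m ∈ 𝒩, ∀ k l, v' l * m * v k ∈ 𝒩) (h1 : ∀ k, v k ∈ 𝒩)
    (X : W →L[ℂ] W) (hqX : q * X = X) (hXq : X * q = X)
    (hX : ∀ m ∈ 𝒩, X * (q * m * q) = (q * m * q) * X) :
    (∀ m ∈ 𝒩, (∑ k, v k * X * v' k) * m = m * ∑ k, v k * X * v' k) ∧
      q * (∑ k, v k * X * v' k) = X := by
  constructor
  · intro m hm
    have e1 : ∀ k, m * (v k * X * v' k) = ∑ l, v l * X * (v' l * m * v k) * q * v' k := by
      intro k
      have e2 : ∀ l, v l * X * (v' l * m * v k) * q * v' k =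
          (v l * q * v' l) * (m * (v k * X * v' k)) := by
        intro l
        have h2 := hX _ (hcl m hm k l)
        calc v l * X * (v' l * m * v k) * q * v' k
            = v l * (X * q) * (v' l * m * v k) * q * v' k := by rw [hXq]
          _ = v l * (X * (q * (v' l * m * v k) * q)) * v' k := by simp only [mul_assoc]
          _ = v l * ((q * (v' l * m * v k) * q) * X) * v' k := by rw [h2]
          _ = v l * q * v' l * m * v k * (q * X) * v' k := by simp only [mul_assoc]
          _ = _ := by rw [hqX]; simp only [mul_assoc]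
      simp_rw [e2]
      rw [← Finset.sum_mul, hv, one_mul]
    rw [Finset.mul_sum, Finset.sum_congr rfl fun k _ => e1 k, Finset.sum_comm, Finset.sum_mul]
    refine Finset.sum_congr rfl fun l _ => ?_
    have e3 : ∀ k, v l * X * (v' l * m * v k) * q * v' k = (v l * X * v' l * m) * (v k * q * v' k) :=
      fun k => by simp only [mul_assoc]
    simp_rw [e3]
    rw [← Finset.mul_sum, hv, mul_one]
  · have e1 : ∀ k, q * (v k * X * v' k) = X * (v k * q * v' k) := by
      intro k
      have h2 := hX _ (h1 k)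
      calc q * (v k * X * v' k) = q * v k * (q * X) * v' k := by rw [hqX]; simp only [mul_assoc]
        _ = ((q * v k * q) * X) * v' k := by simp only [mul_assoc]
        _ = (X * (q * v k * q)) * v' k := by rw [h2]
        _ = (X * q) * (v k * q * v' k) := by simp only [mul_assoc]
        _ = _ := by rw [hXq]
    rw [Finset.mul_sum, Finset.sum_congr rfl fun k _ => e1 k, ← Finset.mul_sum, hv, mul_one]

theorem lift_comm {κ : Type} [Fintype κ] {v v' : κ → (W →L[ℂ] W)} {X a : W →L[ℂ] W}
    (hX : X * a = a * X) (hv : ∀ k, v k * a = a * v k) (hv' : ∀ k, v' k * a = a * v' k) :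
    (∑ k, v k * X * v' k) * a = a * ∑ k, v k * X * v' k := by
  rw [Finset.sum_mul, Finset.mul_sum]
  refine Finset.sum_congr rfl fun k _ => ?_
  calc v k * X * v' k * a = v k * X * (v' k * a) := by simp only [mul_assoc]
    _ = v k * (X * a) * v' k := by rw [hv']; simp only [mul_assoc]
    _ = (v k * a) * X * v' k := by rw [hX]; simp only [mul_assoc]
    _ = _ := by rw [hv]; simp only [mul_assoc]

end lift

end Vale.Agent.P092.H333
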