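import Vale.Agent.P092.H333.Tight
import Vale.Agent.P092.QT.H805.Res
import Vale.Agent.P092.H962.Tr0

/-!
P092 (helper333), project Q for all amplifications: the double frames of `ℋ ⊗ ℂ^Q` made of the
Parseval frames (`SR.Tri`) of `ℋ`.
-/

set_option linter.all false

open scoped InnerProductSpace Topology
open Filter ContinuousLinearMap

namespace Vale.Agent.P092.H333.Amp

open Vale.Agent.P092.H160 (Cmm)
open Vale.Agent.P092.SR (Tri)
open Vale.Agent.P092.QT (TRep)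
open Vale.Agent.P092.QT.H156.Sm (Frm)
open Vale.Agent.P092.QT.H715.Q (Dbl)

section abs

variable {Γ Q ℋ : Type} [Group Γ] [Group Q] [Fintype Q] [NormedAddCommGroup ℋ]
  [InnerProductSpace ℂ ℋ] [CompleteSpace ℋ] {V R₁ R₂ A B : Γ →* (ℋ →L[ℂ] ℋ)}

/-- `V ⊗ 1` -/
noncomputable def av (Q : Type) [Group Q] [Fintype Q] (V : Γ →* (ℋ →L[ℂ] ℋ)) :
    Γ →* (KT Q ℋ →L[ℂ] KT Q ℋ) where
  toFun g := amp (V g)
  map_one' := by rw [map_one, amp_one]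
  map_mul' g h := by rw [map_mul, amp_mul]

theorem av_apply (V : Γ →* (ℋ →L[ℂ] ℋ)) (g : Γ) : av Q V g = amp (V g) := rfl

/-- the product of two commuting representations -/
noncomputable def pr (A B : Γ →* (ℋ →L[ℂ] ℋ)) (h : ∀ g k, A g * B k = B k * A g) :
    Γ × Γ →* (ℋ →L[ℂ] ℋ) where
  toFun p := A p.1 * B p.2
  map_one' := by rw [Prod.fst_one, Prod.snd_one, map_one, map_one, one_mul]
  map_mul' p q := by
    rw [Prod.fst_mul, Prod.snd_mul, map_mul, map_mul, mul_assoc, ← mul_assoc (A q.1), h,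
      mul_assoc, mul_assoc]

theorem pr_apply (h : ∀ g k, A g * B k = B k * A g) (p : Γ × Γ) : pr A B h p = A p.1 * B p.2 := rfl

/-- the group `X = Γ × Γ × F` -/
abbrev XG (Γ Q : Type) [Group Γ] [Group Q] : Type := (Γ × Γ) × FG Q

/-- the coordinates of the legs -/
def lf (Γ Q : Type) [Group Γ] [Group Q] (l : Bool) : XG Γ Q →* Γ :=
  match l with
  | false => (MonoidHom.fst Γ Γ).comp (MonoidHom.fst (Γ × Γ) (FG Q))
  | true => (MonoidHom.snd Γ Γ).comp (MonoidHom.fst (Γ × Γ) (FG Q))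


end abs

section abs

variable {Γ Q ℋ ι : Type} [Group Γ] [Group Q] [Fintype Q] [NormedAddCommGroup ℋ]
  [InnerProductSpace ℂ ℋ] [CompleteSpace ℋ] {V R₁ R₂ A B : Γ →* (ℋ →L[ℂ] ℋ)} [Fintype ι]
  {ξ : ι → ℋ}

theorem adj_pr (hA : ∀ g, adjoint (A g) = A g⁻¹) (hB : ∀ g, adjoint (B g) = B g⁻¹)
    (h : ∀ g k, A g * B k = B k * A g) (p : Γ × Γ) :
    adjoint (pr A B h p) = pr A B h p⁻¹ := by
  rw [pr_apply, pr_apply, ← star_eq_adjoint, star_mul, star_eq_adjoint, star_eq_adjoint, hA, hB,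
    Prod.fst_inv, Prod.snd_inv, h]

/-- The frame `(ρ, V ⊗ 1)`, `ρ = (A, B, σ)`. -/
theorem exists_frm (hT : Tri V A B ξ) (htr : ∀ g, g ≠ 1 → ∑ k, ⟪ξ k, V g (ξ k)⟫_ℂ = 0)
    (hc : Fintype.card ι ≤ Fintype.card Q) :
    ∃ ω : KT Q ℋ, Frm (rt Q (pr A B hT.comm₁₂)) (av Q V) ω ∧
      ∃ c : ℝ, 0 < c ∧ ∀ T : ℋ →L[ℂ] ℋ, ⟪ω, amp T ω⟫_ℂ = (c : ℂ) * ∑ k, ⟪ξ k, T (ξ k)⟫_ℂ := by
  have hadj := adj_pr hT.adj₁ hT.adj₂ hT.comm₁₂
  obtain ⟨ω, C, c, hC, hcp, h1, h2, h3⟩ := exists_tight (Q := Q) (ρ := pr A B hT.comm₁₂) hadj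
    hT.ne (C₀ := 1) zero_lt_one (fun u => by
      rw [one_mul]
      exact hT.frame u) hc
  refine ⟨ω, ⟨⟨fun p => ?_, h1, C, hC, h2⟩, fun v => ?_, fun v p => ?_, fun v hv => ?_⟩, c, hcp, h3⟩
  · rw [rt_apply, ← star_eq_adjoint, star_mul, star_eq_adjoint, star_eq_adjoint, adjoint_sg,
      adjoint_amp, hadj, rt_apply, Prod.fst_inv, Prod.snd_inv, amp_sg]
  · rw [av_apply, adjoint_amp, hT.adjV]; rfl
  · rw [av_apply, rt_apply, ← mul_assoc, ← amp_mul]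
    have e1 : V v * pr A B hT.comm₁₂ p.1 = pr A B hT.comm₁₂ p.1 * V v := by
      rw [pr_apply, ← mul_assoc, hT.comm₁, mul_assoc, hT.comm₂, mul_assoc]
    rw [e1, amp_mul, mul_assoc, amp_sg, mul_assoc]
  · rw [av_apply, h3, htr v hv, mul_zero]

/-- the exchange of the two regular representations -/
theorem tri_sw (h : Tri V A B ξ) : Tri V B A ξ where
  adjV := h.adjV
  adj₁ := h.adj₂
  adj₂ := h.adj₁
  comm₁ := h.comm₂
  comm₂ := h.comm₁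
  comm₁₂ g k := (h.comm₁₂ k g).symm
  ne := h.ne
  frame η := by
    have h1 := (Equiv.prodCongr (Equiv.refl ι) (Equiv.prodComm Γ Γ)).hasSum_iff.mpr (h.frame η)
    have h2 : (fun p : ι × Γ × Γ => ‖⟪B p.2.1 (A p.2.2 (ξ p.1)), η⟫_ℂ‖ ^ 2) =
        (fun p : ι × Γ × Γ => ‖⟪A p.2.1 (B p.2.2 (ξ p.1)), η⟫_ℂ‖ ^ 2) ∘
          (Equiv.prodCongr (Equiv.refl ι) (Equiv.prodComm Γ Γ)) := by
      funext p
      obtain ⟨k, a, b⟩ := p
      change ‖⟪B a (A b (ξ k)), η⟫_ℂ‖ ^ 2 = ‖⟪A b (B a (ξ k)), η⟫_ℂ‖ ^ 2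
      have e2 : B a (A b (ξ k)) = A b (B a (ξ k)) :=
        congrArg (fun T : ℋ →L[ℂ] ℋ => T (ξ k)) (h.comm₁₂ b a).symm
      rw [e2]
    rw [h2]
    exact h1

/-- the flipped frames of the legs -/
noncomputable def rl (Q : Type) [Group Q] [Fintype Q] (V R₁ R₂ : Γ →* (ℋ →L[ℂ] ℋ))
    (h1 : ∀ g k, V g * R₁ k = R₁ k * V g) (h2 : ∀ g k, V g * R₂ k = R₂ k * V g) (l : Bool) :
    XG Γ Q →* (KT Q ℋ →L[ℂ] KT Q ℋ) :=
  match l with
  | false => rt Q (pr V R₂ h2)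
  | true => rt Q (pr V R₁ h1)

/-- the legs -/
noncomputable def lR (Q : Type) [Group Q] [Fintype Q] (R₁ R₂ : Γ →* (ℋ →L[ℂ] ℋ)) (l : Bool) :
    Γ →* (KT Q ℋ →L[ℂ] KT Q ℋ) :=
  match l with
  | false => av Q R₁
  | true => av Q R₂

variable {ι₁ ι₂ : Type} [Fintype ι₁] [Fintype ι₂] {ξ₁ : ι₁ → ℋ} {ξ₂ : ι₂ → ℋ}

/-- **The double frames of both legs.** -/
theorem exists_dbl (hΓ : ∀ g : Γ, g ≠ 1 → Set.Infinite {y : Γ | ∃ h, y = h * g * h⁻¹})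
    (hT : Tri V R₁ R₂ ξ) (hT₁ : Tri R₁ V R₂ ξ₁) (hT₂ : Tri R₂ V R₁ ξ₂)
    (hc : Fintype.card ι ≤ Fintype.card Q) (hc₁ : Fintype.card ι₁ ≤ Fintype.card Q)
    (hc₂ : Fintype.card ι₂ ≤ Fintype.card Q) :
    ∃ (ω : KT Q ℋ) (ω' : Bool → KT Q ℋ), ∀ l,
      Dbl (av Q V) (lR Q R₁ R₂ l) (lf Γ Q l) (rt Q (pr R₁ R₂ hT.comm₁₂)) (lf Γ Q false)
        (rl Q V R₁ R₂ hT.comm₁ hT.comm₂ l) ω (ω' l) := by
  obtain ⟨ω, hω, -⟩ := exists_frm (Q := Q) hT (H962.tr0 hΓ hT hT₁) hc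
  obtain ⟨ω₁, hω₁, -⟩ := exists_frm (Q := Q) hT₁ (H962.tr0 hΓ hT₁ hT) hc₁
  have hT' : Tri V R₂ R₁ ξ := tri_sw hT
  obtain ⟨ω₂, hω₂, -⟩ := exists_frm (Q := Q) hT₂ (H962.tr0 hΓ hT₂ hT') hc₂
  refine ⟨ω, fun l => match l with | false => ω₁ | true => ω₂, fun l => ?_⟩
  cases l with
  | false =>
    refine ⟨hω, hω₁, fun g => ⟨((g, 1), 1), rfl, ?_⟩, fun g => ⟨((g, 1), 1), rfl, ?_⟩, fun T => ?_⟩
    · change amp (R₁ g * R₂ 1) * sg 1 = amp (R₁ g)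
      rw [map_one, mul_one, sg_one, mul_one]
    · change amp (V g * R₂ 1) * sg 1 = amp (V g)
      rw [map_one, mul_one, sg_one, mul_one]
    · constructor
      · rintro h ⟨⟨a, b⟩, f⟩ hy
        have ha : a = 1 := hy
        have h1 := h ((1, b), f) rfl
        change T * (amp (R₁ 1 * R₂ b) * sg f) = (amp (R₁ 1 * R₂ b) * sg f) * T at h1
        change T * (amp (V a * R₂ b) * sg f) = (amp (V a * R₂ b) * sg f) * T
        rw [ha, map_one, one_mul]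
        rwa [map_one, one_mul] at h1
      · rintro h ⟨⟨a, b⟩, f⟩ hy
        have ha : a = 1 := hy
        have h1 := h ((1, b), f) rfl
        change T * (amp (V 1 * R₂ b) * sg f) = (amp (V 1 * R₂ b) * sg f) * T at h1
        change T * (amp (R₁ a * R₂ b) * sg f) = (amp (R₁ a * R₂ b) * sg f) * T
        rw [ha, map_one, one_mul]
        rwa [map_one, one_mul] at h1
  | true =>
    refine ⟨hω, hω₂, fun g => ⟨((1, g), 1), rfl, ?_⟩, fun g => ⟨((g, 1), 1), rfl, ?_⟩, fun T => ?_⟩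
    · change amp (R₁ 1 * R₂ g) * sg 1 = amp (R₂ g)
      rw [map_one, one_mul, sg_one, mul_one]
    · change amp (V g * R₁ 1) * sg 1 = amp (V g)
      rw [map_one, mul_one, sg_one, mul_one]
    · constructor
      · rintro h ⟨⟨a, b⟩, f⟩ hy
        have ha : a = 1 := hy
        have h1 := h ((b, 1), f) rfl
        change T * (amp (R₁ b * R₂ 1) * sg f) = (amp (R₁ b * R₂ 1) * sg f) * T at h1
        change T * (amp (V a * R₁ b) * sg f) = (amp (V a * R₁ b) * sg f) * T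
        rw [ha, map_one, one_mul]
        rwa [map_one, mul_one] at h1
      · rintro h ⟨⟨a, b⟩, f⟩ hy
        have hb : b = 1 := hy
        have h1 := h ((1, a), f) rfl
        change T * (amp (V 1 * R₁ a) * sg f) = (amp (V 1 * R₁ a) * sg f) * T at h1
        change T * (amp (R₁ a * R₂ b) * sg f) = (amp (R₁ a * R₂ b) * sg f) * T
        rw [hb, map_one, mul_one]
        rwa [map_one, one_mul] at h1

end abs

end Vale.Agent.P092.H333.Amp
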