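import Vale.Agent.P092.H333.ErgT2
import Vale.Agent.P092.H776.ErgTC

/-!
P092 (helper333), ERG-T: the representations of `Λ` and of a subgroup `Θ` of `Γ` on the range of
`α 1` are irreducible (`IrrM`).
-/

set_option linter.all false

open scoped InnerProductSpace
open Filter Topology ContinuousLinearMap
open Vale.Agent.P092.H160 Vale.Agent.P092.H103 Vale.Agent.P092.H962

namespace Vale.Agent.P092.H333

section irr

variable {I Λ Γ : Type} [Group Λ] [Group Γ] [Fintype I]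
  {α : Γ → (Ell2 (I × Λ) →L[ℂ] Ell2 (I × Λ))}

/-- relative ICC -/
def RIcc (Θ : Set Γ) : Prop := ∀ h : Γ, h ≠ 1 → Set.Infinite {x : Γ | ∃ g ∈ Θ, x = g * h * g⁻¹}

/-- an operator of the corner which commutes with `α g`, `g ∈ Θ`, is a scalar -/
theorem fix_scalar (hα : AF α) {Θ : Set Γ} (hΘ : RIcc Θ)
    {X : Ell2 (I × Λ) →L[ℂ] Ell2 (I × Λ)} (hX : Eqv (FS.mat I Λ).R (FS.mat I Λ).R X)
    (h1 : α 1 * X = X) (h2 : X * α 1 = X) (hg : ∀ g ∈ Θ, X * α g = α g * X) :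
    ∃ c : ℂ, X = c • α 1 := by
  have hd := dm_pos hα
  have hd' : (dm α : ℂ) ≠ 0 := by exact_mod_cast hd.ne'
  have hginv : ∀ g ∈ Θ, X * α g⁻¹ = α g⁻¹ * X := by
    intro g hgΘ
    have e1 : α g⁻¹ * (X * α g) * α g⁻¹ = α g⁻¹ * (α g * X) * α g⁻¹ := by rw [hg g hgΘ]
    have e2 : α g⁻¹ * (X * α g) * α g⁻¹ = α g⁻¹ * X := by
      rw [mul_assoc, mul_assoc, ← hα.mul, mul_inv_cancel, h2]
    have e3 : α g⁻¹ * (α g * X) * α g⁻¹ = X * α g⁻¹ := by
      rw [← mul_assoc, ← hα.mul, inv_mul_cancel, h1]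
    rw [e2, e3] at e1
    exact e1.symm
  -- the coefficients are constant on the `Θ`-classes
  have hcl : ∀ g ∈ Θ, ∀ h : Γ, (FS.mat I Λ).tr (adjoint (α (g * h * g⁻¹)) * X) =
      (FS.mat I Λ).tr (adjoint (α h) * X) := by
    intro g hgΘ h
    have e1 : adjoint (α (g * h * g⁻¹)) * X = α g ∘L (α h⁻¹ * α g⁻¹ * X) := by
      rw [hα.adj]
      have : (g * h * g⁻¹)⁻¹ = g * (h⁻¹ * g⁻¹) := by group
      rw [this, hα.mul, hα.mul, mul_assoc]
      rfl
    have e2 : (α h⁻¹ * α g⁻¹ * X) ∘L α g = adjoint (α h) * X := by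
      change α h⁻¹ * α g⁻¹ * X * α g = _
      rw [mul_assoc, hg g hgΘ, hα.adj, mul_assoc, ← mul_assoc (α g⁻¹), ← hα.mul, inv_mul_cancel,
        h1]
    rw [e1, FS.tr_comm (FS.mat I Λ) (FS.mat I Λ) (((hα.comm _).mul (hα.comm _)).mul hX)
      (hα.comm g), e2]
  have hsum := H58.coef_sum hα hX h1 h2
  have hzero : ∀ h : Γ, h ≠ 1 → (FS.mat I Λ).tr (adjoint (α h) * X) = 0 := by
    intro h hh
    by_contra hne
    have ht := hsum.summable.tendsto_cofinite_zero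
    have hpos : 0 < ‖(FS.mat I Λ).tr (adjoint (α h) * X)‖ ^ 2 := by positivity
    have hev := ht.eventually (gt_mem_nhds hpos)
    rw [Filter.eventually_cofinite] at hev
    refine hΘ h hh (hev.subset ?_)
    rintro _ ⟨g, hgΘ, rfl⟩
    change ¬ _ < _
    rw [hcl g hgΘ h]
    exact lt_irrefl _
  set c : ℂ := (FS.mat I Λ).tr (adjoint (α 1) * X) / dm α with hc
  have trsub : ∀ A B : Ell2 (I × Λ) →L[ℂ] Ell2 (I × Λ), (FS.mat I Λ).tr (A - B) =
      (FS.mat I Λ).tr A - (FS.mat I Λ).tr B := by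
    intro A B
    unfold FS.tr
    rw [← Finset.sum_sub_distrib]
    refine Finset.sum_congr rfl fun i _ => ?_
    rw [ContinuousLinearMap.sub_apply, inner_sub_right]
  have trsmul : ∀ (a : ℂ) (A : Ell2 (I × Λ) →L[ℂ] Ell2 (I × Λ)), (FS.mat I Λ).tr (a • A) =
      a * (FS.mat I Λ).tr A := by
    intro a A
    unfold FS.tr
    rw [Finset.mul_sum]
    refine Finset.sum_congr rfl fun i _ => ?_
    rw [ContinuousLinearMap.smul_apply, inner_smul_right]
  have hX' : Eqv (FS.mat I Λ).R (FS.mat I Λ).R (X - c • α 1) := hX.sub ((hα.comm 1).smul c)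
  have hs2 := H58.coef_sum hα hX' (by rw [mul_sub, h1, mul_smul_comm, hα.pp])
    (by rw [sub_mul, h2, smul_mul_assoc, hα.pp])
  have hall : ∀ h : Γ, (FS.mat I Λ).tr (adjoint (α h) * (X - c • α 1)) = 0 := by
    intro h
    rw [mul_sub, mul_smul_comm, trsub, trsmul]
    by_cases hh : h = 1
    · subst hh
      rw [hα.p_adj, hα.pp, tr_p hα]
      rw [hα.p_adj] at hc
      rw [hc, div_mul_cancel₀ _ hd', sub_self]
    · rw [hzero h hh, hα.adj, hα.mul_p, hα.tr0 _ (inv_ne_one.mpr hh), mul_zero, sub_zero]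
  have h0 : dm α * ∑ i, ‖(X - c • α 1) (dl (i, 1))‖ ^ 2 = 0 := by
    refine hs2.unique ?_
    simp only [hall, norm_zero]
    simpa using (hasSum_zero : HasSum (fun _ : Γ => (0 : ℝ)) 0)
  have h3 : ∀ i, (X - c • α 1) (dl (i, 1)) = 0 := by
    intro i
    have h4 := (mul_eq_zero.1 h0).resolve_left hd.ne'
    have h5 := (Finset.sum_eq_zero_iff_of_nonneg fun _ _ => by positivity).1 h4 i
      (Finset.mem_univ i)
    exact norm_eq_zero.1 (pow_eq_zero_iff two_ne_zero |>.1 h5)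
  refine ⟨c, sub_eq_zero.1 ?_⟩
  refine FS.ext_base (FS.mat I Λ) (FS.mat I Λ) hX' (fun _ _ => ?_) fun i => ?_
  · rw [ContinuousLinearMap.zero_apply, ContinuousLinearMap.zero_apply, map_zero]
  · rw [FS.mat_base, h3, ContinuousLinearMap.zero_apply]

/-- the projection `α 1` -/
theorem pA_prj (hα : AF α) : Prj (α 1) := ⟨hα.pp, hα.p_adj⟩

theorem pA_R (hα : AF α) (s : Λ) : α 1 * (FS.mat I Λ).R s = (FS.mat I Λ).R s * α 1 := by
  ext1 v
  exact hα.comm 1 s v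

theorem pA_al (hα : AF α) (g : Γ) : α 1 * α g = α g * α 1 := by rw [hα.p_mul, hα.mul_p]

/-- the representation of `Λ` on the corner -/
noncomputable def rE (hα : AF α) : Λ →* (Ep (α 1) →L[ℂ] Ep (α 1)) where
  toFun s := cmp (pA_prj hα) ((FS.mat I Λ).R s)
  map_one' := by rw [map_one, cmp_one]
  map_mul' s t := by rw [map_mul, cmp_mul _ (pA_R hα t)]

/-- the representation of `Γ` on the corner -/
noncomputable def aE (hα : AF α) (g : Γ) : Ep (α 1) →L[ℂ] Ep (α 1) := cmp (pA_prj hα) (α g)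

theorem inc_rE (hα : AF α) (s : Λ) (e : Ep (α 1)) :
    inc (α 1) (rE hα s e) = (FS.mat I Λ).R s (inc (α 1) e) := inc_cmp (pA_prj hα) _ (pA_R hα s) e

theorem inc_aE (hα : AF α) (g : Γ) (e : Ep (α 1)) :
    inc (α 1) (aE hα g e) = α g (inc (α 1) e) := inc_cmp (pA_prj hα) _ (pA_al hα g) e

theorem inc_inj {H : Type} [NormedAddCommGroup H] [InnerProductSpace ℂ H] [CompleteSpace H]
    {p : H →L[ℂ] H} {e e' : Ep p} (h : inc p e = inc p e') : e = e' := Subtype.ext h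

theorem aE_mul (hα : AF α) (g h : Γ) : aE hα (g * h) = aE hα g * aE hα h := by
  unfold aE
  rw [hα.mul, cmp_mul _ (pA_al hα h)]

theorem aE_one (hα : AF α) : aE hα 1 = 1 := by
  ext1 e
  apply inc_inj
  rw [inc_aE]
  exact p_inc _ e

theorem aE_adj (hα : AF α) (g : Γ) : adjoint (aE hα g) = aE hα g⁻¹ := by
  unfold aE
  rw [adjoint_cmp, hα.adj]

/-- **Irreducibility.** -/
theorem irrM (hα : AF α) {Θ : Subgroup Γ} (hΘ : RIcc (Θ : Set Γ)) :
    H776.TC.IrrM (rE hα) (Set.range fun k : Θ => aE hα (k : Γ)) where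
  adj_r s := by
    change adjoint (cmp (pA_prj hα) ((FS.mat I Λ).R s)) = cmp (pA_prj hα) ((FS.mat I Λ).R s⁻¹)
    rw [adjoint_cmp, FS.R_adj]
  mix u v := by
    have h1 := FS.coeff_c0 (FS.mat I Λ) (inc (α 1) u) (inc (α 1) v)
    refine h1.congr fun s => ?_
    rw [← inc_rE]
    rfl
  uni := by
    rintro _ ⟨k, rfl⟩
    change adjoint (aE hα (k : Γ)) * aE hα (k : Γ) = 1 ∧ aE hα (k : Γ) * adjoint (aE hα (k : Γ)) = 1
    rw [aE_adj, ← aE_mul, ← aE_mul, inv_mul_cancel, mul_inv_cancel, aE_one]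
    exact ⟨rfl, rfl⟩
  adj := by
    rintro _ ⟨k, rfl⟩
    refine ⟨k⁻¹, ?_⟩
    change aE hα ((k⁻¹ : Θ) : Γ) = adjoint (aE hα (k : Γ))
    rw [aE_adj]
    rfl
  com := by
    rintro _ ⟨k, rfl⟩ s
    ext1 e
    apply inc_inj
    change inc (α 1) (aE hα (k : Γ) (rE hα s e)) = inc (α 1) (rE hα s (aE hα (k : Γ) e))
    rw [inc_aE, inc_rE, inc_rE, inc_aE]
    exact hα.comm (k : Γ) s _
  irr T hr hA := by
    obtain ⟨c, hc⟩ := fix_scalar hα (X := ext (pA_prj hα) T) hΘ (fun s v => by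
        have h1 := ext_comm (pA_prj hα) (pA_R hα s) (hr s)
        exact congrArg (fun L : Ell2 (I × Λ) →L[ℂ] Ell2 (I × Λ) => L v) h1)
      (p_ext (pA_prj hα) T) (ext_p (pA_prj hα) T)
      (fun g hg => ext_comm (pA_prj hα) (pA_al hα g) (hA _ ⟨⟨g, hg⟩, rfl⟩))
    exact ⟨c, ext_eq_smul (pA_prj hα) hc⟩

end irr

end Vale.Agent.P092.H333
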