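import Vale.Agent.P092.H333.ErgI

/-!
P092 (helper333), ERG-T: the stripped comultiplication is ergodic (`ErgU`), from the core
`H776.TC.ergM`.
-/

set_option linter.all false

open scoped InnerProductSpace
open Filter Topology ContinuousLinearMap
open Vale.Agent.P092.H160 Vale.Agent.P092.H103 Vale.Agent.P092.H962

namespace Vale.Agent.P092.H333

section jdm

variable {I Λ Γ : Type} [Group Λ] [Group Γ] [Fintype I]
  {α : Γ → (Ell2 (I × Λ) →L[ℂ] Ell2 (I × Λ))}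

/-- `(i, a) ↦ (i, a, a s)` -/
noncomputable def Ds (I : Type) {Λ : Type} [Group Λ] (s : Λ) :
    Ell2 (I × Λ) →L[ℂ] Ell2 (I × ((Unit × Λ) × (Unit × Λ))) :=
  rei (eV I Unit Unit Λ).symm ∘L tvl (dl ((), ((), s)))

theorem Ds_apply (s : Λ) (u : Ell2 (I × Λ)) :
    Ds I s u = rei (eV I Unit Unit Λ).symm (tv u (dl ((), ((), s)))) := rfl

theorem Ds_dl (s : Λ) (i : I) (a : Λ) : Ds I s (dl (i, a)) = dl (i, (((), a), ((), a * s))) := by
  rw [Ds_apply, ← dl_prod, rei_dl]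
  rfl

theorem inner_Ds (s t : Λ) (u v : Ell2 (I × Λ)) :
    ⟪Ds I s u, Ds I t v⟫_ℂ = ⟪u, v⟫_ℂ * ⟪(dl ((), ((), s)) : Ell2 (Unit × (Unit × Λ))),
      dl ((), ((), t))⟫_ℂ := by
  rw [Ds_apply, Ds_apply, inner_rei, inner_tv]

theorem VT_Ds (x : Ell2 (I × Λ) →L[ℂ] Ell2 (I × Λ)) (s : Λ) (u : Ell2 (I × Λ)) :
    VT Unit Unit x (Ds I s u) = Ds I s (x u) := by
  have h1 : VT Unit Unit x ∘L Ds I s = Ds I s ∘L x := by
    apply op_ext
    rintro ⟨i, a⟩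
    rw [comp_apply, Ds_dl, VT_dl, comp_apply, Ds_apply]
    congr 4
    group
  exact congrArg (fun L : Ell2 (I × Λ) →L[ℂ] Ell2 (I × ((Unit × Λ) × (Unit × Λ))) => L u) h1

/-- the pairs of right translations -/
noncomputable def RU (I : Type) {Λ : Type} [Group Λ] :
    Λ × Λ →* (Ell2 (I × ((Unit × Λ) × (Unit × Λ))) →L[ℂ] Ell2 (I × ((Unit × Λ) × (Unit × Λ)))) where
  toFun p := tens 1 (tens (tens 1 (rho p.1)) (tens 1 (rho p.2)))
  map_one' := by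
    simp only [Prod.fst_one, Prod.snd_one, rho_one, tens_one]
  map_mul' p q := by
    rw [← tens_mul, ← tens_mul, ← tens_mul, ← tens_mul, ← rho_mul, ← rho_mul]
    simp only [mul_one, Prod.fst_mul, Prod.snd_mul]

theorem RU_dl (s t : Λ) (i : I) (a b : Λ) :
    RU I (s, t) (dl (i, (((), a), ((), b)))) = dl (i, (((), a * s⁻¹), ((), b * t⁻¹))) := by
  change tens 1 (tens (tens 1 (rho s)) (tens 1 (rho t))) (dl (i, (((), a), ((), b)))) = _
  rw [tens_dl, tens_dl, tens_dl, tens_dl, rho_dl, rho_dl]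
  simp only [ContinuousLinearMap.one_apply]
  rw [← dl_prod, ← dl_prod, ← dl_prod, ← dl_prod]

theorem RU_adj (p : Λ × Λ) : adjoint (RU I p) = RU I p⁻¹ := by
  change adjoint (tens 1 (tens (tens 1 (rho p.1)) (tens 1 (rho p.2)))) =
    tens 1 (tens (tens 1 (rho p.1⁻¹)) (tens 1 (rho p.2⁻¹)))
  simp only [adjoint_tens, adjoint_one', adjoint_rho]

theorem RU_Ds (s : Λ) : RU I (1, s)⁻¹ ∘L Ds I 1 = Ds I s := by
  apply op_ext
  rintro ⟨i, a⟩
  rw [comp_apply, Ds_dl, Ds_dl, Prod.inv_mk, RU_dl]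
  simp

theorem Ds_R (s c : Λ) : Ds I s ∘L (FS.mat I Λ).R c = RU I (c, c) ∘L Ds I (c⁻¹ * s * c) := by
  apply op_ext
  rintro ⟨i, a⟩
  rw [comp_apply, comp_apply, Ds_dl, RU_dl, FS.R_dl, FS.mat_act, Ds_dl]
  congr 4
  group

/-- the embeddings of the corner -/
noncomputable def Js (α : Γ → (Ell2 (I × Λ) →L[ℂ] Ell2 (I × Λ))) (s : Λ) :
    Ep (α 1) →L[ℂ] Ell2 (I × ((Unit × Λ) × (Unit × Λ))) := Ds I s ∘L inc (α 1)

theorem Js_apply (s : Λ) (e : Ep (α 1)) : Js α s e = Ds I s (inc (α 1) e) := rfl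

/-- **The data of the core.** -/
theorem jdm (hα : AF α) {Θ : Subgroup Γ} (hΘ : RIcc (Θ : Set Γ)) :
    H776.TC.JDM (rE hα) (RU I) (Js α) (fun k : Θ => aE hα (k : Γ))
      (fun k : Θ => VT Unit Unit (α (k : Γ))) where
  irr := irrM hα hΘ
  adjR := RU_adj
  jj s := by
    ext1 e
    refine ext_inner_left ℂ fun e' => ?_
    rw [comp_apply, adjoint_inner_right, Js_apply, Js_apply, inner_Ds, inner_dl, dl_self, mul_one]
    rfl
  orth s t hst := by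
    ext1 e
    refine ext_inner_left ℂ fun e' => ?_
    rw [comp_apply, adjoint_inner_right, Js_apply, Js_apply, inner_Ds, inner_dl, dl_ne, mul_zero,
      ContinuousLinearMap.zero_apply, inner_zero_right]
    intro h
    apply hst
    simpa using h
  ja s k := by
    ext1 e
    change VT Unit Unit (α (k : Γ)) (Ds I s (inc (α 1) e)) = Ds I s (inc (α 1) (aE hα (k : Γ) e))
    rw [VT_Ds, inc_aE]
  adj k := by
    refine ⟨k⁻¹, ?_, ?_⟩
    · rw [aE_adj]; rfl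
    · rw [VT_adj, hα.adj]; rfl
  js s := by
    change Ds I s ∘L inc (α 1) = RU I (1, s)⁻¹ ∘L (Ds I 1 ∘L inc (α 1))
    rw [← comp_assoc, RU_Ds]
  jr s c := by
    ext1 e
    change Ds I s (inc (α 1) (rE hα c e)) = RU I (c, c) (Ds I (c⁻¹ * s * c) (inc (α 1) e))
    rw [inc_rE]
    exact congrArg (fun L : Ell2 (I × Λ) →L[ℂ] Ell2 (I × ((Unit × Λ) × (Unit × Λ))) =>
      L (inc (α 1) e)) (Ds_R s c)

/-- The hypothesis: the class of the centralizer of `s ≠ 1` is zero. -/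
def NoClsT (hα : AF α) (Θ : Set Γ) : Prop := ∃ ξ : Ep (α 1), ∀ s : Λ, s ≠ 1 →
  ∀ S : Ep (α 1) →L[ℂ] Ep (α 1),
    H776.TC.ClsM (rE hα) ξ (Set.range fun k : Θ => aE hα (k : Γ)) (Subgroup.centralizer {s}) S →
      S = 0

/-- **Ergodicity of the stripped comultiplication.** -/
theorem ergU_of (hα : AF α) {Θ : Subgroup Γ} (hΘ : RIcc (Θ : Set Γ))
    (hT : NoClsT hα (Θ : Set Γ)) : ErgU α (Θ : Set Γ) := by
  obtain ⟨ξ, hξ⟩ := hT
  intro X hPX hXP hR hV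
  have hj := jdm hα hΘ
  have hPD : ∀ (s : Λ) (v : Ell2 (I × Λ)), VT Unit Unit (α 1) (Ds I s v) = Ds I s (α 1 v) :=
    fun s v => VT_Ds _ _ _
  have hPadj : adjoint (VT Unit Unit (α 1)) = VT Unit Unit (α 1) := by rw [VT_adj, hα.p_adj]
  have hinc : ∀ v : Ell2 (I × Λ), α 1 v = inc (α 1) (prj (pA_prj hα) v) := fun v => rfl
  obtain ⟨c, hc⟩ := H776.TC.ergM hj (X := X) (ξ := ξ) hξ (VT Unit Unit (α 1)) hPX (fun η h1 h2 => by
      apply ext_inner_dl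
      rintro ⟨i, ⟨u, a⟩, ⟨u', b⟩⟩
      have h3 : (dl (i, ((u, a), (u', b))) : Ell2 (I × ((Unit × Λ) × (Unit × Λ)))) =
          Ds I (a⁻¹ * b) (dl (i, a)) := by
        rw [Ds_dl, mul_inv_cancel_left]
      have h4 : ⟪(dl (i, ((u, a), (u', b))) : Ell2 (I × ((Unit × Λ) × (Unit × Λ)))), η⟫_ℂ = 0 := by
        rw [h3, ← h1, ← adjoint_inner_left, hPadj, hPD, hinc]
        change ⟪Js α (a⁻¹ * b) (prj (pA_prj hα) (dl (i, a))), η⟫_ℂ = 0
        rw [← adjoint_inner_right, h2, inner_zero_right]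
      rw [inner_dl] at h4
      rw [h4]
      rfl)
    (fun s => by
      ext1 e
      change VT Unit Unit (α 1) (Ds I s (inc (α 1) e)) = Ds I s (inc (α 1) e)
      rw [hPD, p_inc])
    (fun p => hR p.1 p.2) (fun k => hV _ k.2)
  refine ⟨c, op_ext ?_⟩
  rintro ⟨i, ⟨u, a⟩, ⟨u', b⟩⟩
  have h3 : (dl (i, ((u, a), (u', b))) : Ell2 (I × ((Unit × Λ) × (Unit × Λ)))) =
      Ds I (a⁻¹ * b) (dl (i, a)) := by
    rw [Ds_dl, mul_inv_cancel_left]
  rw [h3]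
  have h4 := congrArg (fun L : Ell2 (I × ((Unit × Λ) × (Unit × Λ))) →L[ℂ]
    Ell2 (I × ((Unit × Λ) × (Unit × Λ))) => L (Ds I (a⁻¹ * b) (dl (i, a)))) hXP
  change X (VT Unit Unit (α 1) (Ds I (a⁻¹ * b) (dl (i, a)))) = X (Ds I (a⁻¹ * b) (dl (i, a))) at h4
  change X (Ds I (a⁻¹ * b) (dl (i, a))) = c • VT Unit Unit (α 1) (Ds I (a⁻¹ * b) (dl (i, a)))
  rw [← h4, hPD, hinc]
  exact hc _ _

/-- The torsion-free case. -/
theorem noClsT_tf (hα : AF α) {Θ : Subgroup Γ} (hΘ : RIcc (Θ : Set Γ))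
    (hinf : ∀ s : Λ, s ≠ 1 → ∀ n : ℕ, 0 < n → s ^ n ≠ 1) : NoClsT hα (Θ : Set Γ) := by
  have h0 : ∃ ξ : Ep (α 1), ‖ξ‖ = 1 := by
    obtain ⟨v, hv⟩ : ∃ v, α 1 v ≠ 0 := by
      by_contra h
      push Not at h
      exact hα.ne (by ext1 v; exact h v)
    have hw : prj (pA_prj hα) v ≠ 0 := by
      intro h
      apply hv
      change inc (α 1) (prj (pA_prj hα) v) = 0
      rw [h, map_zero]
    refine ⟨((‖prj (pA_prj hα) v‖⁻¹ : ℝ) : ℂ) • prj (pA_prj hα) v, ?_⟩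
    rw [norm_smul, Complex.norm_real, norm_inv, norm_norm, inv_mul_cancel₀ (norm_ne_zero_iff.2 hw)]
  obtain ⟨ξ, hξ⟩ := h0
  refine ⟨ξ, fun s hs S hS => ?_⟩
  refine H776.TC.ClsM.eq_zero (irrM hα hΘ) hξ (z := s) (fun c hc => ?_) ?_ (hinf s hs) hS
  · exact ((Subgroup.mem_centralizer_iff.mp hc) s rfl).symm
  · rw [Subgroup.mem_centralizer_iff]
    rintro _ rfl
    rfl

/-- **Ergodicity of the stripped comultiplication, `Λ` torsion free.** -/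
theorem ergU_tf (hα : AF α) {Θ : Subgroup Γ} (hΘ : RIcc (Θ : Set Γ))
    (hinf : ∀ s : Λ, s ≠ 1 → ∀ n : ℕ, 0 < n → s ^ n ≠ 1) : ErgU α (Θ : Set Γ) :=
  ergU_of hα hΘ (noClsT_tf hα hΘ hinf)

end jdm

end Vale.Agent.P092.H333
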