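import Vale.Agent.P092.H333.LegT

/-!
P092 (helper333), ERG-T: the two legs of the amplified model; from the full space to the stripped
space.
-/

set_option linter.all false

open scoped InnerProductSpace
open Filter Topology ContinuousLinearMap
open Vale.Agent.P092.H160 Vale.Agent.P092.H103 Vale.Agent.P092.H962

namespace Vale.Agent.P092.H333

section legs

variable {I J K Λ A B C : Type}

theorem tens_add_right {X X' Y Y' : Type} (S : Ell2 X →L[ℂ] Ell2 X') (T T' : Ell2 Y →L[ℂ] Ell2 Y') :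
    tens S (T + T') = tens S T + tens S T' := by
  apply op_ext
  rintro ⟨x, y⟩
  rw [ContinuousLinearMap.add_apply, tens_dl, tens_dl, tens_dl, ContinuousLinearMap.add_apply,
    tv_add_right]

theorem tens_add_left {X X' Y Y' : Type} (S S' : Ell2 X →L[ℂ] Ell2 X') (T : Ell2 Y →L[ℂ] Ell2 Y') :
    tens (S + S') T = tens S T + tens S' T := by
  apply op_ext
  rintro ⟨x, y⟩
  rw [ContinuousLinearMap.add_apply, tens_dl, tens_dl, tens_dl, ContinuousLinearMap.add_apply,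
    tv_add_left]

theorem tens_smul_right {X X' Y Y' : Type} (c : ℂ) (S : Ell2 X →L[ℂ] Ell2 X')
    (T : Ell2 Y →L[ℂ] Ell2 Y') : tens S (c • T) = c • tens S T := by
  apply op_ext
  rintro ⟨x, y⟩
  rw [ContinuousLinearMap.smul_apply, tens_dl, tens_dl, ContinuousLinearMap.smul_apply,
    tv_smul_right]

theorem tens_smul_left {X X' Y Y' : Type} (c : ℂ) (S : Ell2 X →L[ℂ] Ell2 X')
    (T : Ell2 Y →L[ℂ] Ell2 Y') : tens (c • S) T = c • tens S T := by
  apply op_ext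
  rintro ⟨x, y⟩
  rw [ContinuousLinearMap.smul_apply, tens_dl, tens_dl, ContinuousLinearMap.smul_apply,
    tv_smul_left]

theorem adjoint_one' {X : Type} : adjoint (1 : Ell2 X →L[ℂ] Ell2 X) = 1 := by
  rw [← star_eq_adjoint, star_one]

/-- the middle leg -/
noncomputable def amp1 (A B C : Type) :
    (Ell2 B →L[ℂ] Ell2 B) →ₗ[ℂ] (Ell2 (A × (B × C)) →L[ℂ] Ell2 (A × (B × C))) where
  toFun y := tens 1 (tens y 1)
  map_add' y z := by rw [tens_add_left, tens_add_right]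
  map_smul' c y := by rw [tens_smul_left, tens_smul_right]; rfl

/-- the last leg -/
noncomputable def amp2 (A B C : Type) :
    (Ell2 C →L[ℂ] Ell2 C) →ₗ[ℂ] (Ell2 (A × (B × C)) →L[ℂ] Ell2 (A × (B × C))) where
  toFun y := tens 1 (tens 1 y)
  map_add' y z := by rw [tens_add_right, tens_add_right]
  map_smul' c y := by rw [tens_smul_right, tens_smul_right]; rfl

noncomputable def E1 (A B C : Type) (p : A × C) : Ell2 B →L[ℂ] Ell2 (A × (B × C)) :=
  tvr (dl p.1) ∘L tvl (dl p.2)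

noncomputable def E2 (A B C : Type) (p : A × B) : Ell2 C →L[ℂ] Ell2 (A × (B × C)) :=
  tvr (dl p.1) ∘L tvr (dl p.2)

theorem leg1 : LegD (E1 A B C) (amp1 A B C) where
  ampE y b := by
    ext1 v
    change tens 1 (tens y 1) (tv (dl b.1) (tv v (dl b.2))) = tv (dl b.1) (tv (y v) (dl b.2))
    rw [tens_tv, tens_tv]; rfl
  adj y := by
    change adjoint (tens 1 (tens y 1)) = tens 1 (tens (adjoint y) 1)
    rw [adjoint_tens, adjoint_tens, adjoint_one', adjoint_one']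
  mul y z := by
    change tens 1 (tens (y * z) 1) = tens 1 (tens y 1) * tens 1 (tens z 1)
    rw [← tens_mul, ← tens_mul, one_mul, one_mul]
  one := by
    change tens 1 (tens 1 1) = 1
    rw [tens_one, tens_one]
  total w hw := by
    refine eq_zero_of_inner_dl fun p => ?_
    obtain ⟨a, b, c⟩ := p
    rw [← inner_dl, dl_prod, dl_prod]
    have h1 : ⟪E1 A B C (a, c) (dl b), w⟫_ℂ = 0 := by
      rw [← adjoint_inner_right, hw, inner_zero_right]
    exact h1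

theorem leg2 : LegD (E2 A B C) (amp2 A B C) where
  ampE y b := by
    ext1 v
    change tens 1 (tens 1 y) (tv (dl b.1) (tv (dl b.2) v)) = tv (dl b.1) (tv (dl b.2) (y v))
    rw [tens_tv, tens_tv]; rfl
  adj y := by
    change adjoint (tens 1 (tens 1 y)) = tens 1 (tens 1 (adjoint y))
    rw [adjoint_tens, adjoint_tens, adjoint_one', adjoint_one']
  mul y z := by
    change tens 1 (tens 1 (y * z)) = tens 1 (tens 1 y) * tens 1 (tens 1 z)
    rw [← tens_mul, ← tens_mul, one_mul, one_mul]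
  one := by
    change tens 1 (tens 1 1) = 1
    rw [tens_one, tens_one]
  total w hw := by
    refine eq_zero_of_inner_dl fun p => ?_
    obtain ⟨a, b, c⟩ := p
    rw [← inner_dl, dl_prod, dl_prod]
    have h1 : ⟪E2 A B C (a, b) (dl c), w⟫_ℂ = 0 := by
      rw [← adjoint_inner_right, hw, inner_zero_right]
    exact h1

theorem amp12 (y : Ell2 B →L[ℂ] Ell2 B) (z : Ell2 C →L[ℂ] Ell2 C) :
    amp1 A B C y * amp2 A B C z = amp2 A B C z * amp1 A B C y := by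
  change tens 1 (tens y 1) * tens 1 (tens 1 z) = tens 1 (tens 1 z) * tens 1 (tens y 1)
  rw [← tens_mul, ← tens_mul, ← tens_mul, ← tens_mul]
  simp only [one_mul, mul_one]

end legs

section model

variable {I J K Λ Γ : Type} [Group Λ] [Group Γ] [Fintype I] [Fintype J] [Fintype K]

/-- frame sums: `∑ v_k JT(β 1) v_k* = 1` with `v_k` in `M_J(R(Λ))` -/
def FSum (β : Γ → (Ell2 (J × Λ) →L[ℂ] Ell2 (J × Λ))) : Prop :=
  ∃ (κ : Type) (_ : Fintype κ) (v : κ → (Ell2 (J × Λ) →L[ℂ] Ell2 (J × Λ))),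
    (∀ k, v k ∈ MR J Λ) ∧ ∑ k, v k * JT (β 1) * adjoint (v k) = 1

variable {α : Γ → (Ell2 (I × Λ) →L[ℂ] Ell2 (I × Λ))}
  {β : Γ → (Ell2 (J × Λ) →L[ℂ] Ell2 (J × Λ))} {γ : Γ → (Ell2 (K × Λ) →L[ℂ] Ell2 (K × Λ))}

/-- **The lift in both legs.** -/
theorem exists_lift (hβ : AF β) (hγ : AF γ) (fβ : FSum β) (fγ : FSum γ)
    {X : Ell2 (I × ((J × Λ) × (K × Λ))) →L[ℂ] Ell2 (I × ((J × Λ) × (K × Λ)))}
    (h1 : R1T I K (β 1) * X = X) (h1' : X * R1T I K (β 1) = X)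
    (h2 : R2T I J (γ 1) * X = X) (h2' : X * R2T I J (γ 1) = X)
    (hX1 : ∀ g, X * R1T I K (β g) = R1T I K (β g) * X)
    (hX2 : ∀ g, X * R2T I J (γ g) = R2T I J (γ g) * X) :
    ∃ X' : Ell2 (I × ((J × Λ) × (K × Λ))) →L[ℂ] Ell2 (I × ((J × Λ) × (K × Λ))),
      (∀ y ∈ MR J Λ, X' * tens 1 (tens y 1) = tens 1 (tens y 1) * X') ∧
      (∀ z ∈ MR K Λ, X' * tens 1 (tens 1 z) = tens 1 (tens 1 z) * X') ∧
      R1T I K (β 1) * (R2T I J (γ 1) * X') = X ∧
      (∀ a : Ell2 (I × ((J × Λ) × (K × Λ))) →L[ℂ] Ell2 (I × ((J × Λ) × (K × Λ))), X * a = a * X →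
        (∀ y ∈ MR J Λ, tens 1 (tens y 1) * a = a * tens 1 (tens y 1)) →
        (∀ z ∈ MR K Λ, tens 1 (tens 1 z) * a = a * tens 1 (tens 1 z)) → X' * a = a * X') ∧
      (∀ a : Ell2 (I × ((J × Λ) × (K × Λ))) →L[ℂ] Ell2 (I × ((J × Λ) × (K × Λ))), a * X = X →
        (∀ y ∈ MR J Λ, tens 1 (tens y 1) * a = a * tens 1 (tens y 1)) →
        (∀ z ∈ MR K Λ, tens 1 (tens 1 z) * a = a * tens 1 (tens 1 z)) → a * X' = X') ∧
      (∀ a : Ell2 (I × ((J × Λ) × (K × Λ))) →L[ℂ] Ell2 (I × ((J × Λ) × (K × Λ))), X * a = X →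
        (∀ y ∈ MR J Λ, tens 1 (tens y 1) * a = a * tens 1 (tens y 1)) →
        (∀ z ∈ MR K Λ, tens 1 (tens 1 z) * a = a * tens 1 (tens 1 z)) → X' * a = X') := by
  obtain ⟨κ, _, v, hv, hvs⟩ := fβ
  obtain ⟨κ', _, w, hw, hws⟩ := fγ
  obtain ⟨X₁, hX₁a, hX₁b, hX₁c, hX₁d, hX₁e⟩ := (leg1 (A := I) (B := J × Λ) (C := K × Λ)).lift
    (𝒩 := MR J Λ) (fun x hx y hy => MR_mul hx hy) (fun x hx => MR_adj hx) hv hvs h1 h1'
    (fun y hy => (leg1 (A := I) (B := J × Λ) (C := K × Λ)).bicomm (𝒜 := Set.range fun g => JT (β g))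
      (fun T hT => corner_comm hβ (fun g => hT _ ⟨g, rfl⟩) hy) (by
        rintro _ ⟨g, rfl⟩
        exact hX1 g))
  obtain ⟨X₂, hX₂a, hX₂b, hX₂c, hX₂d, hX₂e⟩ := (leg2 (A := I) (B := J × Λ) (C := K × Λ)).lift
    (𝒩 := MR K Λ) (fun x hx y hy => MR_mul hx hy) (fun x hx => MR_adj hx) hw hws
    (hX₁d _ h2 fun y hy => amp12 y (JT (γ 1))) (hX₁e _ h2' fun y hy => amp12 y (JT (γ 1)))
    (fun y hy => (leg2 (A := I) (B := J × Λ) (C := K × Λ)).bicomm (𝒜 := Set.range fun g => JT (γ g))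
      (fun T hT => corner_comm hγ (fun g => hT _ ⟨g, rfl⟩) hy) (by
        rintro _ ⟨g, rfl⟩
        exact hX₁c _ (hX2 g) fun y hy => amp12 y (JT (γ g))))
  refine ⟨X₂, fun y hy => ?_, hX₂a, ?_, fun a ha hy hz => ?_, fun a ha hy hz => ?_,
    fun a ha hy hz => ?_⟩
  · exact hX₂c _ (hX₁a y hy) fun z hz => (amp12 y z).symm
  · rw [← hX₁b, ← hX₂b]; rfl
  · exact hX₂c _ (hX₁c _ ha hy) hz
  · exact hX₂d _ (hX₁d _ ha hy) hz
  · exact hX₂e _ (hX₁e _ ha hy) hz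

end model

end Vale.Agent.P092.H333
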