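import Vale.Agent.P092.H333.ErgT2

/-!
P092 (helper333), ERG-T: the ergodicity on the Hilbert space `HH P` of the amplified model.
-/

set_option linter.all false

open scoped InnerProductSpace
open Filter Topology ContinuousLinearMap
open Vale.Agent.P092.H160 Vale.Agent.P092.H103 Vale.Agent.P092.H962

namespace Vale.Agent.P092.H333

section cut

variable {W : Type} [NormedAddCommGroup W] [InnerProductSpace ℂ W] [CompleteSpace W]
  {P : W →L[ℂ] W}

/-- `P` as an operator with values in its range -/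
noncomputable def pr (hP : P * P = P) : W →L[ℂ] HH P :=
  P.codRestrict (HH P) fun w => congrArg (fun T : W →L[ℂ] W => T w) hP

theorem pr_coe (hP : P * P = P) (w : W) : (pr hP w : W) = P w := rfl

/-- the operator of `W` defined by an operator of the range of `P` -/
noncomputable def up (hP : P * P = P) (x : HH P →L[ℂ] HH P) : W →L[ℂ] W :=
  (HH P).subtypeL ∘L x ∘L pr hP

theorem up_apply (hP : P * P = P) (x : HH P →L[ℂ] HH P) (w : W) : up hP x w = (x (pr hP w) : W) :=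
  rfl

theorem left_up (hP : P * P = P) (x : HH P →L[ℂ] HH P) {a : W →L[ℂ] W} (ha : a * P = P) :
    a * up hP x = up hP x := by
  ext1 w
  change a (x (pr hP w) : W) = (x (pr hP w) : W)
  have h1 : P (x (pr hP w) : W) = (x (pr hP w) : W) := (x (pr hP w)).2
  have h2 := congrArg (fun T : W →L[ℂ] W => T (x (pr hP w) : W)) ha
  change a (P (x (pr hP w) : W)) = P (x (pr hP w) : W) at h2
  rwa [h1] at h2

theorem up_right (hP : P * P = P) (x : HH P →L[ℂ] HH P) {a : W →L[ℂ] W} (ha : P * a = P) :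
    up hP x * a = up hP x := by
  ext1 w
  change (x (pr hP (a w)) : W) = (x (pr hP w) : W)
  have h1 : pr hP (a w) = pr hP w :=
    Subtype.ext (congrArg (fun T : W →L[ℂ] W => T w) ha)
  rw [h1]

theorem up_comm (hP : P * P = P) {x y : HH P →L[ℂ] HH P} {a : W →L[ℂ] W}
    (hy : ∀ w : HH P, (y w : W) = a w) (ha : P * a = a * P) (h : x * y = y * x) :
    up hP x * a = a * up hP x := by
  ext1 w
  change (x (pr hP (a w)) : W) = a (x (pr hP w) : W)
  have h1 : pr hP (a w) = y (pr hP w) := by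
    apply Subtype.ext
    rw [hy]
    exact congrArg (fun T : W →L[ℂ] W => T w) ha
  rw [h1, ← hy]
  exact congrArg (fun z : HH P => (z : W))
    (congrArg (fun T : HH P →L[ℂ] HH P => T (pr hP w)) h)

theorem of_up (hP : P * P = P) {x : HH P →L[ℂ] HH P} {c : ℂ} (h : up hP x = c • P) :
    x = c • (1 : HH P →L[ℂ] HH P) := by
  ext1 w
  apply Subtype.ext
  have h1 := congrArg (fun T : W →L[ℂ] W => T (w : W)) h
  change (x (pr hP w) : W) = c • P w at h1
  have h2 : pr hP (w : W) = w := Subtype.ext w.2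
  have h3 : P (w : W) = w := w.2
  rw [h2, h3] at h1
  exact h1

end cut

section final

variable {I J K Λ Γ : Type} [Group Λ] [Group Γ] [Fintype I] [Fintype J] [Fintype K]
  {α : Γ → (Ell2 (I × Λ) →L[ℂ] Ell2 (I × Λ))}
  {β : Γ → (Ell2 (J × Λ) →L[ℂ] Ell2 (J × Λ))} {γ : Γ → (Ell2 (K × Λ) →L[ℂ] Ell2 (K × Λ))}

/-- **Ergodicity on `HH P`**, `P = VT (α 1) * R1T (β 1) * R2T (γ 1)`. -/
theorem erg_HH (hΛ : ∀ s : Λ, s ≠ 1 → Set.Infinite {y : Λ | ∃ h, y = h * s * h⁻¹})
    (hα : AF α) (hβ : AF β) (hγ : AF γ) {Θ : Set Γ} (hU : ErgU α Θ)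
    {P : Ell2 (I × ((J × Λ) × (K × Λ))) →L[ℂ] Ell2 (I × ((J × Λ) × (K × Λ)))}
    (hPd : P = VT J K (α 1) * R1T I K (β 1) * R2T I J (γ 1))
    {V R₁ R₂ : Γ → (HH P →L[ℂ] HH P)}
    (hV : ∀ g (w : HH P), (V g w : Ell2 (I × ((J × Λ) × (K × Λ)))) = VT J K (α g) w)
    (h₁ : ∀ g (w : HH P), (R₁ g w : Ell2 (I × ((J × Λ) × (K × Λ)))) = R1T I K (β g) w)
    (h₂ : ∀ g (w : HH P), (R₂ g w : Ell2 (I × ((J × Λ) × (K × Λ)))) = R2T I J (γ g) w)
    {x : HH P →L[ℂ] HH P} (hxV : ∀ g ∈ Θ, x * V g = V g * x) (hx1 : ∀ g, x * R₁ g = R₁ g * x)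
    (hx2 : ∀ g, x * R₂ g = R₂ g * x) : ∃ c : ℂ, x = c • (1 : HH P →L[ℂ] HH P) := by
  have c12 : ∀ g h, VT J K (α g) * R1T I K (β h) = R1T I K (β h) * VT J K (α g) := fun g h =>
    comm_VR1 (hα.comm g) (hβ.comm h)
  have c13 : ∀ g h, VT J K (α g) * R2T I J (γ h) = R2T I J (γ h) * VT J K (α g) := fun g h =>
    comm_VR2 (hα.comm g) (hγ.comm h)
  have c23 : ∀ g h, R1T I K (β g) * R2T I J (γ h) = R2T I J (γ h) * R1T I K (β g) := fun g h =>
    comm_R1R2 (β g) (γ h)
  have m1 : ∀ g, VT J K (α 1) * VT J K (α g) = VT J K (α g) := fun g => by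
    rw [← VT_mul, hα.p_mul]
  have m1' : ∀ g, VT J K (α g) * VT J K (α 1) = VT J K (α g) := fun g => by
    rw [← VT_mul, hα.mul_p]
  have m2 : ∀ g, R1T I K (β 1) * R1T I K (β g) = R1T I K (β g) := fun g => by
    rw [← R1T_mul, hβ.p_mul]
  have m2' : ∀ g, R1T I K (β g) * R1T I K (β 1) = R1T I K (β g) := fun g => by
    rw [← R1T_mul, hβ.mul_p]
  have m3 : ∀ g, R2T I J (γ 1) * R2T I J (γ g) = R2T I J (γ g) := fun g => by
    rw [← R2T_mul, hγ.p_mul]
  have m3' : ∀ g, R2T I J (γ g) * R2T I J (γ 1) = R2T I J (γ g) := fun g => by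
    rw [← R2T_mul, hγ.mul_p]
  -- commutations of `P`
  have PV : ∀ g, P * VT J K (α g) = VT J K (α g) * P := by
    intro g
    calc P * VT J K (α g)
        = VT J K (α 1) * (R1T I K (β 1) * (R2T I J (γ 1) * VT J K (α g))) := by
          rw [hPd]; simp only [mul_assoc]
      _ = VT J K (α 1) * ((R1T I K (β 1) * VT J K (α g)) * R2T I J (γ 1)) := by
          rw [← c13, mul_assoc]
      _ = (VT J K (α 1) * VT J K (α g)) * (R1T I K (β 1) * R2T I J (γ 1)) := by
          rw [← c12]; simp only [mul_assoc]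
      _ = (VT J K (α g) * VT J K (α 1)) * (R1T I K (β 1) * R2T I J (γ 1)) := by rw [m1, m1']
      _ = _ := by rw [hPd]; simp only [mul_assoc]
  have PR1 : ∀ g, P * R1T I K (β g) = R1T I K (β g) * P := by
    intro g
    calc P * R1T I K (β g)
        = VT J K (α 1) * (R1T I K (β 1) * (R2T I J (γ 1) * R1T I K (β g))) := by
          rw [hPd]; simp only [mul_assoc]
      _ = VT J K (α 1) * ((R1T I K (β 1) * R1T I K (β g)) * R2T I J (γ 1)) := by
          rw [← c23, mul_assoc]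
      _ = (VT J K (α 1) * (R1T I K (β g) * R1T I K (β 1))) * R2T I J (γ 1) := by
          rw [m2, m2', mul_assoc]
      _ = (VT J K (α 1) * R1T I K (β g)) * (R1T I K (β 1) * R2T I J (γ 1)) := by
          simp only [mul_assoc]
      _ = _ := by rw [c12, hPd]; simp only [mul_assoc]
  have PR2 : ∀ g, P * R2T I J (γ g) = R2T I J (γ g) * P := by
    intro g
    calc P * R2T I J (γ g)
        = VT J K (α 1) * (R1T I K (β 1) * (R2T I J (γ 1) * R2T I J (γ g))) := by
          rw [hPd]; simp only [mul_assoc]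
      _ = VT J K (α 1) * ((R1T I K (β 1) * R2T I J (γ g)) * R2T I J (γ 1)) := by
          rw [m3, mul_assoc, m3']
      _ = (VT J K (α 1) * R2T I J (γ g)) * (R1T I K (β 1) * R2T I J (γ 1)) := by
          rw [c23]; simp only [mul_assoc]
      _ = _ := by rw [c13, hPd]; simp only [mul_assoc]
  have LV : VT J K (α 1) * P = P := by
    rw [hPd, ← mul_assoc, ← mul_assoc, m1]
  have L1 : R1T I K (β 1) * P = P := by
    rw [hPd, ← mul_assoc, ← mul_assoc, ← c12, mul_assoc (VT J K (α 1)), m2]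
  have L2 : R2T I J (γ 1) * P = P := by
    rw [← PR2, hPd, mul_assoc, m3]
  have hP : P * P = P := by
    nth_rewrite 1 [hPd]
    rw [mul_assoc, L2, mul_assoc, L1, LV]
  have X1 := up_comm (x := x) hP (h₁ 1) (PR1 1) (hx1 1)
  obtain ⟨c, hc⟩ := erg_t hΛ hα hβ hγ hU (X := up hP x) (left_up hP x LV)
    (up_right hP x ((PV 1).trans LV)) (left_up hP x L1) (up_right hP x ((PR1 1).trans L1))
    (left_up hP x L2) (up_right hP x ((PR2 1).trans L2))
    (fun g => up_comm hP (h₁ g) (PR1 g) (hx1 g)) (fun g => up_comm hP (h₂ g) (PR2 g) (hx2 g))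
    (fun g hg => up_comm hP (hV g) (PV g) (hxV g hg))
  rw [← hPd] at hc
  exact ⟨c, of_up hP hc⟩

end final

end Vale.Agent.P092.H333
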