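import Vale.Agent.P092.H333.AllQT
import Vale.Agent.P092.H58.FinR
import Vale.Agent.P092.Q.Ex

/-!
P092 (helper333), project Q for all amplifications: the final statement with the named groups.
-/

set_option linter.all false

namespace Vale.Agent.P092.H333.Amp

open Vale.Agent.P092.H515.St Vale.Agent.P092.SR.St Vale.Agent.P092.Q.St

/-- The class of the p-adic statement is contained in the class of all local fields. -/
theorem productLattice_of_padic (Γ : Type) [Group Γ] (h : PadicLattice Γ) : ProductLattice Γ := by
  obtain ⟨hicc, r, k, hk, n, i, hr, hp, hu, hn, hi⟩ := h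
  exact ⟨hicc, Fin r, inferInstance, k, hk, n, i, hp, fun j => LocK.ultra (hu j), hn, hi.inj,
    hi.lat, hi.dense⟩

/-- **The final statement**: all local fields, all amplifications, all countable ICC groups. -/
theorem finalQT :
    (∀ (Γ : Type) [Group Γ], ProductLattice Γ → SuperAll Γ) ∧
    (∀ n N : ℕ, Odd n → 3 ≤ n → 2 ≤ N →
      SuperAll (Matrix.SpecialLinearGroup (Fin n) (Localization.Away (N : ℤ)))) ∧
    ∀ (F : Type) [Field F] [Finite F] (n : ℕ), 2 ≤ n → Nat.Coprime n (Nat.card F - 1) →
      SuperAll (Matrix.SpecialLinearGroup (Fin n) (LaurentPolynomial F)) :=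
  ⟨fun Γ _ h => superAll_qt Γ h,
    fun n N hn h3 hN => superAll_qt _ (Q.productLattice_SL n N hn h3 hN),
    fun F _ _ n hn hc => superAll_qt _ (productLattice_of_padic _
      (H58.padicLattice_of_product _ (H678.padic_SL n F hn hc)))⟩

end Vale.Agent.P092.H333.Amp
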