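import Vale.Agent.P092.H333.Corner
import Vale.Agent.P092.H962.MTD

/-!
P092 (helper333), ERG-T: the antiunitary `jt`, the legs of the amplified model, slices.
-/

set_option linter.all false

open scoped InnerProductSpace
open Filter Topology ContinuousLinearMap
open Vale.Agent.P092.H160 Vale.Agent.P092.H103 Vale.Agent.P092.H962

namespace Vale.Agent.P092.H333

section jt

variable {I Λ : Type} [Group Λ]

/-- `(jt v)(i, s) = conj v(i, s⁻¹)` -/
noncomputable def jt (v : Ell2 (I × Λ)) : Ell2 (I × Λ) := rei (ivE I Λ) (H160.cj v)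

theorem jt_apply (v : Ell2 (I × Λ)) (p : I × Λ) : jt v p = (starRingEnd ℂ) (v (p.1, p.2⁻¹)) := rfl

theorem jt_jt (v : Ell2 (I × Λ)) : jt (jt v) = v := by
  apply ext_inner_dl
  intro x
  rw [jt_apply, jt_apply, Complex.conj_conj, inv_inv]

theorem inner_jt (u v : Ell2 (I × Λ)) : ⟪jt u, jt v⟫_ℂ = ⟪v, u⟫_ℂ := by
  rw [jt, jt, inner_rei, H160.inner_cj]

theorem rei_ivE_cj (v : Ell2 (I × Λ)) : rei (ivE I Λ) (H160.cj v) = H160.cj (rei (ivE I Λ) v) := by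
  apply ext_inner_dl
  intro x
  rfl

theorem JT_apply (x : Ell2 (I × Λ) →L[ℂ] Ell2 (I × Λ)) (v : Ell2 (I × Λ)) :
    JT x v = jt (x (jt v)) := by
  change rei (ivE I Λ) (H160.cj (x (H160.cj (rei (ivE I Λ) v)))) = _
  rw [← rei_ivE_cj v]
  rfl

theorem jt_dl (i : I) (s : Λ) : jt (dl (i, s)) = dl (i, s⁻¹) := by
  rw [jt, cj_dl, rei_dl]; rfl

theorem JT_one : JT (1 : Ell2 (I × Λ) →L[ℂ] Ell2 (I × Λ)) = 1 := by
  ext1 v
  rw [JT_apply]
  exact jt_jt v

theorem JT_mul (x y : Ell2 (I × Λ) →L[ℂ] Ell2 (I × Λ)) : JT (x * y) = JT x * JT y := by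
  ext1 v
  change JT (x * y) v = JT x (JT y v)
  rw [JT_apply, JT_apply, JT_apply, jt_jt]
  rfl

theorem JT_JT (x : Ell2 (I × Λ) →L[ℂ] Ell2 (I × Λ)) : JT (JT x) = x := by
  ext1 v
  rw [JT_apply, JT_apply, jt_jt, jt_jt]

theorem JT_adjoint (x : Ell2 (I × Λ) →L[ℂ] Ell2 (I × Λ)) : adjoint (JT x) = JT (adjoint x) := by
  rw [eq_comm, ContinuousLinearMap.eq_adjoint_iff]
  intro u v
  have h1 := inner_jt (jt (adjoint x (jt u))) v
  have h2 := inner_jt (jt (x (jt v))) u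
  rw [jt_jt] at h1 h2
  rw [JT_apply, JT_apply, ← h2, ← inner_conj_symm, ← h1, inner_conj_symm, adjoint_inner_right]

theorem JT_lam (s : Λ) : JT (tens (1 : Ell2 I →L[ℂ] Ell2 I) (lam s)) = tens 1 (rho s) := by
  apply op_ext
  rintro ⟨i, t⟩
  rw [JT_apply, jt_dl, tens_dl, lam_dl, ContinuousLinearMap.one_apply, ← dl_prod, jt_dl, tens_dl,
    rho_dl, ContinuousLinearMap.one_apply, ← dl_prod]
  congr 2
  group

theorem JT_rho (s : Λ) : JT (tens (1 : Ell2 I →L[ℂ] Ell2 I) (rho s)) = tens 1 (lam s) := by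
  rw [← JT_lam, JT_JT]

theorem mat_R (s : Λ) : (FS.mat I Λ).R s = tens 1 (rho s) := by
  apply op_ext
  rintro ⟨i, t⟩
  rw [tens_dl, rho_dl, ContinuousLinearMap.one_apply, ← dl_prod]
  rw [FS.R_dl]
  rfl

/-- The operators commuting with the left translations: `M_I(R(Λ))`. -/
def MR (I Λ : Type) [Group Λ] : Set (Ell2 (I × Λ) →L[ℂ] Ell2 (I × Λ)) :=
  {y | ∀ s : Λ, y * tens 1 (lam s) = tens 1 (lam s) * y}

theorem MR_mul {x y : Ell2 (I × Λ) →L[ℂ] Ell2 (I × Λ)} (hx : x ∈ MR I Λ) (hy : y ∈ MR I Λ) :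
    x * y ∈ MR I Λ := fun s => by rw [mul_assoc, hy, ← mul_assoc, hx, mul_assoc]

theorem MR_adj {x : Ell2 (I × Λ) →L[ℂ] Ell2 (I × Λ)} (hx : x ∈ MR I Λ) : adjoint x ∈ MR I Λ := by
  intro s
  have h1 := congrArg adjoint (hx s⁻¹)
  have h2 : adjoint (tens (1 : Ell2 I →L[ℂ] Ell2 I) (lam s⁻¹ : Ell2 Λ →L[ℂ] Ell2 Λ)) =
      tens 1 (lam s) := by
    rw [adjoint_tens]
    congr 1
    · rw [← star_eq_adjoint, star_one]
    · have h3 := (regRep_lam (G := Λ)).adj s⁻¹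
      rw [inv_inv] at h3
      exact h3
  rw [← star_eq_adjoint, ← star_eq_adjoint, star_mul, star_mul, star_eq_adjoint, star_eq_adjoint,
    h2] at h1
  exact h1.symm

theorem eqv_of_MR {y : Ell2 (I × Λ) →L[ℂ] Ell2 (I × Λ)} (hy : y ∈ MR I Λ) :
    Eqv (FS.mat I Λ).R (FS.mat I Λ).R (JT y) := by
  intro s v
  rw [mat_R, ← JT_lam]
  have h1 := congrArg JT (hy s)
  rw [JT_mul, JT_mul] at h1
  exact congrArg (fun T : Ell2 (I × Λ) →L[ℂ] Ell2 (I × Λ) => T v) h1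

theorem MR_of_eqv {y : Ell2 (I × Λ) →L[ℂ] Ell2 (I × Λ)}
    (hy : Eqv (FS.mat I Λ).R (FS.mat I Λ).R y) : JT y ∈ MR I Λ := by
  intro s
  rw [← JT_rho, ← JT_mul, ← JT_mul]
  congr 1
  ext1 v
  have h1 := hy s v
  rw [mat_R] at h1
  exact h1

variable {Γ : Type} [Group Γ] [Fintype I] {β : Γ → (Ell2 (I × Λ) →L[ℂ] Ell2 (I × Λ))}

/-- Operators commuting with `JT (β g)` commute with the corner of `M_I(R(Λ))`. -/
theorem corner_comm (hβ : AF β) {T : Ell2 (I × Λ) →L[ℂ] Ell2 (I × Λ)}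
    (hT : ∀ g, T * JT (β g) = JT (β g) * T) {y : Ell2 (I × Λ) →L[ℂ] Ell2 (I × Λ)}
    (hy : y ∈ MR I Λ) : T * (JT (β 1) * y * JT (β 1)) = (JT (β 1) * y * JT (β 1)) * T := by
  have h1 : ∀ g, JT T * β g = β g * JT T := by
    intro g
    have := congrArg JT (hT g)
    rw [JT_mul, JT_mul, JT_JT] at this
    exact this
  have h2 : JT (JT (β 1) * y * JT (β 1)) = β 1 * JT y * β 1 := by
    rw [JT_mul, JT_mul, JT_JT]
  have h3 : Eqv (FS.mat I Λ).R (FS.mat I Λ).R (β 1 * JT y * β 1) :=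
    ((hβ.comm 1).mul (eqv_of_MR hy)).mul (hβ.comm 1)
  have h4 := hβ.bicomm h1 h3 (by rw [← mul_assoc, ← mul_assoc, hβ.pp])
    (by rw [mul_assoc, hβ.pp])
  rw [← h2, ← JT_mul, ← JT_mul] at h4
  have h5 := congrArg JT h4
  rw [JT_JT, JT_JT] at h5
  exact h5

end jt

section leg

variable {H W B : Type} [NormedAddCommGroup H] [InnerProductSpace ℂ H] [CompleteSpace H]
  [NormedAddCommGroup W] [InnerProductSpace ℂ W] [CompleteSpace W]

/-- A leg of the space `W`: `amp y` is the operator `y` acting in the leg. -/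
structure LegD (E : B → (H →L[ℂ] W)) (amp : (H →L[ℂ] H) →ₗ[ℂ] (W →L[ℂ] W)) : Prop where
  ampE : ∀ y b, amp y ∘L E b = E b ∘L y
  adj : ∀ y, adjoint (amp y) = amp (adjoint y)
  mul : ∀ y z, amp (y * z) = amp y * amp z
  one : amp 1 = 1
  total : ∀ w, (∀ b, adjoint (E b) w = 0) → w = 0

variable {E : B → (H →L[ℂ] W)} {amp : (H →L[ℂ] H) →ₗ[ℂ] (W →L[ℂ] W)}

theorem LegD.ext (h : LegD E amp) {F : Type} [NormedAddCommGroup F] [InnerProductSpace ℂ F]
    [CompleteSpace F] {S T : W →L[ℂ] F} (h1 : ∀ b, S ∘L E b = T ∘L E b) : S = T := by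
  have h2 : adjoint (S - T) = 0 := by
    ext1 v
    refine h.total _ fun b => ?_
    have h3 : adjoint (E b) ∘L adjoint (S - T) = 0 := by
      rw [← adjoint_comp, sub_comp, h1, sub_self, map_zero]
    exact congrArg (fun L : F →L[ℂ] H => L v) h3
  have h3 : S - T = 0 := by
    rw [← adjoint_adjoint (S - T), h2, map_zero]
  exact sub_eq_zero.mp h3

theorem LegD.adjE (h : LegD E amp) (y : H →L[ℂ] H) (b : B) :
    adjoint (E b) ∘L amp y = y ∘L adjoint (E b) := by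
  have h1 := congrArg adjoint (h.ampE (adjoint y) b)
  rw [adjoint_comp, adjoint_comp, h.adj, adjoint_adjoint] at h1
  exact h1

/-- slices -/
theorem LegD.slice_comm (h : LegD E amp) {X : W →L[ℂ] W} {y : H →L[ℂ] H}
    (hX : X * amp y = amp y * X) (b b' : B) :
    (adjoint (E b') ∘L X ∘L E b) * y = y * (adjoint (E b') ∘L X ∘L E b) := by
  have h1 : X ∘L amp y = amp y ∘L X := hX
  calc (adjoint (E b') ∘L X ∘L E b) * y = adjoint (E b') ∘L (X ∘L (E b ∘L y)) := rfl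
    _ = adjoint (E b') ∘L ((X ∘L amp y) ∘L E b) := by rw [← h.ampE]; rfl
    _ = (adjoint (E b') ∘L amp y) ∘L (X ∘L E b) := by rw [h1]; rfl
    _ = _ := by rw [h.adjE]; rfl

theorem LegD.comm_of_slice (h : LegD E amp) {X : W →L[ℂ] W} {y : H →L[ℂ] H}
    (hX : ∀ b b', (adjoint (E b') ∘L X ∘L E b) * y = y * (adjoint (E b') ∘L X ∘L E b)) :
    X * amp y = amp y * X := by
  refine h.ext fun b => ?_
  have key : ∀ b', adjoint (E b') ∘L ((X * amp y) ∘L E b) =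
      adjoint (E b') ∘L ((amp y * X) ∘L E b) := by
    intro b'
    calc adjoint (E b') ∘L ((X * amp y) ∘L E b) = adjoint (E b') ∘L (X ∘L (amp y ∘L E b)) := rfl
      _ = (adjoint (E b') ∘L X ∘L E b) * y := by rw [h.ampE]; rfl
      _ = y * (adjoint (E b') ∘L X ∘L E b) := hX b b'
      _ = (y ∘L adjoint (E b')) ∘L (X ∘L E b) := rfl
      _ = (adjoint (E b') ∘L amp y) ∘L (X ∘L E b) := by rw [h.adjE]
      _ = _ := rfl
  ext1 v
  rw [← sub_eq_zero]
  refine h.total _ fun b' => ?_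
  rw [map_sub, sub_eq_zero]
  exact congrArg (fun L : H →L[ℂ] H => L v) (key b')

/-- If every operator of the leg commuting with `𝒜` commutes with `y`, then every `X` commuting
with `amp 𝒜` commutes with `amp y`. -/
theorem LegD.bicomm (h : LegD E amp) {𝒜 : Set (H →L[ℂ] H)} {y : H →L[ℂ] H}
    (hy : ∀ T : H →L[ℂ] H, (∀ a ∈ 𝒜, T * a = a * T) → T * y = y * T) {X : W →L[ℂ] W}
    (hX : ∀ a ∈ 𝒜, X * amp a = amp a * X) : X * amp y = amp y * X :=
  h.comm_of_slice fun b b' => hy _ fun a ha => h.slice_comm (hX a ha) b b'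

/-- **Lift along a leg.** -/
theorem LegD.lift (h : LegD E amp) {κ : Type} [Fintype κ] {𝒩 : Set (H →L[ℂ] H)}
    (hmul : ∀ x ∈ 𝒩, ∀ y ∈ 𝒩, x * y ∈ 𝒩) (hadj : ∀ x ∈ 𝒩, adjoint x ∈ 𝒩)
    {q : H →L[ℂ] H} {v : κ → (H →L[ℂ] H)} (hv : ∀ k, v k ∈ 𝒩)
    (h1 : ∑ k, v k * q * adjoint (v k) = 1)
    {X : W →L[ℂ] W} (hqX : amp q * X = X) (hXq : X * amp q = X)
    (hX : ∀ y ∈ 𝒩, X * amp (q * y * q) = amp (q * y * q) * X) :
    ∃ X' : W →L[ℂ] W, (∀ y ∈ 𝒩, X' * amp y = amp y * X') ∧ amp q * X' = X ∧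
      (∀ a : W →L[ℂ] W, X * a = a * X → (∀ y ∈ 𝒩, amp y * a = a * amp y) → X' * a = a * X') ∧
      (∀ a : W →L[ℂ] W, a * X = X → (∀ y ∈ 𝒩, amp y * a = a * amp y) → a * X' = X') ∧
      (∀ a : W →L[ℂ] W, X * a = X → (∀ y ∈ 𝒩, amp y * a = a * amp y) → X' * a = X') := by
  refine ⟨∑ k, amp (v k) * X * amp (adjoint (v k)), ?_⟩
  have e1 : ∑ k, amp (v k) * amp q * amp (adjoint (v k)) = 1 := by
    rw [← h.one, ← h1, map_sum]
    exact Finset.sum_congr rfl fun k _ => by rw [h.mul, h.mul]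
  obtain ⟨h2, h3⟩ := lift_op (amp '' 𝒩) (amp q) (fun k => amp (v k))
    (fun k => amp (adjoint (v k))) e1 (by
      rintro _ ⟨m, hm, rfl⟩ k l
      exact ⟨adjoint (v l) * m * v k, hmul _ (hmul _ (hadj _ (hv l)) _ hm) _ (hv k), by
        rw [h.mul, h.mul]⟩) (fun k => ⟨_, hv k, rfl⟩) X hqX hXq (by
      rintro _ ⟨m, hm, rfl⟩
      have := hX m hm
      rw [h.mul, h.mul] at this
      exact this)
  refine ⟨fun y hy => h2 _ ⟨y, hy, rfl⟩, h3, fun a ha hc => ?_, fun a ha hc => ?_,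
    fun a ha hc => ?_⟩
  · exact lift_comm ha (fun k => hc _ (hv k)) fun k => hc _ (hadj _ (hv k))
  · rw [Finset.mul_sum]
    refine Finset.sum_congr rfl fun k _ => ?_
    calc a * (amp (v k) * X * amp (adjoint (v k)))
        = (a * amp (v k)) * X * amp (adjoint (v k)) := by simp only [mul_assoc]
      _ = amp (v k) * (a * X) * amp (adjoint (v k)) := by rw [← hc _ (hv k)]; simp only [mul_assoc]
      _ = _ := by rw [ha]
  · rw [Finset.sum_mul]
    refine Finset.sum_congr rfl fun k _ => ?_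
    calc amp (v k) * X * amp (adjoint (v k)) * a
        = amp (v k) * X * (amp (adjoint (v k)) * a) := by simp only [mul_assoc]
      _ = amp (v k) * (X * a) * amp (adjoint (v k)) := by
          rw [hc _ (hadj _ (hv k))]; simp only [mul_assoc]
      _ = _ := by rw [ha]

end leg

end Vale.Agent.P092.H333
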