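import Vale.Agent.P092.H333.TopQ

/-!
P092 (helper333), project Q for all amplifications: nonzero smooth fields on `ℋ` and on
`ℋ ⊗ ℂ^Q`, transport by the flips.
-/

set_option linter.all false

open scoped InnerProductSpace Topology ENNReal
open Filter ContinuousLinearMap MeasureTheory

namespace Vale.Agent.P092.H333.Amp

open Vale.Agent.P092.H160 (Cmm)
open Vale.Agent.P092.SR (Tri ErgAt)
open Vale.Agent.P092.QT (TRep)
open Vale.Agent.P092.QT.H156.Sm (Frm Fd ACont Smo)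
open Vale.Agent.P092.QT.H715.Q (Dbl F1)
open Vale.Agent.P092.H962 (AU)

section defs

variable {Γ G H ℋ : Type} [Group Γ] [Group G] [TopologicalSpace G] [MeasurableSpace G] [Group H]
  [TopologicalSpace H] [NormedAddCommGroup ℋ] [InnerProductSpace ℂ ℋ] [CompleteSpace ℋ]

/-- Smooth square integrable fields for the leg `A`, commuting with `B`. -/
structure NeF (p : Γ →* G) (κ : Γ →* H) (V A B : Γ →* (ℋ →L[ℂ] ℋ)) (μ : Measure G)
    (b : G → ℋ →L[ℂ] ℋ) : Prop where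
  eqA : ∀ a y, b (p a * y) = A a * b y * A a⁻¹
  eqB : ∀ c y, b y = B c * b y * B c⁻¹
  bdd : ∃ C, ∀ x, ‖b x‖ ≤ C
  rcont : ∀ ε > 0, ∃ U ∈ 𝓝 (1 : G), ∀ y ∈ U, ∀ x, ‖b (x * y) - b x‖ ≤ ε
  acont : ACont κ V b
  l2 : ∀ ζ : ℋ, MemLp (fun x => b x ζ) 2 μ

/-- One nonzero smooth field. -/
def NeC (p : Γ →* G) (κ : Γ →* H) (V A B : Γ →* (ℋ →L[ℂ] ℋ)) (μ : Measure G) : Prop :=
  ∃ b, NeF p κ V A B μ b ∧ b ≠ 0

end defs

section amp

variable {Γ G H ℋ Q : Type} [Group Γ] [Group G] [TopologicalSpace G] [MeasurableSpace G] [Group H]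
  [TopologicalSpace H] [NormedAddCommGroup ℋ] [InnerProductSpace ℂ ℋ] [CompleteSpace ℋ]
  [Group Q] [Fintype Q] {p : Γ →* G} {κ : Γ →* H} {V A B : Γ →* (ℋ →L[ℂ] ℋ)} {μ : Measure G}
  {b : G → ℋ →L[ℂ] ℋ}

theorem memLp_em {f : G → ℋ} (hf : MemLp f 2 μ) (j : Q) : MemLp (fun x => em j (f x)) 2 μ := by
  have h1 := (em (K := ℋ) j).comp_memLp' hf
  exact h1

theorem memLp_amp (h : ∀ ζ : ℋ, MemLp (fun x => b x ζ) 2 μ) (v : KT Q ℋ) :
    MemLp (fun x => amp (b x) v) 2 μ := by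
  have e : (fun x => amp (b x) v) = fun x => ∑ j, em j (b x (v j)) := by
    funext x
    rw [← sum_em (amp (b x) v)]
    rfl
  rw [e]
  exact memLp_finset_sum _ fun j _ => memLp_em (h (v j)) j

theorem amp_conj (S T R : ℋ →L[ℂ] ℋ) : amp (Q := Q) (S * T * R) = amp S * amp T * amp R := by
  rw [amp_mul, amp_mul]

/-- The field `b ⊗ 1` for the first leg. -/
theorem smo_false (hb : NeF p κ V A B μ b) (h : ∀ g k, A g * B k = B k * A g) (w : KT Q ℋ) :
    Smo (p.comp (lf Γ Q false)) κ (rt Q (pr A B h)) (av Q V) w μ (fun x => amp (b x)) where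
  equiv := by
    rintro ⟨⟨a, c⟩, f⟩ x
    change amp (b (p a * x)) = (amp (A a * B c) * sg f) * amp (b x) * (rt Q (pr A B h) ((a, c), f)⁻¹)
    have e0 : rt Q (pr A B h) ((a, c), f)⁻¹ = amp (A a⁻¹ * B c⁻¹) * sg f⁻¹ := rfl
    have e1 : b (p a * x) = (A a * B c) * b x * (A a⁻¹ * B c⁻¹) := by
      have e2 : A a⁻¹ * B c⁻¹ = B c⁻¹ * A a⁻¹ := h _ _
      rw [hb.eqA]
      calc A a * b x * A a⁻¹ = A a * (B c * b x * B c⁻¹) * A a⁻¹ := by rw [← hb.eqB c x]
        _ = (A a * B c) * b x * (B c⁻¹ * A a⁻¹) := by simp only [mul_assoc]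
        _ = _ := by rw [e2]
    rw [e0, e1, amp_conj]
    calc amp (A a * B c) * amp (b x) * amp (A a⁻¹ * B c⁻¹)
        = amp (A a * B c) * (amp (b x) * amp (A a⁻¹ * B c⁻¹)) * (sg f * sg f⁻¹) := by
          rw [← sg_mul, mul_inv_cancel, sg_one, mul_one, mul_assoc]
      _ = amp (A a * B c) * ((amp (b x) * amp (A a⁻¹ * B c⁻¹)) * sg f) * sg f⁻¹ := by
          simp only [mul_assoc]
      _ = amp (A a * B c) * (sg f * (amp (b x) * amp (A a⁻¹ * B c⁻¹))) * sg f⁻¹ := by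
          rw [← amp_mul, amp_sg]
      _ = _ := by simp only [mul_assoc]
  bdd := by
    obtain ⟨C, hC⟩ := hb.bdd
    exact ⟨C, fun x => by rw [norm_amp]; exact hC x⟩
  rcont ε hε := by
    obtain ⟨U, hU, h1⟩ := hb.rcont ε hε
    refine ⟨U, hU, fun y hy x => ?_⟩
    change ‖amp (b (x * y)) - amp (b x)‖ ≤ ε
    rw [← amp_sub, norm_amp]
    exact h1 y hy x
  acont ε hε := by
    obtain ⟨U, hU, h1⟩ := hb.acont ε hε
    refine ⟨U, hU, fun v hv x => ?_⟩
    change ‖amp (V v) * amp (b x) * amp (V v⁻¹) - amp (b x)‖ ≤ ε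
    rw [← amp_conj, ← amp_sub, norm_amp]
    exact h1 v hv x
  l2 := memLp_amp hb.l2 w

/-- The field `b ⊗ 1` for the second leg. -/
theorem smo_true (hb : NeF p κ V B A μ b) (h : ∀ g k, A g * B k = B k * A g) (w : KT Q ℋ) :
    Smo (p.comp (lf Γ Q true)) κ (rt Q (pr A B h)) (av Q V) w μ (fun x => amp (b x)) where
  equiv := by
    rintro ⟨⟨a, c⟩, f⟩ x
    have h1 := (smo_false (Q := Q) hb (fun g k => (h k g).symm) w).equiv ((c, a), f) x
    change amp (b (p c * x)) = (amp (B c * A a) * sg f) * amp (b x) *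
      (amp (B c⁻¹ * A a⁻¹) * sg f⁻¹) at h1
    change amp (b (p c * x)) = (amp (A a * B c) * sg f) * amp (b x) *
      (amp (A a⁻¹ * B c⁻¹) * sg f⁻¹)
    rw [h1, h, h]
  bdd := (smo_false (Q := Q) hb (fun g k => (h k g).symm) w).bdd
  rcont := (smo_false (Q := Q) hb (fun g k => (h k g).symm) w).rcont
  acont := (smo_false (Q := Q) hb (fun g k => (h k g).symm) w).acont
  l2 := (smo_false (Q := Q) hb (fun g k => (h k g).symm) w).l2

theorem amp_ne (hb : b ≠ 0) : (fun x => amp (Q := Q) (b x)) ≠ 0 := by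
  intro h
  apply hb
  funext x
  apply amp_inj (Q := Q)
  rw [Pi.zero_apply, amp_zero]
  exact congrFun h x

/-- A nonzero smooth field on `ℋ ⊗ ℂ^Q` is `b ⊗ 1`. -/
theorem neC_of_smo {h : ∀ g k, A g * B k = B k * A g} {w : KT Q ℋ}
    (h1 : F1 (p.comp (lf Γ Q false)) κ (rt Q (pr A B h)) (av Q V) w μ)
    (hne : ∃ a, Smo (p.comp (lf Γ Q false)) κ (rt Q (pr A B h)) (av Q V) w μ a ∧ a ≠ 0) :
    NeC p κ V A B μ := by
  obtain ⟨a, ha, ha0⟩ := hne
  -- the field commutes with the monomial group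
  have hc : ∀ x, ∃ T : ℋ →L[ℂ] ℋ, a x = amp T := by
    intro x
    refine comm_sg fun f => ?_
    have h2 := ha.equiv ((1, 1), f) x
    have e1 : (p.comp (lf Γ Q false)) ((1, 1), f) = 1 := map_one p
    rw [e1, one_mul] at h2
    have e2 : rt Q (pr A B h) ((1, 1), f) = sg f := by
      rw [rt_apply, pr_apply, map_one, map_one, one_mul, amp_one, one_mul]
    have e3 : rt Q (pr A B h) ((1, 1), f)⁻¹ = sg f⁻¹ := by
      have : (((1, 1), f) : XG Γ Q)⁻¹ = ((1, 1), f⁻¹) := by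
        simp
      rw [this, rt_apply, pr_apply, map_one, map_one, one_mul, amp_one, one_mul]
    rw [e2, e3] at h2
    calc a x * sg f = (sg f * a x * sg f⁻¹) * sg f := by rw [← h2]
      _ = sg f * a x * (sg f⁻¹ * sg f) := by rw [mul_assoc]
      _ = sg f * a x := by rw [← sg_mul, inv_mul_cancel, sg_one, mul_one]
  choose b hb using hc
  have ha' : a = fun x => amp (b x) := funext hb
  subst ha'
  refine ⟨b, ⟨fun g y => ?_, fun c y => ?_, ?_, fun ε hε => ?_, fun ε hε => ?_, fun ζ => ?_⟩, ?_⟩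
  · have h2 := ha.equiv ((g, 1), 1) y
    apply amp_inj (Q := Q)
    rw [amp_conj]
    have e2 : rt Q (pr A B h) ((g, 1), 1) = amp (A g) := by
      rw [rt_apply, pr_apply, map_one, mul_one, sg_one, mul_one]
    have e3 : rt Q (pr A B h) ((g, 1), 1)⁻¹ = amp (A g⁻¹) := by
      have : (((g, 1), 1) : XG Γ Q)⁻¹ = ((g⁻¹, 1), 1) := by simp
      rw [this, rt_apply, pr_apply, map_one, mul_one, sg_one, mul_one]
    rw [e2, e3] at h2
    exact h2
  · have h2 := ha.equiv ((1, c), 1) y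
    apply amp_inj (Q := Q)
    rw [amp_conj]
    have e1 : (p.comp (lf Γ Q false)) ((1, c), 1) = 1 := map_one p
    have e2 : rt Q (pr A B h) ((1, c), 1) = amp (B c) := by
      rw [rt_apply, pr_apply, map_one, one_mul, sg_one, mul_one]
    have e3 : rt Q (pr A B h) ((1, c), 1)⁻¹ = amp (B c⁻¹) := by
      have : (((1, c), 1) : XG Γ Q)⁻¹ = ((1, c⁻¹), 1) := by simp
      rw [this, rt_apply, pr_apply, map_one, one_mul, sg_one, mul_one]
    rw [e1, one_mul, e2, e3] at h2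
    exact h2
  · obtain ⟨C, hC⟩ := ha.bdd
    exact ⟨C, fun x => by rw [← norm_amp (Q := Q)]; exact hC x⟩
  · obtain ⟨U, hU, h2⟩ := ha.rcont ε hε
    refine ⟨U, hU, fun y hy x => ?_⟩
    rw [← norm_amp (Q := Q), amp_sub]
    exact h2 y hy x
  · obtain ⟨U, hU, h2⟩ := ha.acont ε hε
    refine ⟨U, hU, fun v hv x => ?_⟩
    rw [← norm_amp (Q := Q), amp_sub, amp_conj]
    exact h2 v hv x
  · have h2 := (h1 _ _ ha ha (em 1 ζ) (em 1 ζ)).1
    have h3 := (co (K := ℋ) (1 : Q)).comp_memLp' h2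
    have e : (fun x => b x ζ) = (co (K := ℋ) (1 : Q)) ∘ fun x => amp (b x) (em 1 ζ) := by
      funext x
      change b x ζ = (amp (b x) (em 1 ζ)) 1
      rw [amp_apply, em_same]
    rw [e]
    exact h3
  · rintro rfl
    apply ha0
    funext x
    exact amp_zero

end amp

section au

variable {Γ G H ℋ ℋ' : Type} [Group Γ] [Group G] [TopologicalSpace G] [MeasurableSpace G]
  [Group H] [TopologicalSpace H] [NormedAddCommGroup ℋ] [InnerProductSpace ℂ ℋ] [CompleteSpace ℋ]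
  [NormedAddCommGroup ℋ'] [InnerProductSpace ℂ ℋ'] [CompleteSpace ℋ'] {σ : ℂ → ℂ} {U : ℋ → ℋ'}
  {U' : ℋ' → ℋ} (h : AU σ U U') {p : Γ →* G} {κ : Γ →* H} {μ : Measure G}
  {S T R : Γ →* (ℋ →L[ℂ] ℋ)} {S' T' R' : Γ →* (ℋ' →L[ℂ] ℋ')}

include h in
theorem au_sub (a b : ℋ) : U (a - b) = U a - U b := by
  have h7 := h.add (a - b) b
  rw [sub_add_cancel] at h7
  rw [h7, add_sub_cancel_right]

theorem norm_cj_le (x : ℋ →L[ℂ] ℋ) : ‖h.cj x‖ ≤ ‖x‖ := by
  refine ContinuousLinearMap.opNorm_le_bound _ (norm_nonneg _) fun v => ?_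
  rw [h.cj_apply, h.norm]
  refine (x.le_opNorm _).trans ?_
  rw [h.norm']

theorem cj_sub (x y : ℋ →L[ℂ] ℋ) : h.cj (x - y) = h.cj x - h.cj y := by
  ext1 v
  change U (x (U' v) - y (U' v)) = U (x (U' v)) - U (y (U' v))
  exact au_sub h _ _

theorem cj_conj (hS : ∀ g v, U (S g v) = S' g (U v)) (g k : Γ) (x : ℋ →L[ℂ] ℋ) :
    h.cj (S g * x * S k) = S' g * h.cj x * S' k := by
  ext1 v
  change U (S g (x (S k (U' v)))) = S' g (U (x (U' (S' k v))))
  rw [hS, h.inter_symm hS]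

include h in
theorem neC_au (hS : ∀ g v, U (S g v) = S' g (U v)) (hT : ∀ g v, U (T g v) = T' g (U v))
    (hR : ∀ g v, U (R g v) = R' g (U v)) (he : NeC p κ S T R μ) : NeC p κ S' T' R' μ := by
  obtain ⟨b, hb, hb0⟩ := he
  have hUc : Continuous U := by
    have hiso : Isometry U := by
      refine Isometry.of_dist_eq fun a c => ?_
      rw [dist_eq_norm, dist_eq_norm, ← au_sub h, h.norm]
    exact hiso.continuous
  refine ⟨fun x => h.cj (b x), ⟨fun a y => ?_, fun c y => ?_, ?_, fun ε hε => ?_, fun ε hε => ?_,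
    fun ζ => ?_⟩, fun h0 => hb0 ?_⟩
  · change h.cj (b (p a * y)) = _
    rw [hb.eqA, cj_conj h hT]
  · change h.cj (b y) = _
    rw [← cj_conj h hR, ← hb.eqB]
  · obtain ⟨C, hC⟩ := hb.bdd
    exact ⟨C, fun x => (norm_cj_le h _).trans (hC x)⟩
  · obtain ⟨W, hW, h1⟩ := hb.rcont ε hε
    refine ⟨W, hW, fun y hy x => ?_⟩
    change ‖h.cj (b (x * y)) - h.cj (b x)‖ ≤ ε
    rw [← cj_sub]
    exact (norm_cj_le h _).trans (h1 y hy x)
  · obtain ⟨W, hW, h1⟩ := hb.acont ε hε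
    refine ⟨W, hW, fun v hv x => ?_⟩
    change ‖S' v * h.cj (b x) * S' v⁻¹ - h.cj (b x)‖ ≤ ε
    rw [← cj_conj h hS, ← cj_sub]
    exact (norm_cj_le h _).trans (h1 v hv x)
  · have h1 := hb.l2 (U' ζ)
    change MemLp (fun x => U (b x (U' ζ))) 2 μ
    refine (memLp_congr_norm (f := fun x => U (b x (U' ζ))) (g := fun x => b x (U' ζ))
      (hUc.comp_aestronglyMeasurable h1.1) h1.1 (Filter.Eventually.of_forall fun x => ?_)).2 h1
    exact h.norm _
  · funext x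
    by_contra hx
    exact h.cj_ne hx (congrFun h0 x)

end au

end Vale.Agent.P092.H333.Amp
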