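import Vale.Agent.P092.H333.Cj

/-!
P092 (helper333): the conjugation representation `cj` of `Λ` on `L²(G; K)`.
-/

set_option linter.all false

open scoped InnerProductSpace Topology ENNReal
open Filter ContinuousLinearMap MeasureTheory
open Vale.Agent.P092.H160 Vale.Agent.P092.H156.Sm

namespace Vale.Agent.P092.H333

section rep

variable {Γ Λ G K : Type} [Group Γ] [Group Λ] [Countable Γ] [Group G] [TopologicalSpace G]
  [IsTopologicalGroup G] [MeasurableSpace G] [BorelSpace G]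
  [NormedAddCommGroup K] [InnerProductSpace ℂ K] [CompleteSpace K]
  {ρ : Γ →* (K →L[ℂ] K)} {V : Λ →* (K →L[ℂ] K)} {ω : K} {ι : Γ →* G} {μ : Measure G}
  [μ.IsMulLeftInvariant]
  {C C' : ℝ} {b b' : G → K →L[ℂ] K} {ξ ξ' : Lp K 2 μ}

theorem dense_bdd (h : RegRep ρ ω) [SigmaFinite μ] :
    Dense {ξ : Lp K 2 μ | ∃ C b, IsFld ρ ω ι μ C b ξ} := by
  have h1 := bddSub_dense (ι := ι) (μ := μ) h
  have h2 : Dense ((bddSub ρ ω ι μ : Submodule ℂ (Lp K 2 μ)) : Set (Lp K 2 μ)) := by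
    rw [dense_iff_closure_eq, ← Submodule.topologicalClosure_coe, h1]; rfl
  exact h2

theorem J_J (h : RegRep ρ ω) [SigmaFinite μ] (ξ : Lp K 2 μ) : J h ι μ (J h ι μ ξ) = ξ := by
  have h1 : (fun ξ => J h ι μ (J h ι μ ξ)) = fun ξ => ξ := by
    refine Continuous.ext_on (dense_bdd (ι := ι) h) ((J h ι μ).continuous.comp (J h ι μ).continuous)
      continuous_id ?_
    rintro ξ ⟨C, b, hb⟩
    have h2 := (hb.J h).J h
    simp only [adjoint_adjoint] at h2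
    exact h2.unique hb
  exact congrFun h1 ξ

/-- conjugation by `V v` on the level of vectors -/
noncomputable def cjL (h : Frm ρ V ω) (ι : Γ →* G) (μ : Measure G) [μ.IsMulLeftInvariant] (v : Λ) :
    Lp K 2 μ →L[ℂ] Lp K 2 μ :=
  (pw μ (V v)).comp ((J h.reg ι μ).comp ((pw μ (V v)).comp (J h.reg ι μ)))

theorem cjL_apply (h : Frm ρ V ω) (v : Λ) (ξ : Lp K 2 μ) :
    cjL h ι μ v ξ = pw μ (V v) (J h.reg ι μ (pw μ (V v) (J h.reg ι μ ξ))) := rfl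

theorem norm_cjL (h : Frm ρ V ω) (v : Λ) (ξ : Lp K 2 μ) : ‖cjL h ι μ v ξ‖ = ‖ξ‖ := by
  rw [cjL_apply, norm_pw (h.norm_map v), norm_J, norm_pw (h.norm_map v), norm_J]

theorem IsFld.cjL (h : Frm ρ V ω) (hb : IsFld ρ ω ι μ C b ξ) (v : Λ) :
    IsFld ρ ω ι μ C (fun x => V v * b x * V v⁻¹) (H333.cjL h ι μ v ξ) := by
  have h1 := ((((hb.J h.reg).pw (h.comm v) (h.norm_le v)).J h.reg).pw (h.comm v) (h.norm_le v))
  have h2 : (fun x => V v * adjoint (V v * adjoint (b x))) = fun x => V v * b x * V v⁻¹ := by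
    funext x
    rw [← star_eq_adjoint, star_mul, star_eq_adjoint, adjoint_adjoint, star_eq_adjoint, h.adj,
      mul_assoc]
  rw [h2] at h1
  exact h1

theorem cjL_one (h : Frm ρ V ω) [SigmaFinite μ] : cjL h ι μ 1 = 1 := by
  refine DFunLike.coe_injective ?_
  refine Continuous.ext_on (dense_bdd (ι := ι) h.reg) (cjL h ι μ 1).continuous continuous_id ?_
  rintro ξ ⟨C, b, hb⟩
  have h2 := hb.cjL h 1
  simp only [inv_one, map_one, one_mul, mul_one] at h2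
  exact h2.unique hb

theorem cjL_mul (h : Frm ρ V ω) [SigmaFinite μ] (v w : Λ) :
    cjL h ι μ (v * w) = cjL h ι μ v * cjL h ι μ w := by
  refine DFunLike.coe_injective ?_
  refine Continuous.ext_on (dense_bdd (ι := ι) h.reg) (cjL h ι μ (v * w)).continuous
    (cjL h ι μ v * cjL h ι μ w).continuous ?_
  rintro ξ ⟨C, b, hb⟩
  have h1 := hb.cjL h (v * w)
  have h2 := (hb.cjL h w).cjL h v
  have h3 : (fun x => V v * (V w * b x * V w⁻¹) * V v⁻¹) =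
      fun x => V (v * w) * b x * V (v * w)⁻¹ := by
    funext x
    rw [mul_inv_rev, map_mul, map_mul]; noncomm_ring
  rw [h3] at h2
  exact h1.unique h2

/-- **The conjugation representation.** -/
noncomputable def cj (h : Frm ρ V ω) (ι : Γ →* G) (μ : Measure G) [μ.IsMulLeftInvariant]
    [SigmaFinite μ] : Λ →* (Lp K 2 μ →L[ℂ] Lp K 2 μ) where
  toFun := cjL h ι μ
  map_one' := cjL_one h
  map_mul' := cjL_mul h

variable [SigmaFinite μ]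

theorem norm_cj (h : Frm ρ V ω) (v : Λ) (ξ : Lp K 2 μ) : ‖cj h ι μ v ξ‖ = ‖ξ‖ := norm_cjL h v ξ

theorem IsFld.cj (h : Frm ρ V ω) (hb : IsFld ρ ω ι μ C b ξ) (v : Λ) :
    IsFld ρ ω ι μ C (fun x => V v * b x * V v⁻¹) (H333.cj h ι μ v ξ) := hb.cjL h v

theorem cj_inv_apply (h : Frm ρ V ω) (v : Λ) (ξ : Lp K 2 μ) :
    cj h ι μ v (cj h ι μ v⁻¹ ξ) = ξ := by
  rw [← mul_ap, ← map_mul, mul_inv_cancel, map_one]; rfl

theorem inner_cj (h : Frm ρ V ω) (v : Λ) (ξ η : Lp K 2 μ) :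
    ⟪cj h ι μ v ξ, cj h ι μ v η⟫_ℂ = ⟪ξ, η⟫_ℂ := by
  let L : Lp K 2 μ →ₗᵢ[ℂ] Lp K 2 μ := ⟨(cj h ι μ v : Lp K 2 μ →ₗ[ℂ] Lp K 2 μ), norm_cj h v⟩
  exact L.inner_map_map ξ η

theorem adjoint_cj (h : Frm ρ V ω) (v : Λ) : adjoint (cj h ι μ v) = cj h ι μ v⁻¹ := by
  symm
  rw [eq_adjoint_iff]
  intro ξ η
  rw [← inner_cj h v, cj_inv_apply]

end rep

section inv

variable {Γ Λ G K : Type} [Group Γ] [Group Λ] [Countable Γ] [Group G] [TopologicalSpace G]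
  [IsTopologicalGroup G] [MeasurableSpace G] [BorelSpace G]
  [NormedAddCommGroup K] [InnerProductSpace ℂ K] [CompleteSpace K]
  {ρ : Γ →* (K →L[ℂ] K)} {V : Λ →* (K →L[ℂ] K)} {ω : K} {ι : Γ →* G} {μ : Measure G}
  [μ.IsMulLeftInvariant]
  {C C' : ℝ} {b b' : G → K →L[ℂ] K} {ξ ξ' : Lp K 2 μ}

theorem J_mem_CC (h : RegRep ρ ω) (hξ : ξ ∈ CC ρ ω ι μ C) : J h ι μ ξ ∈ CC ρ ω ι μ C :=
  let ⟨_, hb⟩ := hξ; ⟨_, hb.J h⟩

theorem cj_mem_CC [SigmaFinite μ] (h : Frm ρ V ω) (v : Λ) (hξ : ξ ∈ CC ρ ω ι μ C) :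
    cj h ι μ v ξ ∈ CC ρ ω ι μ C :=
  let ⟨_, hb⟩ := hξ; ⟨_, hb.cj h v⟩

theorem cj_mem_CC_iff [SigmaFinite μ] (h : Frm ρ V ω) (v : Λ) :
    cj h ι μ v ξ ∈ CC ρ ω ι μ C ↔ ξ ∈ CC ρ ω ι μ C := by
  refine ⟨fun h1 => ?_, cj_mem_CC h v⟩
  have h2 := cj_mem_CC h v⁻¹ h1
  rw [← mul_ap, ← map_mul, inv_mul_cancel, map_one] at h2
  exact h2

theorem convex_CC : Convex ℝ (CC ρ ω ι μ C) := by
  rintro ξ ⟨b, hb⟩ η ⟨c, hc⟩ s t hs ht hst
  refine ⟨fun x => (s : ℂ) • b x + (t : ℂ) • c x, ?_⟩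
  have h1 := (hb.smul (s : ℂ)).add (hc.smul (t : ℂ))
  have h2 : ‖(s : ℂ)‖ * C + ‖(t : ℂ)‖ * C = C := by
    rw [Complex.norm_real, Complex.norm_real, Real.norm_of_nonneg hs, Real.norm_of_nonneg ht,
      ← add_mul, hst, one_mul]
  rw [h2] at h1
  exact h1

theorem smul_mem_CC {c : ℂ} (hc : ‖c‖ ≤ 1) (hC : 0 ≤ C) (hξ : ξ ∈ CC ρ ω ι μ C) :
    c • ξ ∈ CC ρ ω ι μ C := by
  obtain ⟨b, hb⟩ := hξ
  exact ⟨_, (hb.smul c).mono (mul_le_of_le_one_left hC hc)⟩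

/-- right translation -/
noncomputable def rt (μ : Measure G) [μ.IsMulRightInvariant] (y : G) : Lp K 2 μ →L[ℂ] Lp K 2 μ :=
  (Lp.compMeasurePreservingₗᵢ ℂ (fun x => x * y)
    (measurePreserving_mul_right μ y)).toContinuousLinearMap

variable [μ.IsMulRightInvariant]

theorem rt_ae (y : G) (ξ : Lp K 2 μ) : rt μ y ξ =ᵐ[μ] fun x => ξ (x * y) :=
  Lp.coeFn_compMeasurePreserving ξ (measurePreserving_mul_right μ y)

theorem IsFld.rt (hb : IsFld ρ ω ι μ C b ξ) (y : G) :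
    IsFld ρ ω ι μ C (fun x => b (x * y)) (H333.rt μ y ξ) := by
  have hq : Measure.QuasiMeasurePreserving (fun x => x * y) μ μ :=
    (measurePreserving_mul_right μ y).quasiMeasurePreserving
  refine ⟨fun x => hb.bdd _, ?_, ?_⟩
  · filter_upwards [hq.ae hb.equiv] with x h1 γ
    rw [mul_assoc, h1]
  · filter_upwards [rt_ae y ξ, hq.ae hb.eq] with x h1 h2
    rw [h1, h2]

theorem rt_mem_CC (y : G) (hξ : ξ ∈ CC ρ ω ι μ C) : rt μ y ξ ∈ CC ρ ω ι μ C :=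
  let ⟨_, hb⟩ := hξ; ⟨_, hb.rt y⟩

theorem rt_cj [SigmaFinite μ] (h : Frm ρ V ω) (y : G) (v : Λ) :
    rt μ y * cj h ι μ v = cj h ι μ v * rt μ y := by
  refine DFunLike.coe_injective ?_
  refine Continuous.ext_on (dense_bdd (ι := ι) h.reg) (rt μ y * cj h ι μ v).continuous
    (cj h ι μ v * rt μ y).continuous ?_
  rintro ξ ⟨C, b, hb⟩
  exact ((hb.cj h v).rt y).unique ((hb.rt y).cj h v)

end inv

end Vale.Agent.P092.H333
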