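import Vale.Agent.P092.H333.Amp

/-!
P092 (helper333), project Q for all amplifications: the tight vector of `K ⊗ ℂ^Q`.
-/

set_option linter.all false

open scoped InnerProductSpace Topology
open Filter ContinuousLinearMap

namespace Vale.Agent.P092.H333.Amp

section signs

variable {Q : Type} [Group Q] [Fintype Q]

/-- the monomial group as a product -/
def fge (Q : Type) [Group Q] : (Q → ℤˣ) × Q ≃ FG Q where
  toFun p := ⟨p.1, p.2⟩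
  invFun f := (f.left, f.right)
  left_inv p := rfl
  right_inv f := rfl

open Classical in
noncomputable instance : Fintype (FG Q) := Fintype.ofEquiv _ (fge Q)

open Classical in
theorem sum_sign_pair {j k : Q} (h : j ≠ k) :
    ∑ e : Q → ℤˣ, (((e j : ℤ) : ℂ)) * ((e k : ℤ) : ℂ) = 0 := by
  have h1 := Equiv.sum_comp (Equiv.mulRight (Function.update (1 : Q → ℤˣ) j (-1)))
    fun e : Q → ℤˣ => (((e j : ℤ) : ℂ)) * ((e k : ℤ) : ℂ)
  have h2 : ∀ e : Q → ℤˣ, (((((Equiv.mulRight (Function.update (1 : Q → ℤˣ) j (-1))) e) j : ℤˣ) : ℤ) : ℂ) *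
      (((((Equiv.mulRight (Function.update (1 : Q → ℤˣ) j (-1))) e) k : ℤˣ) : ℤ) : ℂ) =
      - ((((e j : ℤ) : ℂ)) * ((e k : ℤ) : ℂ)) := by
    intro e
    change ((((e * Function.update (1 : Q → ℤˣ) j (-1)) j : ℤˣ) : ℤ) : ℂ) *
      ((((e * Function.update (1 : Q → ℤˣ) j (-1)) k : ℤˣ) : ℤ) : ℂ) = _
    rw [Pi.mul_apply, Pi.mul_apply, Function.update_self, Function.update_of_ne h.symm]
    simp
  rw [Finset.sum_congr rfl fun e _ => h2 e, Finset.sum_neg_distrib] at h1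
  have h3 : (2 : ℂ) * ∑ e : Q → ℤˣ, (((e j : ℤ) : ℂ)) * ((e k : ℤ) : ℂ) = 0 := by
    rw [two_mul]
    nth_rewrite 2 [← h1]
    exact add_neg_cancel _
  exact (mul_eq_zero.mp h3).resolve_left two_ne_zero

theorem sq_sign (e : ℤˣ) : ((e : ℤ) : ℂ) * ((e : ℤ) : ℂ) = 1 := by
  rcases Int.units_eq_one_or e with h | h <;> simp [h]

theorem conj_sign (e : ℤˣ) : (starRingEnd ℂ) ((e : ℤ) : ℂ) = ((e : ℤ) : ℂ) := by
  rcases Int.units_eq_one_or e with h | h <;> simp [h]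

open Classical in
theorem sum_signs (b : Q → ℂ) : ∑ e : Q → ℤˣ, ‖∑ j, ((e j : ℤ) : ℂ) * b j‖ ^ 2 =
    2 ^ Fintype.card Q * ∑ j, ‖b j‖ ^ 2 := by
  have h1 : ∀ e : Q → ℤˣ, ((‖∑ j, ((e j : ℤ) : ℂ) * b j‖ ^ 2 : ℝ) : ℂ) =
      ∑ j, ∑ k, (b j * (starRingEnd ℂ) (b k)) * ((((e j : ℤ) : ℂ)) * ((e k : ℤ) : ℂ)) := by
    intro e
    rw [← Complex.normSq_eq_norm_sq, ← Complex.mul_conj, map_sum, Finset.sum_mul]
    refine Finset.sum_congr rfl fun j _ => ?_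
    rw [Finset.mul_sum]
    refine Finset.sum_congr rfl fun k _ => ?_
    rw [map_mul, conj_sign]
    ring
  have h2 : ((∑ e : Q → ℤˣ, ‖∑ j, ((e j : ℤ) : ℂ) * b j‖ ^ 2 : ℝ) : ℂ) =
      ((2 ^ Fintype.card Q * ∑ j, ‖b j‖ ^ 2 : ℝ) : ℂ) := by
    rw [Complex.ofReal_sum, Finset.sum_congr rfl fun e _ => h1 e, Finset.sum_comm]
    have h3 : ∀ j, ∑ e : Q → ℤˣ, ∑ k, (b j * (starRingEnd ℂ) (b k)) *
        ((((e j : ℤ) : ℂ)) * ((e k : ℤ) : ℂ)) = 2 ^ Fintype.card Q * ((‖b j‖ ^ 2 : ℝ) : ℂ) := by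
      intro j
      rw [Finset.sum_comm, Finset.sum_eq_single j]
      · rw [← Finset.mul_sum, Finset.sum_congr rfl fun e _ => sq_sign (e j)]
        rw [Finset.sum_const, Finset.card_univ, Fintype.card_fun, Complex.mul_conj,
          Complex.normSq_eq_norm_sq, Fintype.card_units_int]
        simp [mul_comm]
      · intro k _ hk
        rw [← Finset.mul_sum, sum_sign_pair hk.symm, mul_zero]
      · intro h; exact absurd (Finset.mem_univ j) h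
    rw [Finset.sum_congr rfl fun j _ => h3 j, ← Finset.mul_sum]
    push_cast
    rfl
  exact_mod_cast h2

theorem sum_FG (b : Q → Q → ℂ) :
    ∑ f : FG Q, ‖∑ j, ((f.left j : ℤ) : ℂ) * b (f.right⁻¹ * j) j‖ ^ 2 =
      2 ^ Fintype.card Q * ∑ i, ∑ j, ‖b i j‖ ^ 2 := by
  classical
  rw [← (fge Q).sum_comp, Fintype.sum_prod_type_right]
  have h1 : ∀ q : Q, ∑ e : Q → ℤˣ, ‖∑ j, (((fge Q (e, q)).left j : ℤ) : ℂ) *
      b ((fge Q (e, q)).right⁻¹ * j) j‖ ^ 2 = 2 ^ Fintype.card Q * ∑ j, ‖b (q⁻¹ * j) j‖ ^ 2 :=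
    fun q => sum_signs fun j => b (q⁻¹ * j) j
  rw [Finset.sum_congr rfl fun q _ => h1 q, ← Finset.mul_sum, Finset.sum_comm]
  congr 1
  rw [Finset.sum_comm (f := fun i j => ‖b i j‖ ^ 2)]
  refine Finset.sum_congr rfl fun j _ => ?_
  exact ((Equiv.inv Q).trans (Equiv.mulRight j)).sum_comp fun i => ‖b i j‖ ^ 2

end signs

section tight

variable {X Q K : Type} [Group X] [Group Q] [Fintype Q] [NormedAddCommGroup K]
  [InnerProductSpace ℂ K] [CompleteSpace K] {ρ : X →* (K →L[ℂ] K)} {ζ : Q → K}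

/-- the representation `ρ ⊗ σ` of `X × F` -/
noncomputable def rt (Q : Type) [Group Q] [Fintype Q] (ρ : X →* (K →L[ℂ] K)) :
    X × FG Q →* (KT Q K →L[ℂ] KT Q K) where
  toFun p := amp (ρ p.1) * sg p.2
  map_one' := by
    rw [Prod.fst_one, Prod.snd_one, map_one, amp_one, sg_one, one_mul]
  map_mul' p q := by
    rw [Prod.fst_mul, Prod.snd_mul, map_mul, amp_mul, sg_mul, mul_assoc, ← mul_assoc (amp (ρ q.1)),
      amp_sg]
    simp only [mul_assoc]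

theorem rt_apply (p : X × FG Q) : rt Q ρ p = amp (ρ p.1) * sg p.2 := rfl

/-- `Σ_j ζ_j ⊗ e_j` -/
noncomputable def vz (ζ : Q → K) : KT Q K := ∑ j, em j (ζ j)

theorem vz_apply (ζ : Q → K) (j : Q) : vz ζ j = ζ j := by
  classical
  have h1 : vz ζ j = ∑ i, (em i (ζ i)) j := by
    rw [vz, ← co_apply, map_sum]; rfl
  rw [h1, Finset.sum_eq_single j]
  · exact em_same _ _
  · intro i _ hi
    exact em_ne hi.symm _
  · intro h; exact absurd (Finset.mem_univ j) h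

theorem norm_vz (ζ : Q → K) : ‖vz ζ‖ ^ 2 = ∑ j, ‖ζ j‖ ^ 2 := by
  rw [norm_sq_KT]
  exact Finset.sum_congr rfl fun j _ => by rw [vz_apply]

/-- the coefficients -/
theorem inner_rt (hρ : ∀ x, adjoint (ρ x) = ρ x⁻¹) (p : X × FG Q) (v : KT Q K) :
    ⟪rt Q ρ p (vz ζ), v⟫_ℂ =
      ∑ j, ((p.2.left j : ℤ) : ℂ) * ⟪ρ p.1 (ζ (p.2.right⁻¹ * j)), v j⟫_ℂ := by
  rw [inner_KT]
  refine Finset.sum_congr rfl fun j _ => ?_
  change ⟪ρ p.1 (sg p.2 (vz ζ) j), v j⟫_ℂ = _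
  rw [sg_apply, vz_apply, map_smul, inner_smul_left, conj_sign]

/-- **The tight frame.** -/
theorem tight (hρ : ∀ x, adjoint (ρ x) = ρ x⁻¹) {C₀ : ℝ}
    (hf : ∀ u : K, HasSum (fun p : Q × X => ‖⟪ρ p.2 (ζ p.1), u⟫_ℂ‖ ^ 2) (C₀ * ‖u‖ ^ 2))
    (v : KT Q K) : HasSum (fun p : X × FG Q => ‖⟪rt Q ρ p (vz ζ), v⟫_ℂ‖ ^ 2)
      (2 ^ Fintype.card Q * C₀ * ‖v‖ ^ 2) := by
  classical
  have h1 : ∀ x : X, HasSum (fun f : FG Q => ‖⟪rt Q ρ (x, f) (vz ζ), v⟫_ℂ‖ ^ 2)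
      (2 ^ Fintype.card Q * ∑ i, ∑ j, ‖⟪ρ x (ζ i), v j⟫_ℂ‖ ^ 2) := by
    intro x
    have h2 := hasSum_fintype fun f : FG Q => ‖⟪rt Q ρ (x, f) (vz ζ), v⟫_ℂ‖ ^ 2
    rw [Finset.sum_congr rfl fun f _ => by rw [inner_rt hρ],
      sum_FG fun i j => ⟪ρ x (ζ i), v j⟫_ℂ] at h2
    exact h2
  have h3 : HasSum (fun x : X => 2 ^ Fintype.card Q * ∑ i, ∑ j, ‖⟪ρ x (ζ i), v j⟫_ℂ‖ ^ 2)
      (2 ^ Fintype.card Q * C₀ * ‖v‖ ^ 2) := by
    rw [mul_assoc]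
    refine HasSum.mul_left _ ?_
    rw [norm_sq_KT, Finset.mul_sum]
    have h4 : ∀ j, HasSum (fun x : X => ∑ i, ‖⟪ρ x (ζ i), v j⟫_ℂ‖ ^ 2) (C₀ * ‖v j‖ ^ 2) := by
      intro j
      have h5 : HasSum (fun p : X × Q => ‖⟪ρ p.1 (ζ p.2), v j⟫_ℂ‖ ^ 2) (C₀ * ‖v j‖ ^ 2) :=
        (Equiv.prodComm X Q).hasSum_iff.2 (hf (v j))
      exact h5.prod_fiberwise fun x => hasSum_fintype _
    have h6 := hasSum_sum fun (j : Q) (_ : j ∈ Finset.univ) => h4 j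
    have h7 : (fun x : X => ∑ j, ∑ i, ‖⟪ρ x (ζ i), v j⟫_ℂ‖ ^ 2) =
        fun x : X => ∑ i, ∑ j, ‖⟪ρ x (ζ i), v j⟫_ℂ‖ ^ 2 := funext fun x => Finset.sum_comm
    rw [h7] at h6
    exact h6
  have hsum : Summable fun p : X × FG Q => ‖⟪rt Q ρ p (vz ζ), v⟫_ℂ‖ ^ 2 := by
    rw [summable_prod_of_nonneg fun _ => by positivity]
    refine ⟨fun x => (h1 x).summable, ?_⟩
    refine h3.summable.congr fun x => ?_
    exact (h1 x).tsum_eq.symm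
  have h7 := hsum.hasSum
  have h8 := h7.prod_fiberwise h1
  rw [h8.unique h3] at h7
  exact h7

theorem inner_vz (ζ : Q → K) (T : K →L[ℂ] K) :
    ⟪vz ζ, amp T (vz ζ)⟫_ℂ = ∑ j, ⟪ζ j, T (ζ j)⟫_ℂ := by
  rw [inner_KT]
  refine Finset.sum_congr rfl fun j _ => ?_
  rw [amp_apply, vz_apply]

/-- **The unit tight vector** made of a finite Parseval frame. -/
theorem exists_tight (hρ : ∀ x, adjoint (ρ x) = ρ x⁻¹) {J : Type} [Fintype J] {ξ : J → K}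
    (h0 : ∃ k, ξ k ≠ 0) {C₀ : ℝ} (hC₀ : 0 < C₀)
    (hf : ∀ u : K, HasSum (fun p : J × X => ‖⟪ρ p.2 (ξ p.1), u⟫_ℂ‖ ^ 2) (C₀ * ‖u‖ ^ 2))
    (hJ : Fintype.card J ≤ Fintype.card Q) :
    ∃ (ω : KT Q K) (C c : ℝ), 0 < C ∧ 0 < c ∧ ‖ω‖ = 1 ∧
      (∀ v, HasSum (fun p : X × FG Q => ‖⟪rt Q ρ p ω, v⟫_ℂ‖ ^ 2) (C * ‖v‖ ^ 2)) ∧
      ∀ T : K →L[ℂ] K, ⟪ω, amp T ω⟫_ℂ = (c : ℂ) * ∑ k, ⟪ξ k, T (ξ k)⟫_ℂ := by
  classical
  obtain ⟨i⟩ := Function.Embedding.nonempty_of_card_le hJ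
  set ζ : Q → K := Function.extend i ξ 0 with hζ
  have hζ1 : ∀ k, ζ (i k) = ξ k := fun k => i.injective.extend_apply _ _ _
  have hζ0 : ∀ q, (∀ k, i k ≠ q) → ζ q = 0 := by
    intro q hq
    rw [hζ, Function.extend_apply' _ _ _ (by rintro ⟨k, hk⟩; exact hq k hk)]
    rfl
  have hsumQ : ∀ {M : Type} [AddCommMonoid M] (g : K → M), g 0 = 0 →
      ∑ q, g (ζ q) = ∑ k, g (ξ k) := by
    intro M _ g hg
    rw [← Finset.sum_subset (Finset.subset_univ (Finset.univ.map i))]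
    · rw [Finset.sum_map]
      exact Finset.sum_congr rfl fun k _ => by rw [hζ1]
    · intro q _ hq
      rw [hζ0 q, hg]
      intro k hk
      exact hq (Finset.mem_map.2 ⟨k, Finset.mem_univ _, hk⟩)
  have hfQ : ∀ u : K, HasSum (fun p : Q × X => ‖⟪ρ p.2 (ζ p.1), u⟫_ℂ‖ ^ 2) (C₀ * ‖u‖ ^ 2) := by
    intro u
    have hinj : Function.Injective fun p : J × X => (i p.1, p.2) := by
      rintro ⟨a, x⟩ ⟨b, y⟩ h
      simp only [Prod.mk.injEq] at h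
      rw [i.injective h.1, h.2]
    refine (hinj.hasSum_iff ?_).1 ?_
    · rintro ⟨q, x⟩ hq
      change ‖⟪ρ x (ζ q), u⟫_ℂ‖ ^ 2 = 0
      rw [hζ0 q, map_zero, inner_zero_left]
      · simp
      · intro k hk
        exact hq ⟨(k, x), by simp [hk]⟩
    · have h2 : ((fun p : Q × X => ‖⟪ρ p.2 (ζ p.1), u⟫_ℂ‖ ^ 2) ∘ fun p : J × X => (i p.1, p.2)) =
          fun p : J × X => ‖⟪ρ p.2 (ξ p.1), u⟫_ℂ‖ ^ 2 := by
        funext p
        change ‖⟪ρ p.2 (ζ (i p.1)), u⟫_ℂ‖ ^ 2 = _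
        rw [hζ1]
      rw [h2]
      exact hf u
  have hpos : 0 < ∑ k, ‖ξ k‖ ^ 2 := by
    obtain ⟨k, hk⟩ := h0
    have h1 : 0 < ‖ξ k‖ ^ 2 := by
      have := norm_pos_iff.2 hk
      positivity
    exact lt_of_lt_of_le h1 (Finset.single_le_sum (f := fun k => ‖ξ k‖ ^ 2)
      (fun _ _ => by positivity) (Finset.mem_univ k))
  set s : ℝ := ∑ k, ‖ξ k‖ ^ 2 with hs
  have hns : ‖vz ζ‖ ^ 2 = s := by
    rw [norm_vz, hsumQ (fun u => ‖u‖ ^ 2) (by simp)]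
  set r : ℝ := (Real.sqrt s)⁻¹ with hr
  have hr2 : r ^ 2 * s = 1 := by
    rw [hr, inv_pow, Real.sq_sqrt hpos.le, inv_mul_cancel₀ hpos.ne']
  have hr0 : 0 < r := inv_pos.2 (Real.sqrt_pos.2 hpos)
  refine ⟨(r : ℂ) • vz ζ, r ^ 2 * (2 ^ Fintype.card Q * C₀), r ^ 2, by positivity, by positivity,
    ?_, fun v => ?_, fun T => ?_⟩
  · rw [norm_smul, Complex.norm_real, Real.norm_of_nonneg hr0.le]
    have h1 : (r * ‖vz ζ‖) ^ 2 = 1 ^ 2 := by rw [mul_pow, hns, hr2, one_pow]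
    exact (pow_left_inj₀ (by positivity) zero_le_one two_ne_zero).mp h1
  · have h1 := (tight hρ hfQ v).mul_left (r ^ 2)
    have h2 : (fun p : X × FG Q => r ^ 2 * ‖⟪rt Q ρ p (vz ζ), v⟫_ℂ‖ ^ 2) =
        fun p : X × FG Q => ‖⟪rt Q ρ p ((r : ℂ) • vz ζ), v⟫_ℂ‖ ^ 2 := by
      funext p
      rw [map_smul, inner_smul_left, norm_mul, Complex.conj_ofReal, Complex.norm_real,
        Real.norm_of_nonneg hr0.le, mul_pow]
    rw [h2] at h1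
    rw [mul_assoc]
    exact h1
  · rw [map_smul, inner_smul_left, inner_smul_right, inner_vz, Complex.conj_ofReal,
      hsumQ (fun u => ⟪u, T u⟫_ℂ) (by simp)]
    push_cast
    ring

end tight

end Vale.Agent.P092.H333.Amp
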