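import Vale.Agent.P092.H333.ErgQ

/-!
P092 (helper333), project Q for all amplifications: the model `HH(α, α, α) ⊗ ℂ^Q` with its double
frames and their ergodicity; from the conclusion `Ovl` to a finite family of vectors of
`HH(α, α, α)`.
-/

set_option linter.all false

open scoped InnerProductSpace Topology
open Filter ContinuousLinearMap

namespace Vale.Agent.P092.H333.Amp

open Vale.Agent.P092.H160 (Cmm Ell2)
open Vale.Agent.P092.H103 (AF)
open Vale.Agent.P092.SR (Tri ErgAt)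
open Vale.Agent.P092.QT (TRep)
open Vale.Agent.P092.QT.H156.Sm (Frm)
open Vale.Agent.P092.QT.H715.Q (Dbl)
open Vale.Agent.P092.H962

section ovl

variable {Γ Q ℋ : Type} [Group Γ] [Group Q] [Fintype Q] [NormedAddCommGroup ℋ]
  [InnerProductSpace ℂ ℋ] [CompleteSpace ℋ] {V A B : Γ →* (ℋ →L[ℂ] ℋ)}

/-- A correlation in `ℋ ⊗ ℂ^Q` gives correlations in `ℋ`. -/
theorem overlap_down {h : ∀ g k, A g * B k = B k * A g} {r : ℕ} {ζ : Fin r → KT Q ℋ} {κ : ℝ}
    (hκ : 0 < κ) (hov : ∀ g, ∃ i j, ∃ x : XG Γ Q, κ ≤ ‖⟪av Q V g (ζ i), rt Q (pr A B h) x (ζ j)⟫_ℂ‖) :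
    ∃ (s : ℕ) (η : Fin s → ℋ) (c : ℝ), 0 < c ∧
      ∀ g, ∃ (i j : Fin s) (a b : Γ), c ≤ ‖⟪V g (η i), A a (B b (η j))⟫_ℂ‖ := by
  classical
  have hn : 0 < Fintype.card Q := Fintype.card_pos
  let e := Fintype.equivFin (Fin r × Q)
  refine ⟨Fintype.card (Fin r × Q), fun k => ζ (e.symm k).1 (e.symm k).2, κ / Fintype.card Q,
    by positivity, fun g => ?_⟩
  obtain ⟨i, j, ⟨⟨a, b⟩, f⟩, hx⟩ := hov g
  have h1 : ⟪av Q V g (ζ i), rt Q (pr A B h) ((a, b), f) (ζ j)⟫_ℂ =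
      ∑ q, ((f.left q : ℤ) : ℂ) * ⟪V g (ζ i q), A a (B b (ζ j (f.right⁻¹ * q)))⟫_ℂ := by
    rw [inner_KT]
    refine Finset.sum_congr rfl fun q _ => ?_
    change ⟪V g (ζ i q), (A a * B b) (sg f (ζ j) q)⟫_ℂ = _
    rw [sg_apply, map_smul, inner_smul_right]
    rfl
  have h2 : ∃ q, κ / Fintype.card Q ≤
      ‖⟪V g (ζ i q), A a (B b (ζ j (f.right⁻¹ * q)))⟫_ℂ‖ := by
    by_contra hcon
    push Not at hcon
    have h3 : ‖⟪av Q V g (ζ i), rt Q (pr A B h) ((a, b), f) (ζ j)⟫_ℂ‖ < κ := by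
      rw [h1]
      calc _ ≤ ∑ q, ‖((f.left q : ℤ) : ℂ) * ⟪V g (ζ i q), A a (B b (ζ j (f.right⁻¹ * q)))⟫_ℂ‖ :=
            norm_sum_le _ _
        _ = ∑ q, ‖⟪V g (ζ i q), A a (B b (ζ j (f.right⁻¹ * q)))⟫_ℂ‖ := by
            refine Finset.sum_congr rfl fun q _ => ?_
            rw [norm_mul]
            have : ‖((f.left q : ℤ) : ℂ)‖ = 1 := by
              rcases Int.units_eq_one_or (f.left q) with h0 | h0 <;> simp [h0]
            rw [this, one_mul]
        _ < ∑ q : Q, κ / Fintype.card Q :=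
            Finset.sum_lt_sum_of_nonempty ⟨1, Finset.mem_univ _⟩ fun q _ => hcon q
        _ = κ := by
            rw [Finset.sum_const, Finset.card_univ, nsmul_eq_mul]
            field_simp
    exact absurd hx (not_le.mpr h3)
  obtain ⟨q, hq⟩ := h2
  refine ⟨e (i, q), e (j, f.right⁻¹ * q), a, b, ?_⟩
  simp only [Equiv.symm_apply_apply]
  exact hq

end ovl

section model

variable {Γ Λ I : Type} [Group Γ] [Group Λ] [Fintype I]
  {α : Γ → (Ell2 (I × Λ) →L[ℂ] Ell2 (I × Λ))}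

/-- **The model of project Q for all amplifications.** -/
theorem exists_model (hΓ : ∀ g : Γ, g ≠ 1 → Set.Infinite {y : Γ | ∃ h, y = h * g * h⁻¹})
    (hΛ : ∀ s : Λ, s ≠ 1 → Set.Infinite {y : Λ | ∃ h, y = h * s * h⁻¹}) (hα : AF α) :
    ∃ (N : ℕ) (hc : ∀ g k, A3R hα hα hα g * B3R hα hα hα k = B3R hα hα hα k * A3R hα hα hα g)
      (h1 : ∀ g k, V3 hα hα hα g * A3R hα hα hα k = A3R hα hα hα k * V3 hα hα hα g)
      (h2 : ∀ g k, V3 hα hα hα g * B3R hα hα hα k = B3R hα hα hα k * V3 hα hα hα g)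
      (ω : KT (Multiplicative (ZMod (N + 1))) (HH (PT α α α)))
      (ω' : Bool → KT (Multiplicative (ZMod (N + 1))) (HH (PT α α α))),
      (∀ l, Dbl (av (Multiplicative (ZMod (N + 1))) (V3 hα hα hα))
        (lR (Multiplicative (ZMod (N + 1))) (A3R hα hα hα) (B3R hα hα hα) l)
        (lf Γ (Multiplicative (ZMod (N + 1))) l)
        (rt (Multiplicative (ZMod (N + 1))) (pr (A3R hα hα hα) (B3R hα hα hα) hc))
        (lf Γ (Multiplicative (ZMod (N + 1))) false)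
        (rl (Multiplicative (ZMod (N + 1))) (V3 hα hα hα) (A3R hα hα hα) (B3R hα hα hα) h1 h2 l)
        ω (ω' l)) ∧
      ∀ {H : Type} [Group H] [TopologicalSpace H] (κ : Γ →* H),
        (∀ (β : Γ → (Ell2 (I × Λ) →L[ℂ] Ell2 (I × Λ))) (hβ : AF β),
          ErgC κ (V3 hα hα hβ) (A3R hα hα hβ) (B3R hα hα hβ)) →
        QT.H805.Erg κ (rt (Multiplicative (ZMod (N + 1))) (pr (A3R hα hα hα) (B3R hα hα hα) hc))
          (av (Multiplicative (ZMod (N + 1))) (V3 hα hα hα)) ω ∧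
        ∀ l, QT.H805.Erg κ
          (rl (Multiplicative (ZMod (N + 1))) (V3 hα hα hα) (A3R hα hα hα) (B3R hα hα hα) h1 h2 l)
          (lR (Multiplicative (ZMod (N + 1))) (A3R hα hα hα) (B3R hα hα hα) l) (ω' l) := by
  obtain ⟨m, m', ξ, hT⟩ := exists_tri hα hα hα hΛ
  obtain ⟨n, n', ξ₁, hT₁⟩ := exists_tri' hα hα hα hΛ
  have hW := swap_AU (β := α) (γ := α) hα
  have hT₂ : Tri (B3R hα hα hα) (V3 hα hα hα) (A3R hα hα hα) (fun k => swU hα (ξ₁ k)) :=
    hW.tri (swU_A hα hα hα) (swU_V hα hα hα) (swU_B hα hα hα) (fun c => rfl) hT₁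
  set N : ℕ := Fintype.card (I × (Fin m × Fin m')) + Fintype.card (I × (Fin n × Fin n')) with hN
  have hcard : Fintype.card (Multiplicative (ZMod (N + 1))) = N + 1 := by
    rw [Fintype.card_multiplicative, ZMod.card]
  obtain ⟨ω, ω', hD⟩ := exists_dbl (Q := Multiplicative (ZMod (N + 1))) hΓ hT hT₁ hT₂
    (by rw [hcard, hN]; omega) (by rw [hcard, hN]; omega) (by rw [hcard, hN]; omega)
  refine ⟨N, hT.comm₁₂, hT.comm₁, hT.comm₂, ω, ω', hD, fun {H} _ _ κ he => ⟨?_, fun l => ?_⟩⟩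
  · exact erg_amp (hD false).fr (he α hα)
  · have hS := (flip_AU hα hα hα).symm
    have e1 : ErgC κ (A3R hα hα hα) (V3 hα hα hα) (B3R hα hα hα) :=
      ergC_au hS (flU'_V hα hα hα) (flU'_A hα hα hα) (flU'_B hα hα hα) (he _ (AF.bar hα))
    have e2 : ErgC κ (B3R hα hα hα) (V3 hα hα hα) (A3R hα hα hα) :=
      ergC_au hW (swU_A hα hα hα) (swU_V hα hα hα) (swU_B hα hα hα) e1
    cases l with
    | false => exact erg_amp (hD false).fr' e1
    | true => exact erg_amp (hD true).fr' e2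

end model

end Vale.Agent.P092.H333.Amp
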